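import Mathlib

/-!
# P250 disproof, part 4: the algebra of the curvature at one point

In a unitary frame `e₁, e₂, e_v` that diagonalises `A = G^{-1/2} Θ G^{-1/2}` with entries `a i`, the
curvature in the plane of `x, y` is minus a quadratic form in `W = i (x y* - y x*)`. The base block
`R(G)` and the mixed block enter through the values `B`, `Cr` and their bounds.
-/

open Complex

noncomputable section

namespace Vale.Agent.P250.Disproof.Alg

/-- `W = i (x y* - y x*)`. -/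
def wedge (x y : Fin 3 → ℂ) (i j : Fin 3) : ℂ :=
  I * (x i * (starRingEnd ℂ) (y j) - y i * (starRingEnd ℂ) (x j))

/-- A diagonal entry of `W`. -/
def wd (x y : Fin 3 → ℂ) (i : Fin 3) : ℝ := (wedge x y i i).re

/-- The squared size of the base block. -/
def nh (x y : Fin 3 → ℂ) : ℝ := wd x y 0 ^ 2 + wd x y 1 ^ 2 + 2 * normSq (wedge x y 0 1)

/-- The squared size of the mixed block. -/
def nu (x y : Fin 3 → ℂ) : ℝ := normSq (wedge x y 0 2) + normSq (wedge x y 1 2)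

/-- The square of the area in the unitary frame. -/
def area (x y : Fin 3 → ℂ) : ℝ :=
  (∑ i, normSq (x i)) * (∑ i, normSq (y i)) - (∑ i, ((starRingEnd ℂ) (x i) * y i).re) ^ 2

/-- An entry of `M = A (1 + 2 p - (1 + p) p A)`. -/
def mix (p a : ℝ) : ℝ := a * (1 + 2 * p - (1 + p) * (p * a))

/-- Minus the curvature: `B` is the value of `-R(G)`, `Cr` that of the mixed terms. -/
def negCurv (p : ℝ) (a : Fin 2 → ℝ) (B Cr : ℝ) (x y : Fin 3 → ℂ) : ℝ :=
  (p + p ^ 2) * ((a 0 * wd x y 0 + a 1 * wd x y 1) ^ 2 + (a 0 * wd x y 0) ^ 2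
      + (a 1 * wd x y 1) ^ 2 + 2 * (a 0 * a 1) * normSq (wedge x y 0 1))
    + 2 * wd x y 2 * (mix p (a 0) * wd x y 0 + mix p (a 1) * wd x y 1)
    + 2 * (mix p (a 0) * normSq (wedge x y 0 2) + mix p (a 1) * normSq (wedge x y 1 2))
    + 2 * wd x y 2 ^ 2 + B + Cr

/-- What the computation of the curvature supplies: the bounds on the entries and on `B`, `Cr`. -/
structure Data (κ l L C p : ℝ) (a : Fin 2 → ℝ) (B Cr : ℝ) (x y : Fin 3 → ℂ) : Prop where
  p_nonneg : 0 ≤ p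
  a_lower : ∀ i, l / (C + p) ≤ a i
  a_upper : ∀ i, a i ≤ L / (C + p)
  pa_le : ∀ i, p * a i ≤ 1
  B_lower : (κ / C - L * p / C ^ 2) * nh x y ≤ B
  B_abs : |B| ≤ L / C * nh x y
  Cr_sq : Cr ^ 2 ≤ L ^ 2 * (p * (1 + p)) / (C + p) ^ 3 * (nh x y * nu x y)

/-! ### `W` and the area -/

theorem nh_nonneg (x y : Fin 3 → ℂ) : 0 ≤ nh x y := by
  unfold nh
  have := normSq_nonneg (wedge x y 0 1)
  positivity

theorem nu_nonneg (x y : Fin 3 → ℂ) : 0 ≤ nu x y :=
  add_nonneg (normSq_nonneg _) (normSq_nonneg _)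

/-- The base block has one eigenvalue of each sign. -/
theorem det_nonpos (x y : Fin 3 → ℂ) : wd x y 0 * wd x y 1 ≤ normSq (wedge x y 0 1) := by
  have e : normSq (wedge x y 0 1) - wd x y 0 * wd x y 1 = normSq (x 0 * y 1 - x 1 * y 0) := by
    simp only [wd, wedge, normSq_apply, mul_re, mul_im, sub_re, sub_im, conj_re, conj_im, I_re, I_im]
    ring
  linarith [normSq_nonneg (x 0 * y 1 - x 1 * y 0)]

theorem area_bounds (x y : Fin 3 → ℂ) :
    2 * area x y ≤ wd x y 2 ^ 2 + nh x y + 2 * nu x y ∧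
      wd x y 2 ^ 2 + nh x y + 2 * nu x y ≤ 4 * area x y := by
  have e : wd x y 2 ^ 2 + nh x y + 2 * nu x y
      = 2 * area x y + 2 * (∑ i, ((starRingEnd ℂ) (x i) * y i).im) ^ 2 := by
    simp only [area, nh, nu, wd, wedge, Fin.sum_univ_three, normSq_apply, mul_re, mul_im, sub_re,
      sub_im, conj_re, conj_im, I_re, I_im]
    ring
  have f : area x y - (∑ i, ((starRingEnd ℂ) (x i) * y i).im) ^ 2
      = normSq (x 0 * y 1 - x 1 * y 0) + normSq (x 0 * y 2 - x 2 * y 0)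
        + normSq (x 1 * y 2 - x 2 * y 1) := by
    simp only [area, Fin.sum_univ_three, normSq_apply, mul_re, mul_im, sub_re, sub_im, conj_re,
      conj_im]
    ring
  have := sq_nonneg (∑ i, ((starRingEnd ℂ) (x i) * y i).im)
  have := normSq_nonneg (x 0 * y 1 - x 1 * y 0)
  have := normSq_nonneg (x 0 * y 2 - x 2 * y 0)
  have := normSq_nonneg (x 1 * y 2 - x 2 * y 1)
  constructor <;> linarith

/-! ### The block inequality -/

/-- A weighted sum of numbers of opposite sign. -/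
theorem weighted_sq {r μ n₁ n₂ l m : ℝ} (h1 : r ≤ n₁) (h1' : n₁ ≤ μ) (h2 : r ≤ n₂) (h2' : n₂ ≤ μ)
    (hl : 0 ≤ l) (hm : 0 ≤ m) :
    (n₁ * l - n₂ * m) ^ 2 ≤ max ((μ * l - r * m) ^ 2) ((μ * m - r * l) ^ 2) := by
  rcases le_total 0 (n₁ * l - n₂ * m) with h | h
  · refine le_max_of_le_left (pow_le_pow_left₀ h ?_ 2)
    linarith [mul_le_mul_of_nonneg_right h1' hl, mul_le_mul_of_nonneg_right h2 hm]
  · refine le_max_of_le_right ?_
    rw [← neg_sq (n₁ * l - n₂ * m)]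
    refine pow_le_pow_left₀ (by linarith) ?_ 2
    linarith [mul_le_mul_of_nonneg_right h2' hm, mul_le_mul_of_nonneg_right h1 hl]

/-- The cases of two diagonal entries, with the off-diagonal `Q`. -/
theorem block_cases {r μ n₁ n₂ Y₁ Y₂ Q e : ℝ} (hr : 0 ≤ r) (h1 : r ≤ n₁) (h1' : n₁ ≤ μ)
    (h2 : r ≤ n₂) (h2' : n₂ ≤ μ) (hQ : 0 ≤ Q) (hdet : Y₁ * Y₂ ≤ Q)
    (hsame : ∀ σ, 0 ≤ Y₁ * Y₂ → σ ≤ Q → Y₁ * Y₂ ≤ σ → (μ * (Y₁ + Y₂)) ^ 2 ≤ e)
    (hopp : ∀ l m, 0 ≤ l → 0 ≤ m → ((Y₁ = l ∧ Y₂ = -m) ∨ (Y₁ = -l ∧ Y₂ = m)) →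
      (μ * l - r * m) ^ 2 ≤ e ∧ (μ * m - r * l) ^ 2 ≤ e) :
    (n₁ * Y₁ + n₂ * Y₂) ^ 2 ≤ e := by
  rcases le_total 0 (Y₁ * Y₂) with h | h
  · refine le_trans ?_ (hsame Q h le_rfl hdet)
    refine sq_le_sq.2 ?_
    have hμ : 0 ≤ μ := hr.trans (h1.trans h1')
    rcases le_total 0 Y₁ with a | a <;> rcases le_total 0 Y₂ with b | b
    · rw [abs_of_nonneg (add_nonneg (mul_nonneg (hr.trans h1) a) (mul_nonneg (hr.trans h2) b)),
        abs_of_nonneg (mul_nonneg hμ (add_nonneg a b))]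
      linarith [mul_le_mul_of_nonneg_right h1' a, mul_le_mul_of_nonneg_right h2' b]
    · have e0 : Y₁ * Y₂ = 0 := le_antisymm (mul_nonpos_of_nonneg_of_nonpos a b) h
      rcases mul_eq_zero.1 e0 with e1 | e1 <;> simp only [e1, mul_zero, zero_add, add_zero, abs_mul,
        abs_of_nonneg hμ, abs_of_nonneg (hr.trans h1), abs_of_nonneg (hr.trans h2)]
      · exact mul_le_mul_of_nonneg_right h2' (abs_nonneg _)
      · exact mul_le_mul_of_nonneg_right h1' (abs_nonneg _)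
    · have e0 : Y₁ * Y₂ = 0 := le_antisymm (mul_nonpos_of_nonpos_of_nonneg a b) h
      rcases mul_eq_zero.1 e0 with e1 | e1 <;> simp only [e1, mul_zero, zero_add, add_zero, abs_mul,
        abs_of_nonneg hμ, abs_of_nonneg (hr.trans h1), abs_of_nonneg (hr.trans h2)]
      · exact mul_le_mul_of_nonneg_right h2' (abs_nonneg _)
      · exact mul_le_mul_of_nonneg_right h1' (abs_nonneg _)
    · rw [abs_of_nonpos (add_nonpos (mul_nonpos_of_nonneg_of_nonpos (hr.trans h1) a)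
          (mul_nonpos_of_nonneg_of_nonpos (hr.trans h2) b)),
        abs_of_nonpos (mul_nonpos_of_nonneg_of_nonpos hμ (add_nonpos a b))]
      linarith [mul_le_mul_of_nonpos_right h1' a, mul_le_mul_of_nonpos_right h2' b]
  · rcases le_total 0 Y₁ with a | a <;> rcases le_total 0 Y₂ with b | b
    · have e0 : Y₁ * Y₂ = 0 := le_antisymm h (mul_nonneg a b)
      rcases mul_eq_zero.1 e0 with e1 | e1
      · obtain ⟨c, d⟩ := hopp 0 Y₂ le_rfl b (Or.inr ⟨by rw [e1, neg_zero], rfl⟩)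
        refine le_trans (le_trans ?_ (le_of_eq (max_comm _ _))) (max_le c d)
        have := weighted_sq (l := Y₂) (m := 0) h2 h2' h1 h1' b le_rfl
        rw [e1]
        simpa [max_comm] using this
      · obtain ⟨c, d⟩ := hopp Y₁ 0 a le_rfl (Or.inl ⟨rfl, by rw [e1, neg_zero]⟩)
        refine le_trans ?_ (max_le c d)
        have := weighted_sq (l := Y₁) (m := 0) h1 h1' h2 h2' a le_rfl
        rw [e1]
        simpa using this
    · obtain ⟨c, d⟩ := hopp Y₁ (-Y₂) a (neg_nonneg.2 b) (Or.inl ⟨rfl, (neg_neg _).symm⟩)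
      refine le_trans ?_ (max_le c d)
      refine le_trans (le_of_eq ?_) (weighted_sq h1 h1' h2 h2' a (neg_nonneg.2 b))
      ring
    · obtain ⟨c, d⟩ := hopp (-Y₁) Y₂ (neg_nonneg.2 a) b (Or.inr ⟨(neg_neg _).symm, rfl⟩)
      refine le_trans ?_ (max_le c d)
      refine le_trans (le_of_eq ?_) (weighted_sq h1 h1' h2 h2' (neg_nonneg.2 a) b)
      ring
    · have e0 : Y₁ * Y₂ = 0 := le_antisymm h (mul_nonneg_of_nonpos_of_nonpos a b)
      rcases mul_eq_zero.1 e0 with e1 | e1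
      · obtain ⟨c, d⟩ := hopp 0 (-Y₂) le_rfl (neg_nonneg.2 b) (Or.inl ⟨e1, (neg_neg _).symm⟩)
        refine le_trans ?_ (max_le c d)
        refine le_trans (le_of_eq ?_) (weighted_sq h1 h1' h2 h2' le_rfl (neg_nonneg.2 b))
        rw [e1]; ring
      · obtain ⟨c, d⟩ := hopp (-Y₁) 0 (neg_nonneg.2 a) le_rfl (Or.inr ⟨(neg_neg _).symm, e1⟩)
        refine le_trans ?_ (max_le c d)
        refine le_trans (le_of_eq ?_) (weighted_sq h1 h1' h2 h2' (neg_nonneg.2 a) le_rfl)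
        rw [e1]; ring

/-- Small `p / C`: the deficit is half of the squared block. -/
theorem block_small {p n₁ n₂ Y₁ Y₂ Q : ℝ} (hp : 0 ≤ p) (h1 : p + 1 / 2 ≤ n₁) (h1' : n₁ ≤ 1 + 2 * p)
    (h2 : p + 1 / 2 ≤ n₂) (h2' : n₂ ≤ 1 + 2 * p) (hQ : 0 ≤ Q) (hdet : Y₁ * Y₂ ≤ Q) :
    (n₁ * Y₁ + n₂ * Y₂) ^ 2 / 2 - (Y₁ ^ 2 + Y₂ ^ 2 + 2 * Q) / 2
      ≤ (p + p ^ 2) * ((Y₁ + Y₂) ^ 2 + Y₁ ^ 2 + Y₂ ^ 2 + 2 * Q) := by
  have hR : 0 ≤ p + p ^ 2 := by positivity
  have key := block_cases (Y₁ := Y₁) (Y₂ := Y₂) (Q := Q)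
    (e := 2 * (p + p ^ 2) * ((Y₁ + Y₂) ^ 2 + Y₁ ^ 2 + Y₂ ^ 2 + 2 * Q) + (Y₁ ^ 2 + Y₂ ^ 2 + 2 * Q))
    (show (0 : ℝ) ≤ p + 1 / 2 by linarith) h1 h1' h2 h2' hQ hdet (fun σ h hσ hσ' => by
      have := mul_nonneg hR (sub_nonneg.2 hdet)
      have e : ((1 + 2 * p) * (Y₁ + Y₂)) ^ 2 = (4 * (p + p ^ 2) + 1) * (Y₁ + Y₂) ^ 2 := by ring
      linarith) fun l m hl hm h => by
      have e : Y₁ ^ 2 + Y₂ ^ 2 = l ^ 2 + m ^ 2 ∧ (Y₁ + Y₂) ^ 2 = (l - m) ^ 2 := by
        rcases h with ⟨e1, e2⟩ | ⟨e1, e2⟩ <;> rw [e1, e2] <;> constructor <;> ring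
      have := mul_nonneg (mul_nonneg (show (0 : ℝ) ≤ 1 + 4 * (p + p ^ 2) by positivity) hl) hm
      have := mul_nonneg hR (sq_nonneg l); have := mul_nonneg hR (sq_nonneg m)
      have := mul_nonneg hR hQ
      have e1 : (p + p ^ 2) * (Y₁ ^ 2 + Y₂ ^ 2) = (p + p ^ 2) * (l ^ 2 + m ^ 2) := by rw [e.1]
      constructor <;> (rw [e.2]; linarith [e.1, e1, sq_nonneg l, sq_nonneg m, mul_nonneg hl hm])
  linarith

/-- Large `p`: weights in `[1, 2 - δ]`. -/
theorem block_large {δ n₁ n₂ Y₁ Y₂ Q : ℝ} (hδ : 0 ≤ δ) (hδ1 : δ ≤ 1) (h1 : 1 ≤ n₁)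
    (h1' : n₁ ≤ 2 - δ) (h2 : 1 ≤ n₂) (h2' : n₂ ≤ 2 - δ) (hQ : 0 ≤ Q) (hdet : Y₁ * Y₂ ≤ Q) :
    (n₁ * Y₁ + n₂ * Y₂) ^ 2 / 2 + δ / 2 * (Y₁ ^ 2 + Y₂ ^ 2 + 2 * Q)
      ≤ (Y₁ + Y₂) ^ 2 + Y₁ ^ 2 + Y₂ ^ 2 + 2 * Q := by
  have key := block_cases (Y₁ := Y₁) (Y₂ := Y₂) (Q := Q)
    (e := 2 * ((Y₁ + Y₂) ^ 2 + Y₁ ^ 2 + Y₂ ^ 2 + 2 * Q) - δ * (Y₁ ^ 2 + Y₂ ^ 2 + 2 * Q))
    zero_le_one h1 h1' h2 h2' hQ hdet (fun σ h hσ hσ' => by
      have := mul_nonneg (show (0 : ℝ) ≤ 2 - δ by linarith) (sub_nonneg.2 hdet)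
      have := mul_nonneg (show (0 : ℝ) ≤ δ * (3 - δ) from mul_nonneg hδ (by linarith))
        (sq_nonneg (Y₁ + Y₂))
      linarith) fun l m hl hm h => by
      have e : Y₁ ^ 2 + Y₂ ^ 2 = l ^ 2 + m ^ 2 ∧ (Y₁ + Y₂) ^ 2 = (l - m) ^ 2 := by
        rcases h with ⟨e1, e2⟩ | ⟨e1, e2⟩ <;> rw [e1, e2] <;> constructor <;> ring
      have := mul_nonneg (show (0 : ℝ) ≤ 2 - δ by linarith) hQ
      have := mul_nonneg (show (0 : ℝ) ≤ δ * (1 - δ) from mul_nonneg hδ (by linarith)) (sq_nonneg l)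
      have := mul_nonneg (show (0 : ℝ) ≤ δ * (1 - δ) from mul_nonneg hδ (by linarith)) (sq_nonneg m)
      have := mul_nonneg hδ (sq_nonneg (l - m))
      have := mul_nonneg (show (0 : ℝ) ≤ 1 - δ by linarith) (sq_nonneg l)
      have := mul_nonneg (show (0 : ℝ) ≤ 1 - δ by linarith) (sq_nonneg m)
      constructor <;> (rw [e.2]; nlinarith [e.1, mul_nonneg hl hm, mul_nonneg hδ (mul_nonneg hl hm)])
  linarith

/-! ### The pinching -/

variable {κ l L C p B Cr : ℝ} {a : Fin 2 → ℝ} {x y : Fin 3 → ℂ}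

/-- Completing the square in the fibre entry. -/
theorem negCurv_eq : negCurv p a B Cr x y
    = 2 * (wd x y 2 + (mix p (a 0) * wd x y 0 + mix p (a 1) * wd x y 1) / 2) ^ 2
      + ((p + p ^ 2) * ((a 0 * wd x y 0 + a 1 * wd x y 1) ^ 2 + (a 0 * wd x y 0) ^ 2
          + (a 1 * wd x y 1) ^ 2 + 2 * (a 0 * a 1) * normSq (wedge x y 0 1))
        - (mix p (a 0) * wd x y 0 + mix p (a 1) * wd x y 1) ^ 2 / 2)
      + 2 * (mix p (a 0) * normSq (wedge x y 0 2) + mix p (a 1) * normSq (wedge x y 1 2))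
      + B + Cr := by
  unfold negCurv; ring

theorem abs_le_add {t u v : ℝ} (hu : 0 ≤ u) (hv : 0 ≤ v) (h : t ^ 2 ≤ 4 * u * v) : |t| ≤ u + v :=
  abs_le_of_sq_le_sq (by nlinarith [sq_nonneg (u - v)]) (add_nonneg hu hv)

/-- The squared block after scaling by `A`. -/
theorem scaled_block {c₀ c₁ : ℝ} (h₀ : 0 ≤ c₀) (hl : ∀ i, c₀ ≤ a i) (hu : ∀ i, a i ≤ c₁)
    (x y : Fin 3 → ℂ) :
    c₀ ^ 2 * nh x y ≤ (a 0 * wd x y 0) ^ 2 + (a 1 * wd x y 1) ^ 2
        + 2 * (a 0 * a 1 * normSq (wedge x y 0 1)) ∧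
      (a 0 * wd x y 0) ^ 2 + (a 1 * wd x y 1) ^ 2
        + 2 * (a 0 * a 1 * normSq (wedge x y 0 1)) ≤ c₁ ^ 2 * nh x y := by
  have a0 := h₀.trans (hl 0); have a1 := h₀.trans (hl 1)
  have z := normSq_nonneg (wedge x y 0 1)
  have i0 := mul_le_mul_of_nonneg_right (pow_le_pow_left₀ h₀ (hl 0) 2) (sq_nonneg (wd x y 0))
  have i1 := mul_le_mul_of_nonneg_right (pow_le_pow_left₀ h₀ (hl 1) 2) (sq_nonneg (wd x y 1))
  have j0 := mul_le_mul_of_nonneg_right (pow_le_pow_left₀ a0 (hu 0) 2) (sq_nonneg (wd x y 0))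
  have j1 := mul_le_mul_of_nonneg_right (pow_le_pow_left₀ a1 (hu 1) 2) (sq_nonneg (wd x y 1))
  have i2 := mul_le_mul_of_nonneg_right (mul_le_mul (hl 0) (hl 1) h₀ a0) z
  have j2 := mul_le_mul_of_nonneg_right (mul_le_mul (hu 0) (hu 1) a1 (a0.trans (hu 0))) z
  unfold nh
  constructor <;> linarith

theorem mix_sum_sq {c : ℝ} (h : ∀ i, |mix p (a i)| ≤ c) (x y : Fin 3 → ℂ) :
    (mix p (a 0) * wd x y 0 + mix p (a 1) * wd x y 1) ^ 2 ≤ 2 * c ^ 2 * nh x y := by
  have c0 : mix p (a 0) ^ 2 ≤ c ^ 2 := sq_le_sq' (abs_le.1 (h 0)).1 (abs_le.1 (h 0)).2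
  have c1 : mix p (a 1) ^ 2 ≤ c ^ 2 := sq_le_sq' (abs_le.1 (h 1)).1 (abs_le.1 (h 1)).2
  have := mul_le_mul_of_nonneg_right c0 (sq_nonneg (wd x y 0))
  have := mul_le_mul_of_nonneg_right c1 (sq_nonneg (wd x y 1))
  have := sq_nonneg (mix p (a 0) * wd x y 0 - mix p (a 1) * wd x y 1)
  have := mul_nonneg (sq_nonneg c) (normSq_nonneg (wedge x y 0 1))
  unfold nh
  linarith

namespace Data

variable (d : Data κ l L C p a B Cr x y)
include d

theorem a_pos (hl : 0 < l) (hC : 0 < C) (i : Fin 2) : 0 < a i :=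
  (div_pos hl (by linarith [d.p_nonneg])).trans_le (d.a_lower i)

theorem mix_bounds (hl : 0 < l) (hC : 1 ≤ C) (i : Fin 2) :
    l / (C + p) * p ≤ mix p (a i) ∧ 0 ≤ mix p (a i) ∧ mix p (a i) ≤ 3 * L := by
  have hp := d.p_nonneg
  have ha := d.a_pos hl (by linarith) i
  have h1 : p ≤ 1 + 2 * p - (1 + p) * (p * a i) := by
    linarith [mul_le_mul_of_nonneg_left (d.pa_le i) (show 0 ≤ 1 + p by linarith)]
  have h2 : 1 + 2 * p - (1 + p) * (p * a i) ≤ 1 + 2 * p := by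
    linarith [mul_nonneg (show 0 ≤ 1 + p by linarith) (mul_nonneg hp ha.le)]
  refine ⟨mul_le_mul (d.a_lower i) h1 hp ha.le, mul_nonneg ha.le (hp.trans h1), ?_⟩
  have hCp : 0 < C + p := by linarith
  have hLn : 0 ≤ L / (C + p) := ha.le.trans (d.a_upper i)
  refine (mul_le_mul (d.a_upper i) h2 (hp.trans h1) hLn).trans ?_
  rw [div_mul_eq_mul_div, div_le_iff₀ hCp]
  have hL : 0 ≤ L := by
    by_contra h
    exact absurd hLn (not_le.2 (div_neg_of_neg_of_pos (not_le.1 h) hCp))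
  rw [show 3 * L * (C + p) = L * (3 * (C + p)) by ring]
  exact mul_le_mul_of_nonneg_left (by linarith) hL

/-- Lower bound for small `p / C`. -/
theorem lower_small {τ : ℝ} (hκ : 0 < κ) (hl : 0 < l) (hL : 0 < L) (hC : 1 ≤ C)
    (hτL : L * τ ≤ 1 / 4) (hτκ : 4 * (L * τ) ≤ κ) (hτ2 : 2 * L ^ 2 * τ ≤ κ * l)
    (hCκ : 2 * L ^ 2 ≤ κ * C) (hp : p ≤ τ * C) :
    2 * (wd x y 2 + (mix p (a 0) * wd x y 0 + mix p (a 1) * wd x y 1) / 2) ^ 2
      + κ / (4 * C) * nh x y + l / (2 * C) * nu x y ≤ negCurv p a B Cr x y := by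
  have hp0 := d.p_nonneg
  have hC0 : 0 < C := by linarith
  have hCp : 0 < C + p := by linarith
  have hNh := nh_nonneg x y
  have hNu := nu_nonneg x y
  have hx : ∀ i, p * a i ≤ 1 / 4 := fun i => by
    refine le_trans (mul_le_mul_of_nonneg_left (d.a_upper i) hp0) ?_
    rw [mul_div_assoc', div_le_iff₀ hCp]
    have := mul_le_mul_of_nonneg_right hp hL.le
    have := mul_le_mul_of_nonneg_right hτL hC0.le
    linarith
  set n : Fin 2 → ℝ := fun i => 1 + 2 * p - (1 + p) * (p * a i) with hn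
  have hn1 : ∀ i, p + 1 / 2 ≤ n i := fun i => by
    simp only [hn]
    linarith [mul_le_mul_of_nonneg_left (hx i) (show 0 ≤ 1 + p by linarith)]
  have hn2 : ∀ i, n i ≤ 1 + 2 * p := fun i => by
    simp only [hn]
    linarith [mul_nonneg (show 0 ≤ 1 + p by linarith) (mul_nonneg hp0 (d.a_pos hl hC0 i).le)]
  have hz := normSq_nonneg (wedge x y 0 1)
  have haa := mul_nonneg (d.a_pos hl hC0 0).le (d.a_pos hl hC0 1).le
  have hb := block_small (Y₁ := a 0 * wd x y 0) (Y₂ := a 1 * wd x y 1)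
    (Q := a 0 * a 1 * normSq (wedge x y 0 1)) hp0 (hn1 0) (hn2 0) (hn1 1) (hn2 1)
    (mul_nonneg haa hz) (by
      have := mul_le_mul_of_nonneg_left (det_nonpos x y) haa
      linarith)
  have hY : (a 0 * wd x y 0) ^ 2 + (a 1 * wd x y 1) ^ 2
      + 2 * (a 0 * a 1 * normSq (wedge x y 0 1)) ≤ κ / (2 * C) * nh x y := by
    refine (scaled_block le_rfl (fun i => (d.a_pos hl hC0 i).le) (fun i => (d.a_upper i).trans
      (div_le_div_of_nonneg_left hL.le hC0 (by linarith))) x y).2.trans ?_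
    refine mul_le_mul_of_nonneg_right ?_ hNh
    rw [div_pow, div_le_div_iff₀ (by positivity) (by positivity)]
    linarith [mul_le_mul_of_nonneg_right hCκ hC0.le]
  have hB : 3 / 4 * (κ / C) * nh x y ≤ B := by
    refine le_trans (mul_le_mul_of_nonneg_right ?_ hNh) d.B_lower
    rw [le_sub_iff_add_le, mul_div_assoc', div_add_div _ _ hC0.ne' (by positivity),
      div_le_div_iff₀ (by positivity) hC0]
    have h1 := mul_le_mul_of_nonneg_left hp hL.le
    have h2 := mul_le_mul_of_nonneg_right hτκ hC0.le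
    have h3 : 4 * (L * p) ≤ κ * C := by linarith
    linarith [mul_le_mul_of_nonneg_right h3 (sq_nonneg C)]
  have hm : l / 2 * (1 + p) / (C + p) * nu x y
      ≤ mix p (a 0) * normSq (wedge x y 0 2) + mix p (a 1) * normSq (wedge x y 1 2) := by
    have hk : ∀ i, l / 2 * (1 + p) / (C + p) ≤ mix p (a i) := fun i => by
      have := mul_le_mul (d.a_lower i) (show (1 + p) / 2 ≤ n i by linarith [hn1 i])
        (by positivity) (d.a_pos hl hC0 i).le
      refine le_trans (le_of_eq ?_) this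
      ring
    have := mul_le_mul_of_nonneg_right (hk 0) (normSq_nonneg (wedge x y 0 2))
    have := mul_le_mul_of_nonneg_right (hk 1) (normSq_nonneg (wedge x y 1 2))
    unfold nu
    linarith
  have hc : |Cr| ≤ κ / (4 * C) * nh x y + l / 2 * (1 + p) / (C + p) * nu x y := by
    refine abs_le_add (by positivity) (by positivity) (d.Cr_sq.trans ?_)
    rw [show 4 * (κ / (4 * C) * nh x y) * (l / 2 * (1 + p) / (C + p) * nu x y)
      = κ * l * (1 + p) / (2 * C * (C + p)) * (nh x y * nu x y) by field_simp]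
    refine mul_le_mul_of_nonneg_right ?_ (mul_nonneg hNh hNu)
    rw [div_le_div_iff₀ (by positivity) (by positivity)]
    have h1 : 2 * C * L ^ 2 * p ≤ κ * l * (C + p) ^ 2 := by
      calc 2 * C * L ^ 2 * p ≤ 2 * C * L ^ 2 * (τ * C) := by gcongr
        _ = 2 * L ^ 2 * τ * C ^ 2 := by ring
        _ ≤ κ * l * (C + p) ^ 2 := by gcongr; linarith
    have h2 := mul_le_mul_of_nonneg_left h1 (show 0 ≤ (1 + p) * (C + p) by positivity)
    linarith
  have e : mix p (a 0) * wd x y 0 + mix p (a 1) * wd x y 1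
      = n 0 * (a 0 * wd x y 0) + n 1 * (a 1 * wd x y 1) := by
    simp only [hn, mix]; ring
  have hl' : l / (2 * C) * nu x y ≤ l / 2 * (1 + p) / (C + p) * nu x y := by
    refine mul_le_mul_of_nonneg_right ?_ hNu
    rw [div_le_div_iff₀ (by positivity) hCp]
    have := mul_nonneg (mul_nonneg hl.le hp0) (sub_nonneg.2 hC)
    linarith
  rw [← e] at hb
  rw [negCurv_eq]
  have e2 : κ / (2 * C) = 2 * (κ / (4 * C)) := by field_simp; ring
  have e3 : 3 / 4 * (κ / C) = 3 * (κ / (4 * C)) := by field_simp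
  rw [e2] at hY
  rw [e3] at hB
  linarith [neg_abs_le Cr]

/-- Lower bound for large `p / C`. -/
theorem lower_large {x₀ η : ℝ} (hl : 0 < l) (hL : 0 < L) (hC : 1 ≤ C) (hx0 : 0 < x₀) (hx1 : x₀ ≤ 1)
    (hX : ∀ i, x₀ ≤ p * a i) (hp : 4 ≤ x₀ * p) (hη : η = x₀ ^ 3 / 16)
    (hCL : L ≤ η * C) (hCL2 : L ^ 2 ≤ 2 * η * x₀ * C) :
    2 * (wd x y 2 + (mix p (a 0) * wd x y 0 + mix p (a 1) * wd x y 1) / 2) ^ 2
      + η * nh x y + x₀ * nu x y ≤ negCurv p a B Cr x y := by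
  have hp0 : 0 < p := by nlinarith [d.p_nonneg]
  have hC0 : 0 < C := by linarith
  have hη0 : 0 < η := by rw [hη]; positivity
  have hNh := nh_nonneg x y
  have hNu := nu_nonneg x y
  have ha := d.a_pos hl hC0
  set n : Fin 2 → ℝ := fun i => (1 + 2 * p - (1 + p) * (p * a i)) / p with hn
  have hn1 : ∀ i, 1 ≤ n i := fun i => by
    simp only [hn]
    rw [one_le_div hp0]
    linarith [mul_le_mul_of_nonneg_left (d.pa_le i) (show 0 ≤ 1 + p by linarith)]
  have hn2 : ∀ i, n i ≤ 2 - x₀ / 2 := fun i => by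
    simp only [hn]
    rw [div_le_iff₀ hp0]
    linarith [mul_le_mul_of_nonneg_left (hX i) (show 0 ≤ 1 + p by linarith)]
  have hz := normSq_nonneg (wedge x y 0 1)
  have haa := mul_nonneg (ha 0).le (ha 1).le
  have hb := block_large (δ := x₀ / 2) (Y₁ := a 0 * wd x y 0) (Y₂ := a 1 * wd x y 1)
    (Q := a 0 * a 1 * normSq (wedge x y 0 1)) (by linarith) (by linarith) (hn1 0) (hn2 0) (hn1 1)
    (hn2 1) (mul_nonneg haa hz) (by
      have := mul_le_mul_of_nonneg_left (det_nonpos x y) haa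
      linarith)
  set base := (a 0 * wd x y 0 + a 1 * wd x y 1) ^ 2 + (a 0 * wd x y 0) ^ 2 + (a 1 * wd x y 1) ^ 2
    + 2 * (a 0 * a 1 * normSq (wedge x y 0 1)) with hbase
  have hb0 : 0 ≤ base := by positivity
  have hblock : 4 * η * nh x y + (mix p (a 0) * wd x y 0 + mix p (a 1) * wd x y 1) ^ 2 / 2
      ≤ (p + p ^ 2) * base := by
    have h1 := mul_le_mul_of_nonneg_left hb (sq_nonneg p)
    have h2 := (scaled_block (c₀ := x₀ / p) (c₁ := L / (C + p)) (by positivity)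
      (fun i => (div_le_iff₀ hp0).2 ((hX i).trans_eq (mul_comm _ _))) d.a_upper x y).1
    have h3 := mul_le_mul_of_nonneg_left h2 (show 0 ≤ p ^ 2 * (x₀ / 4) by positivity)
    have h4 : 4 * η * nh x y = p ^ 2 * (x₀ / 4) * ((x₀ / p) ^ 2 * nh x y) := by
      rw [hη]; field_simp; ring
    have h5 : (mix p (a 0) * wd x y 0 + mix p (a 1) * wd x y 1) ^ 2
        = p ^ 2 * (n 0 * (a 0 * wd x y 0) + n 1 * (a 1 * wd x y 1)) ^ 2 := by
      simp only [hn, mix]; field_simp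
    rw [h5]
    have := mul_nonneg hp0.le hb0
    linarith
  have hB : -(η * nh x y) ≤ B := by
    refine le_trans (neg_le_neg ?_) (abs_le.1 d.B_abs).1
    exact mul_le_mul_of_nonneg_right (by rw [div_le_iff₀ hC0]; exact hCL) hNh
  have hm : x₀ * nu x y
      ≤ mix p (a 0) * normSq (wedge x y 0 2) + mix p (a 1) * normSq (wedge x y 1 2) := by
    have hk : ∀ i, x₀ ≤ mix p (a i) := fun i => by
      refine (hX i).trans ?_
      rw [mul_comm]
      refine mul_le_mul_of_nonneg_left ?_ (ha i).le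
      linarith [mul_le_mul_of_nonneg_left (d.pa_le i) (show 0 ≤ 1 + p by linarith)]
    have := mul_le_mul_of_nonneg_right (hk 0) (normSq_nonneg (wedge x y 0 2))
    have := mul_le_mul_of_nonneg_right (hk 1) (normSq_nonneg (wedge x y 1 2))
    unfold nu
    linarith
  have hc : |Cr| ≤ η * nh x y + x₀ * nu x y := by
    refine abs_le_add (by positivity) (by positivity) (d.Cr_sq.trans ?_)
    rw [show 4 * (η * nh x y) * (x₀ * nu x y) = 4 * η * x₀ * (nh x y * nu x y) by ring]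
    refine mul_le_mul_of_nonneg_right ?_ (mul_nonneg hNh hNu)
    rw [div_le_iff₀ (by positivity)]
    have h1 : p * (1 + p) ≤ (C + p) ^ 2 := by
      rw [sq]; exact mul_le_mul (by linarith) (by linarith) (by linarith) (by linarith)
    calc L ^ 2 * (p * (1 + p)) ≤ 2 * η * x₀ * C * (C + p) ^ 2 := by
          exact mul_le_mul hCL2 h1 (by positivity) (by positivity)
      _ ≤ 4 * η * x₀ * (C + p) * (C + p) ^ 2 := by
          refine mul_le_mul_of_nonneg_right ?_ (sq_nonneg _)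
          have := mul_pos (mul_pos hη0 hx0) (show 0 < C + 2 * p by linarith)
          linarith
      _ = 4 * η * x₀ * (C + p) ^ 3 := by ring
  rw [negCurv_eq, mul_assoc 2 (a 0 * a 1) _, ← hbase]
  have := mul_nonneg hη0.le hNh
  linarith [neg_abs_le Cr]

/-- The upper bound. -/
theorem upper (hl : 0 < l) (hL : 0 < L) (hC : 1 ≤ C) :
    negCurv p a B Cr x y ≤ (30 * (L ^ 2 + L) + 4) * (wd x y 2 ^ 2 + nh x y + nu x y) := by
  have hp0 := d.p_nonneg
  have hC0 : 0 < C := by linarith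
  have hNh := nh_nonneg x y
  have hNu := nu_nonneg x y
  have ha := d.a_pos hl hC0
  have hT := mix_sum_sq (p := p) (a := a) (c := 3 * L) (fun i => by
    rw [abs_of_nonneg (d.mix_bounds hl hC i).2.1]; exact (d.mix_bounds hl hC i).2.2) x y
  set T := mix p (a 0) * wd x y 0 + mix p (a 1) * wd x y 1 with hTdef
  have hs : 2 * wd x y 2 * T ≤ wd x y 2 ^ 2 + T ^ 2 := two_mul_le_add_sq _ _
  have hbase : (p + p ^ 2) * ((a 0 * wd x y 0 + a 1 * wd x y 1) ^ 2 + (a 0 * wd x y 0) ^ 2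
      + (a 1 * wd x y 1) ^ 2 + 2 * (a 0 * a 1 * normSq (wedge x y 0 1))) ≤ 3 * L ^ 2 * nh x y := by
    have h1 := (scaled_block le_rfl (fun i => (ha i).le) d.a_upper x y).2
    have h2 : (a 0 * wd x y 0 + a 1 * wd x y 1) ^ 2
        ≤ 2 * ((a 0 * wd x y 0) ^ 2 + (a 1 * wd x y 1) ^ 2) := add_sq_le
    have h3 := mul_nonneg (mul_nonneg (ha 0).le (ha 1).le) (normSq_nonneg (wedge x y 0 1))
    have h4 : (p + p ^ 2) * (L / (C + p)) ^ 2 ≤ L ^ 2 := by
      rw [div_pow, mul_div_assoc', div_le_iff₀ (by positivity), mul_comm (p + p ^ 2)]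
      refine mul_le_mul_of_nonneg_left ?_ (sq_nonneg L)
      have := pow_le_pow_left₀ (show 0 ≤ 1 + p by linarith) (show 1 + p ≤ C + p by linarith) 2
      linarith
    calc (p + p ^ 2) * _ ≤ (p + p ^ 2) * (3 * ((L / (C + p)) ^ 2 * nh x y)) :=
          mul_le_mul_of_nonneg_left (by linarith) (by positivity)
      _ = 3 * ((p + p ^ 2) * (L / (C + p)) ^ 2 * nh x y) := by ring
      _ ≤ _ := by linarith [mul_le_mul_of_nonneg_right h4 hNh]
  have hm : mix p (a 0) * normSq (wedge x y 0 2) + mix p (a 1) * normSq (wedge x y 1 2)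
      ≤ 3 * L * nu x y := by
    have := mul_le_mul_of_nonneg_right (d.mix_bounds hl hC 0).2.2 (normSq_nonneg (wedge x y 0 2))
    have := mul_le_mul_of_nonneg_right (d.mix_bounds hl hC 1).2.2 (normSq_nonneg (wedge x y 1 2))
    unfold nu
    linarith
  have hB : B ≤ L * nh x y := (le_abs_self B).trans (d.B_abs.trans
    (mul_le_mul_of_nonneg_right (div_le_self hL.le hC) hNh))
  have hc : |Cr| ≤ L * nh x y + L * nu x y := by
    refine abs_le_add (by positivity) (by positivity) (d.Cr_sq.trans ?_)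
    rw [show 4 * (L * nh x y) * (L * nu x y) = 4 * L ^ 2 * (nh x y * nu x y) by ring]
    refine mul_le_mul_of_nonneg_right ?_ (mul_nonneg hNh hNu)
    rw [div_le_iff₀ (by positivity), mul_assoc 4]
    have h1 : p * (1 + p) ≤ 4 * (C + p) ^ 3 := by
      have : p * (1 + p) ≤ (C + p) * (C + p) := mul_le_mul (by linarith) (by linarith) (by linarith) (by linarith)
      have := le_self_pow₀ (show 1 ≤ C + p by linarith) (show (3 : ℕ) ≠ 0 by norm_num)
      nlinarith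
    calc L ^ 2 * (p * (1 + p)) ≤ L ^ 2 * (4 * (C + p) ^ 3) := by gcongr
      _ = _ := by ring
  unfold negCurv
  rw [mul_assoc 2 (a 0 * a 1) _, ← hTdef]
  have := mul_nonneg (sq_nonneg L) hNh
  have := mul_nonneg hL.le hNh
  have := mul_nonneg hL.le hNu
  have := mul_nonneg (sq_nonneg L) hNu
  have := mul_nonneg (mul_nonneg hL.le hL.le) (sq_nonneg (wd x y 2))
  have := mul_nonneg hL.le (sq_nonneg (wd x y 2))
  linarith [le_abs_self Cr, sq_nonneg (wd x y 2)]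

end Data

/-- From the completed square to all three blocks. -/
theorem assemble {s T N U F ε t : ℝ} (hε : 0 < ε) (ht : 0 ≤ t) (hT : T ^ 2 ≤ t * N) (hN : 0 ≤ N)
    (hU : 0 ≤ U) (h : 2 * (s + T / 2) ^ 2 + ε * N + ε * U ≤ F) :
    min (1 / 2) (min (ε / 2) (ε / (t + 1))) * (s ^ 2 + N + U) ≤ F := by
  set c := min (1 / 2 : ℝ) (min (ε / 2) (ε / (t + 1)))
  have hc0 : 0 < c := lt_min one_half_pos (lt_min (by linarith) (by positivity))
  have hc1 : c ≤ 1 / 2 := min_le_left _ _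
  have hc2 : c ≤ ε / 2 := (min_le_right _ _).trans (min_le_left _ _)
  have hc3 : c * t ≤ ε := by
    have h1 := mul_le_mul_of_nonneg_right ((min_le_right (1 / 2 : ℝ) _).trans (min_le_right _ _) :
      c ≤ ε / (t + 1)) ht
    refine h1.trans ?_
    rw [div_mul_eq_mul_div, div_le_iff₀ (by linarith)]
    linarith
  have hs : s ^ 2 ≤ 2 * (s + T / 2) ^ 2 + T ^ 2 / 2 := by
    linarith [sq_nonneg (s + T)]
  have := mul_le_mul_of_nonneg_left hs hc0.le
  have := mul_le_mul_of_nonneg_left hT hc0.le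
  have := mul_le_mul_of_nonneg_right hc3 hN
  have := mul_le_mul_of_nonneg_right hc2 hN
  have := mul_le_mul_of_nonneg_right hc2 hU
  have := mul_le_mul_of_nonneg_right hc1 (sq_nonneg (s + T / 2))
  have := mul_nonneg hε.le hU
  have := sq_nonneg (s + T / 2)
  linarith

/-- **Part 4.** The curvature form is pinched against the area, uniformly in `p`, for `C` large. -/
theorem exists_pinching (κ l L : ℝ) (hκ : 0 < κ) (hl : 0 < l) (hL : 0 < L) :
    ∃ C₁, ∀ C, C₁ ≤ C → 0 < C ∧ ∃ m M : ℝ, 0 < m ∧ ∀ (p : ℝ) (a : Fin 2 → ℝ) (B Cr : ℝ)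
      (x y : Fin 3 → ℂ), Data κ l L C p a B Cr x y →
        m * area x y ≤ negCurv p a B Cr x y ∧ negCurv p a B Cr x y ≤ M * area x y := by
  set τ := min (1 / (4 * L)) (min (κ / (4 * L)) (κ * l / (2 * L ^ 2)))
  have hτ : 0 < τ := lt_min (by positivity) (lt_min (by positivity) (by positivity))
  have hτL : L * τ ≤ 1 / 4 :=
    (mul_le_mul_of_nonneg_left (min_le_left _ _) hL.le).trans_eq (by field_simp)
  have hτκ : 4 * (L * τ) ≤ κ :=
    (mul_le_mul_of_nonneg_left (mul_le_mul_of_nonneg_left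
      ((min_le_right _ _).trans (min_le_left _ _)) hL.le) (by norm_num)).trans_eq (by field_simp)
  have hτ2 : 2 * L ^ 2 * τ ≤ κ * l :=
    (mul_le_mul_of_nonneg_left ((min_le_right _ _).trans (min_le_right _ _))
      (by positivity)).trans_eq (by field_simp)
  set x₀ := min 1 (l * τ / (1 + τ))
  have hx0 : 0 < x₀ := lt_min one_pos (by positivity)
  set η := x₀ ^ 3 / 16 with hη
  have hη0 : 0 < η := by positivity
  refine ⟨max (max 1 (2 * L ^ 2 / κ)) (max (4 / (x₀ * τ)) (max (L / η) (L ^ 2 / (2 * η * x₀)))),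
    fun C hC => ?_⟩
  simp only [max_le_iff] at hC
  obtain ⟨⟨hC1, hC2⟩, hC3, hC4, hC5⟩ := hC
  have hC0 : 0 < C := by linarith
  rw [div_le_iff₀ (by positivity)] at hC2 hC3 hC4 hC5
  set ε := min (min (κ / (4 * C)) (l / (2 * C))) (min η x₀)
  have hε : 0 < ε := lt_min (lt_min (by positivity) (by positivity)) (lt_min hη0 hx0)
  set c := min (1 / 2 : ℝ) (min (ε / 2) (ε / (18 * L ^ 2 + 1)))
  have hc : 0 < c := lt_min one_half_pos (lt_min (by linarith) (by positivity))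
  refine ⟨hC0, c, 4 * (30 * (L ^ 2 + L) + 4), hc, fun p a B Cr x y d => ?_⟩
  obtain ⟨har1, har2⟩ := area_bounds x y
  have hNh := nh_nonneg x y
  have hNu := nu_nonneg x y
  have hlow : 2 * (wd x y 2 + (mix p (a 0) * wd x y 0 + mix p (a 1) * wd x y 1) / 2) ^ 2
      + ε * nh x y + ε * nu x y ≤ negCurv p a B Cr x y := by
    rcases le_total p (τ * C) with hp | hp
    · refine le_trans ?_ (d.lower_small hκ hl hL hC1 hτL hτκ hτ2 (by linarith) hp)
      have := mul_le_mul_of_nonneg_right ((min_le_left _ _).trans (min_le_left _ _) :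
        ε ≤ κ / (4 * C)) hNh
      have := mul_le_mul_of_nonneg_right ((min_le_left _ _).trans (min_le_right _ _) :
        ε ≤ l / (2 * C)) hNu
      linarith
    · have hp0 : 0 ≤ p := d.p_nonneg
      have hX : ∀ i, x₀ ≤ p * a i := fun i => by
        refine (min_le_right _ _).trans (le_trans ?_ (mul_le_mul_of_nonneg_left (d.a_lower i) hp0))
        rw [mul_div_assoc', div_le_div_iff₀ (by linarith) (by linarith)]
        linarith [mul_le_mul_of_nonneg_left hp hl.le]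
      refine le_trans ?_ (d.lower_large hl hL hC1 hx0 (min_le_left _ _) hX
        (by linarith [mul_le_mul_of_nonneg_left hp hx0.le]) hη (by linarith) (by linarith))
      have := mul_le_mul_of_nonneg_right ((min_le_right _ _).trans (min_le_left _ _) : ε ≤ η) hNh
      have := mul_le_mul_of_nonneg_right ((min_le_right _ _).trans (min_le_right _ _) : ε ≤ x₀) hNu
      linarith
  have hT := mix_sum_sq (p := p) (a := a) (c := 3 * L) (fun i => by
    rw [abs_of_nonneg (d.mix_bounds hl hC1 i).2.1]; exact (d.mix_bounds hl hC1 i).2.2) x y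
  have h1 := assemble (t := 18 * L ^ 2) hε (by positivity) (hT.trans_eq (by ring)) hNh hNu hlow
  refine ⟨le_trans (mul_le_mul_of_nonneg_left ?_ hc.le) h1, (d.upper hl hL hC1).trans ?_⟩
  · have := sq_nonneg (wd x y 2)
    linarith
  · have := sq_nonneg (wd x y 2)
    rw [mul_comm 4, mul_assoc]
    exact mul_le_mul_of_nonneg_left (by linarith) (by positivity)

end Vale.Agent.P250.Disproof.Alg
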