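import Vale.Agent.P250.Disproof.Step

/-!
# P250 disproof: assembly from the parts
-/

open Complex Filter Set
open scoped Topology

noncomputable section

namespace Vale.Agent.P250.Disproof

/-- A symmetric form, positive on nonzero vectors, has nonnegative area form. -/
theorem area2_nonneg {g : Field} {D : Set E3} (hg : IsKaehlerOn g D) {x : E3} (hx : x ∈ D)
    (u v : E3) : 0 ≤ area2 g x u v := by
  unfold area2
  by_cases hu : u = 0
  · simp [hu]
  have hpu := hg.pos x hx u hu
  have key : 0 ≤ g x ((g x u u) • v - (g x u v) • u) ((g x u u) • v - (g x u v) • u) := by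
    by_cases h : (g x u u) • v - (g x u v) • u = 0
    · simp [h]
    · exact (hg.pos x hx _ h).le
  simp only [map_sub, map_smul, sub_apply, FunLike.coe_smul,
    Pi.smul_apply, smul_eq_mul, hg.symm x hx v u] at key
  nlinarith

theorem dom_nonempty (p : Params) : (dom p).Nonempty :=
  ⟨![0, I, 0], by simp [dom, fib, base, rho]⟩

/-- The final statement from the parts. -/
theorem answer_of_parts
    (hjets : ∀ h q : ℝ, 0 < h → 1 < q → Jets h q)
    (hno : ∀ p : Params, Jets p.h p.q → NoMinorant p → ¬ BiholoBounded (dom p))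
    (hpinch : ∀ h q eps K : ℝ, 0 < h → 1 < q → 0 < eps → 0 < K → Jets h q →
      PinchedForLargeC h q eps K)
    (hopen : ∀ p : Params, Jets p.h p.q → IsOpen (dom p))
    (hcontr : ∀ p : Params, Jets p.h p.q → ContractibleSpace (dom p))
    (hcompl : ∀ p : Params, Jets p.h p.q → CompleteOn (metric p) (dom p)) :
    Answer := by
  obtain ⟨h, q, eps, K, hh, hq, he, hK, hnm⟩ := exists_noMinorant
  have hj := hjets h q hh hq
  obtain ⟨C₁, hC⟩ := hpinch h q eps K hh hq he hK hj
  let p : Params := ⟨h, q, eps, K, max C₁ 1, hh, hq, he, hK, lt_max_of_lt_right one_pos⟩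
  obtain ⟨hkae, a, b, ha, hab⟩ := hC p rfl rfl rfl rfl (le_max_left _ _)
  refine ⟨dom p, metric p, a, max a b, hopen p hj, dom_nonempty p, hcontr p hj, hkae, hcompl p hj,
    ha, le_max_left _ _, fun x hx u v => ⟨?_, (hab x hx u v).2⟩,
    hno p hj (hnm p rfl rfl rfl rfl)⟩
  refine le_trans ?_ (hab x hx u v).1
  have h0 := area2_nonneg hkae hx u v
  have := mul_le_mul_of_nonneg_right (le_max_right a b) h0
  linarith

end Vale.Agent.P250.Disproof
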