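import Mathlib
import Vale.Agent.P250.Disproof.Algebra

/-!
# P250 disproof, part 4: the curvature data from the jet of the weight at a point

In the normal chart, after a unitary rotation and a gauge, the weight `Φ` has at the point the
Hessian `diag θ` and the derivatives `T₃ j k l = Φ_{j k̄ l}`, `T₄ j k l m = Φ_{j k̄ l m̄}`, and
`ω` is the ball metric at its centre. With `G j = C + p θ j = r j ^ 2` and `|σ|² = p (1 + p)`,
`jetB` is the base block `-R(G)(W, W)` and `jetCr` the mixed one.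
-/

open Complex Finset

noncomputable section

namespace Vale.Agent.P250.Disproof.Alg

/-- Kronecker's symbol. -/
def kd (i j : Fin 2) : ℂ := if i = j then 1 else 0

/-- The curvature of `C ω + p Θ` at the point, in coordinates. -/
def baseR (C p : ℝ) (θ : Fin 2 → ℝ) (T₃ : Fin 2 → Fin 2 → Fin 2 → ℂ)
    (T₄ : Fin 2 → Fin 2 → Fin 2 → Fin 2 → ℂ) (j k l m : Fin 2) : ℂ :=
  -((C : ℂ) * (kd j k * kd l m + kd j m * kd l k) + (p : ℂ) * T₄ j k l m)
    + ∑ e, ((p : ℂ) ^ 2 * T₃ j e l * (starRingEnd ℂ) (T₃ k e m)) / ((C + p * θ e : ℝ) : ℂ)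

/-- The mixed curvature `R_{j k̄ l v̄}`, with the fibre direction normalised. -/
def mixR (C p : ℝ) (θ : Fin 2 → ℝ) (T₃ : Fin 2 → Fin 2 → Fin 2 → ℂ) (σ : ℂ) (j k l : Fin 2) : ℂ :=
  -(σ * T₃ j k l * ((C / (C + p * θ k) : ℝ) : ℂ))

/-- A base index among the three. -/
def bi (i : Fin 2) : Fin 3 := Fin.castSucc i

/-- `-R(G)(W, W)` in the unitary frame. -/
def jetB (C p : ℝ) (θ r : Fin 2 → ℝ) (T₃ : Fin 2 → Fin 2 → Fin 2 → ℂ)
    (T₄ : Fin 2 → Fin 2 → Fin 2 → Fin 2 → ℂ) (x y : Fin 3 → ℂ) : ℝ :=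
  -∑ j, ∑ k, ∑ l, ∑ m, (baseR C p θ T₃ T₄ j k l m / ((r j * r k * r l * r m : ℝ) : ℂ)
    * (wedge x y (bi j) (bi k) * wedge x y (bi l) (bi m))).re

/-- The mixed block in the unitary frame. -/
def jetCr (C p : ℝ) (θ r : Fin 2 → ℝ) (T₃ : Fin 2 → Fin 2 → Fin 2 → ℂ) (σ : ℂ)
    (x y : Fin 3 → ℂ) : ℝ :=
  -4 * ∑ j, ∑ k, ∑ l, (mixR C p θ T₃ σ j k l / ((r j * r k * r l : ℝ) : ℂ)
    * (wedge x y (bi j) (bi k) * wedge x y (bi l) 2)).re

variable {C p θ₀ θ₁ L₀ : ℝ} {θ r : Fin 2 → ℝ} {T₃ : Fin 2 → Fin 2 → Fin 2 → ℂ}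
  {T₄ : Fin 2 → Fin 2 → Fin 2 → Fin 2 → ℂ} {σ : ℂ} {x y : Fin 3 → ℂ}

theorem sq_norm_wedge : (∑ j, ∑ k, ‖wedge x y (bi j) (bi k)‖) ^ 2 ≤ 4 * nh x y := by
  have e : nh x y = ‖wedge x y 0 0‖ ^ 2 + ‖wedge x y 1 1‖ ^ 2 + ‖wedge x y 0 1‖ ^ 2
      + ‖wedge x y 1 0‖ ^ 2 := by
    simp only [nh, wd, ← normSq_eq_norm_sq]
    simp only [wedge, normSq_apply, mul_re, mul_im, sub_re, sub_im, conj_re, conj_im, I_re, I_im]
    ring
  rw [e]
  simp only [Fin.sum_univ_two]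
  show (‖wedge x y 0 0‖ + ‖wedge x y 0 1‖ + (‖wedge x y 1 0‖ + ‖wedge x y 1 1‖)) ^ 2 ≤ _
  have := sq_nonneg (‖wedge x y 0 0‖ - ‖wedge x y 0 1‖)
  have := sq_nonneg (‖wedge x y 1 0‖ - ‖wedge x y 1 1‖)
  have := sq_nonneg (‖wedge x y 0 0‖ + ‖wedge x y 0 1‖ - (‖wedge x y 1 0‖ + ‖wedge x y 1 1‖))
  linarith

theorem sq_norm_mixed : (∑ l, ‖wedge x y (bi l) 2‖) ^ 2 ≤ 2 * nu x y := by
  simp only [Fin.sum_univ_two, nu, ← Complex.sq_norm]
  show (‖wedge x y 0 2‖ + ‖wedge x y 1 2‖) ^ 2 ≤ _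
  linarith [sq_nonneg (‖wedge x y 0 2‖ - ‖wedge x y 1 2‖)]

theorem ball_block (h0 : r 0 ≠ 0) (h1 : r 1 ≠ 0) :
    ∑ j, ∑ k, ∑ l, ∑ m, ((C : ℂ) * (kd j k * kd l m + kd j m * kd l k)
        / ((r j * r k * r l * r m : ℝ) : ℂ) * (wedge x y (bi j) (bi k) * wedge x y (bi l) (bi m))).re
      = C * ((wd x y 0 / r 0 ^ 2 + wd x y 1 / r 1 ^ 2) ^ 2 + (wd x y 0 / r 0 ^ 2) ^ 2
          + (wd x y 1 / r 1 ^ 2) ^ 2 + 2 * normSq (wedge x y 0 1) / (r 0 ^ 2 * r 1 ^ 2)) := by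
  have e0 : bi 0 = 0 := rfl
  have e1 : bi 1 = 1 := rfl
  simp only [Fin.sum_univ_two, e0, e1]
  norm_num [kd, wd, wedge, normSq_apply, Complex.div_re, Complex.div_im]
  field_simp
  ring

theorem abs_sum_le {f : Fin 2 → Fin 2 → Fin 2 → Fin 2 → ℂ} {c : ℝ} (hc : 0 ≤ c)
    (h : ∀ j k l m, ‖f j k l m‖ ≤ c) :
    |∑ j, ∑ k, ∑ l, ∑ m, (f j k l m * (wedge x y (bi j) (bi k) * wedge x y (bi l) (bi m))).re|
      ≤ 4 * c * nh x y := by
  calc _ ≤ ∑ j, ∑ k, ∑ l, ∑ m, c * (‖wedge x y (bi j) (bi k)‖ * ‖wedge x y (bi l) (bi m)‖) := by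
        refine (abs_sum_le_sum_abs _ _).trans (sum_le_sum fun j _ => ?_)
        refine (abs_sum_le_sum_abs _ _).trans (sum_le_sum fun k _ => ?_)
        refine (abs_sum_le_sum_abs _ _).trans (sum_le_sum fun l _ => ?_)
        refine (abs_sum_le_sum_abs _ _).trans (sum_le_sum fun m _ => ?_)
        refine (abs_re_le_norm _).trans ?_
        rw [norm_mul, norm_mul]
        exact mul_le_mul_of_nonneg_right (h j k l m) (by positivity)
    _ = c * (∑ j, ∑ k, ‖wedge x y (bi j) (bi k)‖) ^ 2 := by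
        simp only [Fin.sum_univ_two]; ring
    _ ≤ c * (4 * nh x y) := mul_le_mul_of_nonneg_left sq_norm_wedge hc
    _ = _ := by ring

/-- The constants of `Data` obtained from the bounds on the jet. -/
def jetL (θ₀ θ₁ L₀ : ℝ) : ℝ :=
  max (θ₁ / min 1 θ₀) (max (2 * θ₁ + 4 * (L₀ + 2 * L₀ ^ 2 / θ₀))
    (max (3 + 4 * (L₀ / θ₀ + 2 * L₀ ^ 2 / θ₀ ^ 2)) (12 * L₀ / min 1 θ₀ ^ 2)))

theorem jetL_pos (h₀ : 0 < θ₀) (h₁ : θ₀ ≤ θ₁) : 0 < jetL θ₀ θ₁ L₀ :=
  lt_max_of_lt_left (div_pos (h₀.trans_le h₁) (lt_min one_pos h₀))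

/-- **The data of the algebra from the jet.** -/
theorem jet_data (hC : 1 ≤ C) (hp : 0 ≤ p) (hθ₀ : 0 < θ₀) (hθl : ∀ i, θ₀ ≤ θ i)
    (hθu : ∀ i, θ i ≤ θ₁) (hr : ∀ i, 0 < r i) (hr2 : ∀ i, r i ^ 2 = C + p * θ i)
    (h₃ : ∀ j k l, ‖T₃ j k l‖ ≤ L₀) (h₄ : ∀ j k l m, ‖T₄ j k l m‖ ≤ L₀)
    (hσ : normSq σ = p * (1 + p)) :
    Data 1 (θ₀ / max 1 θ₁) (jetL θ₀ θ₁ L₀) C p (fun i => θ i / (C + p * θ i))
      (jetB C p θ r T₃ T₄ x y) (jetCr C p θ r T₃ σ x y) x y := by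
  have hC0 : 0 < C := by linarith
  have hθ₁ : 0 < θ₁ := hθ₀.trans_le ((hθl 0).trans (hθu 0))
  have hL0 : 0 ≤ L₀ := (norm_nonneg _).trans (h₃ 0 0 0)
  have hG : ∀ i, 0 < C + p * θ i := fun i => by
    have := mul_nonneg hp (hθ₀.le.trans (hθl i)); linarith
  have hG0 : ∀ i, C + p * θ₀ ≤ C + p * θ i := fun i => by
    linarith [mul_le_mul_of_nonneg_left (hθl i) hp]
  have hGC : 0 < C + p * θ₀ := by positivity
  have hNh := nh_nonneg x y
  set D := C + p * θ₀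
  set Le := min 1 θ₀
  have hLe : 0 < Le := lt_min one_pos hθ₀
  have hLeD : Le * (C + p) ≤ D := by
    have := mul_le_mul_of_nonneg_right (min_le_left 1 θ₀) hC0.le
    have := mul_le_mul_of_nonneg_left (min_le_right 1 θ₀) hp
    simp only [D, Le]
    linarith
  have hr4 : ∀ j k l m, D ^ 2 ≤ r j * r k * r l * r m := fun j k l m => by
    have hs : ∀ i, √D ≤ r i := fun i => by
      rw [← Real.sqrt_sq (hr i).le, hr2]; exact Real.sqrt_le_sqrt (hG0 i)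
    have h0 := Real.sqrt_nonneg D
    calc D ^ 2 = √D * √D * √D * √D := by
          rw [Real.mul_self_sqrt hGC.le, mul_assoc D, Real.mul_self_sqrt hGC.le]; ring
      _ ≤ _ := mul_le_mul (mul_le_mul (mul_le_mul (hs j) (hs k) h0 (hr j).le) (hs l) h0
          (mul_pos (hr j) (hr k)).le) (hs m) h0 (mul_pos (mul_pos (hr j) (hr k)) (hr l)).le
  -- the two small parts of the base block
  set c := (p * L₀ + 2 * (p ^ 2 * L₀ ^ 2 / D)) / D ^ 2 with hc
  have hc0 : 0 ≤ c := by positivity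
  have hsmall : ∀ j k l m, ‖(-((p : ℂ) * T₄ j k l m)
      + ∑ e, ((p : ℂ) ^ 2 * T₃ j e l * (starRingEnd ℂ) (T₃ k e m)) / ((C + p * θ e : ℝ) : ℂ))
        / ((r j * r k * r l * r m : ℝ) : ℂ)‖ ≤ c := fun j k l m => by
    rw [norm_div, norm_real, Real.norm_eq_abs,
      abs_of_pos (mul_pos (mul_pos (mul_pos (hr j) (hr k)) (hr l)) (hr m))]
    refine div_le_div₀ (by positivity) ?_ (by positivity) (hr4 j k l m)
    refine (norm_add_le _ _).trans (add_le_add ?_ ?_)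
    · rw [norm_neg, norm_mul, norm_real, Real.norm_eq_abs, abs_of_nonneg hp]
      exact mul_le_mul_of_nonneg_left (h₄ j k l m) hp
    · have : ∀ e, ‖((p : ℂ) ^ 2 * T₃ j e l * (starRingEnd ℂ) (T₃ k e m)) / ((C + p * θ e : ℝ) : ℂ)‖
          ≤ p ^ 2 * L₀ ^ 2 / D := fun e => by
        rw [norm_div, norm_mul, norm_mul, norm_pow, norm_conj, norm_real, norm_real,
          Real.norm_eq_abs, Real.norm_eq_abs, abs_of_nonneg hp, abs_of_pos (hG e), mul_assoc,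
          sq L₀]
        refine div_le_div₀ (by positivity) ?_ hGC (hG0 e)
        exact mul_le_mul_of_nonneg_left (mul_le_mul (h₃ j e l) (h₃ k e m) (norm_nonneg _) hL0)
          (by positivity)
      refine (norm_sum_le _ _).trans ?_
      rw [Fin.sum_univ_two]
      linarith [this 0, this 1]
  have hrest := abs_sum_le (x := x) (y := y) hc0 hsmall
  have hsplit : jetB C p θ r T₃ T₄ x y
      = C * ((wd x y 0 / r 0 ^ 2 + wd x y 1 / r 1 ^ 2) ^ 2 + (wd x y 0 / r 0 ^ 2) ^ 2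
          + (wd x y 1 / r 1 ^ 2) ^ 2 + 2 * normSq (wedge x y 0 1) / (r 0 ^ 2 * r 1 ^ 2))
        - ∑ j, ∑ k, ∑ l, ∑ m, ((-((p : ℂ) * T₄ j k l m)
          + ∑ e, ((p : ℂ) ^ 2 * T₃ j e l * (starRingEnd ℂ) (T₃ k e m)) / ((C + p * θ e : ℝ) : ℂ))
            / ((r j * r k * r l * r m : ℝ) : ℂ)
              * (wedge x y (bi j) (bi k) * wedge x y (bi l) (bi m))).re := by
    rw [← ball_block (hr 0).ne' (hr 1).ne', jetB, ← sum_neg_distrib, ← sum_sub_distrib]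
    refine sum_congr rfl fun j _ => ?_
    rw [← sum_neg_distrib, ← sum_sub_distrib]
    refine sum_congr rfl fun k _ => ?_
    rw [← sum_neg_distrib, ← sum_sub_distrib]
    refine sum_congr rfl fun l _ => ?_
    rw [← sum_neg_distrib, ← sum_sub_distrib]
    refine sum_congr rfl fun m _ => ?_
    rw [← neg_re, ← sub_re, baseR]
    congr 1
    ring
  set ball := (wd x y 0 / r 0 ^ 2 + wd x y 1 / r 1 ^ 2) ^ 2 + (wd x y 0 / r 0 ^ 2) ^ 2
    + (wd x y 1 / r 1 ^ 2) ^ 2 + 2 * normSq (wedge x y 0 1) / (r 0 ^ 2 * r 1 ^ 2) with hball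
  have hz := normSq_nonneg (wedge x y 0 1)
  have hlow : nh x y / (C + p * θ₁) ^ 2 ≤ ball := by
    have hu : ∀ i, 1 / (C + p * θ₁) ≤ 1 / r i ^ 2 := fun i => by
      rw [hr2]
      exact one_div_le_one_div_of_le (hG i) (by linarith [mul_le_mul_of_nonneg_left (hθu i) hp])
    have h0 : 0 ≤ 1 / (C + p * θ₁) := by positivity
    have a0 := mul_le_mul_of_nonneg_left (pow_le_pow_left₀ h0 (hu 0) 2) (sq_nonneg (wd x y 0))
    have a1 := mul_le_mul_of_nonneg_left (pow_le_pow_left₀ h0 (hu 1) 2) (sq_nonneg (wd x y 1))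
    have a2 := mul_le_mul_of_nonneg_left (mul_le_mul (hu 0) (hu 1) h0 (h0.trans (hu 0))) hz
    have a3 := sq_nonneg (wd x y 0 / r 0 ^ 2 + wd x y 1 / r 1 ^ 2)
    have e : nh x y / (C + p * θ₁) ^ 2 = wd x y 0 ^ 2 * (1 / (C + p * θ₁)) ^ 2
        + wd x y 1 ^ 2 * (1 / (C + p * θ₁)) ^ 2
        + 2 * (normSq (wedge x y 0 1) * (1 / (C + p * θ₁) * (1 / (C + p * θ₁)))) := by
      simp only [nh, div_eq_mul_inv, ← inv_pow]; ring
    have e' : ball = (wd x y 0 / r 0 ^ 2 + wd x y 1 / r 1 ^ 2) ^ 2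
        + wd x y 0 ^ 2 * (1 / r 0 ^ 2) ^ 2 + wd x y 1 ^ 2 * (1 / r 1 ^ 2) ^ 2
        + 2 * (normSq (wedge x y 0 1) * (1 / r 0 ^ 2 * (1 / r 1 ^ 2))) := by
      simp only [hball]; ring
    rw [e, e']
    linarith
  have hhigh : ball ≤ 3 * nh x y / C ^ 2 := by
    have hu : ∀ i, 1 / r i ^ 2 ≤ 1 / C := fun i => by
      rw [hr2]
      exact one_div_le_one_div_of_le hC0 (by linarith [mul_nonneg hp (hθ₀.le.trans (hθl i))])
    have h0 : ∀ i, 0 ≤ 1 / r i ^ 2 := fun i => by positivity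
    have a0 := mul_le_mul_of_nonneg_left (pow_le_pow_left₀ (h0 0) (hu 0) 2) (sq_nonneg (wd x y 0))
    have a1 := mul_le_mul_of_nonneg_left (pow_le_pow_left₀ (h0 1) (hu 1) 2) (sq_nonneg (wd x y 1))
    have a2 := mul_le_mul_of_nonneg_left (mul_le_mul (hu 0) (hu 1) (h0 1) (by positivity)) hz
    have a3 := sq_nonneg (wd x y 0 / r 0 ^ 2 - wd x y 1 / r 1 ^ 2)
    have a4 : 0 ≤ normSq (wedge x y 0 1) * (1 / C) ^ 2 := by positivity
    simp only [nh, hball]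
    ring_nf at a0 a1 a2 a3 a4 ⊢
    linarith
  have hcl : c ≤ (L₀ + 2 * L₀ ^ 2 / θ₀) * p / C ^ 2 := by
    have h1 : p ^ 2 * L₀ ^ 2 / D ≤ p * L₀ ^ 2 / θ₀ := by
      rw [div_le_div_iff₀ hGC hθ₀]
      have := mul_nonneg (mul_nonneg hp (sq_nonneg L₀)) hC0.le
      simp only [D]; linarith
    have h2 : C ^ 2 ≤ D ^ 2 := pow_le_pow_left₀ hC0.le (le_add_of_nonneg_right (by positivity)) 2
    refine (div_le_div₀ (by positivity) (add_le_add_right (mul_le_mul_of_nonneg_left h1 zero_le_two)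
      _) (by positivity) h2).trans (le_of_eq ?_)
    ring
  have hcu : c ≤ (L₀ / θ₀ + 2 * L₀ ^ 2 / θ₀ ^ 2) / C := by
    have h1 : p ≤ D / θ₀ := by rw [le_div_iff₀ hθ₀]; simp only [D]; linarith
    have h2 : C ≤ D := le_add_of_nonneg_right (by positivity)
    calc c ≤ (D / θ₀ * L₀ + 2 * ((D / θ₀) ^ 2 * L₀ ^ 2 / D)) / D ^ 2 := by rw [hc]; gcongr
      _ = (L₀ / θ₀ + 2 * L₀ ^ 2 / θ₀ ^ 2) / D := by field_simp
      _ ≤ _ := div_le_div_of_nonneg_left (by positivity) hC0 h2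
  refine ⟨hp, fun i => ?_, fun i => ?_, fun i => ?_, ?_, ?_, ?_⟩
  · have hm : 0 < max 1 θ₁ := lt_max_of_lt_left one_pos
    rw [div_div, div_le_div_iff₀ (mul_pos hm (by linarith)) (hG i)]
    refine mul_le_mul (hθl i) ?_ (hG i).le (hθ₀.le.trans (hθl i))
    have := mul_le_mul_of_nonneg_right (le_max_left 1 θ₁) hC0.le
    have := mul_le_mul_of_nonneg_left ((hθu i).trans (le_max_right 1 θ₁)) hp
    linarith
  · refine le_trans ?_ (div_le_div_of_nonneg_right (le_max_left _ _) (by linarith))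
    rw [div_div]
    exact div_le_div₀ hθ₁.le (hθu i) (mul_pos hLe (by linarith)) (hLeD.trans (hG0 i))
  · rw [mul_div_assoc', div_le_one (hG i)]; linarith
  · have hball' : (1 / C - 2 * θ₁ * p / C ^ 2) * nh x y ≤ C * ball := by
      refine le_trans ?_ (mul_le_mul_of_nonneg_left hlow hC0.le)
      rw [show C * (nh x y / (C + p * θ₁) ^ 2) = C / (C + p * θ₁) ^ 2 * nh x y by ring]
      refine mul_le_mul_of_nonneg_right ?_ hNh
      rw [div_sub_div _ _ hC0.ne' (by positivity), div_le_div_iff₀ (by positivity) (by positivity)]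
      have := mul_nonneg (mul_nonneg hC0.le (sq_nonneg (p * θ₁)))
        (show 0 ≤ 3 * C + 2 * (p * θ₁) by positivity)
      linarith
    have hLc : 2 * θ₁ + 4 * (L₀ + 2 * L₀ ^ 2 / θ₀) ≤ jetL θ₀ θ₁ L₀ :=
      le_max_of_le_right (le_max_left _ _)
    have h2 := mul_le_mul_of_nonneg_right hLc (show 0 ≤ p / C ^ 2 * nh x y by positivity)
    have h3 := mul_le_mul_of_nonneg_right (mul_le_mul_of_nonneg_left hcl four_pos.le) hNh
    have e1 : jetL θ₀ θ₁ L₀ * (p / C ^ 2 * nh x y) = jetL θ₀ θ₁ L₀ * p / C ^ 2 * nh x y := by ring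
    have e2 : (2 * θ₁ + 4 * (L₀ + 2 * L₀ ^ 2 / θ₀)) * (p / C ^ 2 * nh x y)
        = 2 * θ₁ * p / C ^ 2 * nh x y + 4 * ((L₀ + 2 * L₀ ^ 2 / θ₀) * p / C ^ 2) * nh x y := by ring
    rw [hsplit]
    linarith [(abs_le.1 hrest).2]
  · rw [hsplit]
    have h1 : C * ball ≤ 3 / C * nh x y :=
      (mul_le_mul_of_nonneg_left hhigh hC0.le).trans_eq (by field_simp)
    have h2 : 0 ≤ C * ball := by positivity
    have h3 := mul_le_mul_of_nonneg_right (mul_le_mul_of_nonneg_left hcu four_pos.le) hNh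
    have hLc : 3 + 4 * (L₀ / θ₀ + 2 * L₀ ^ 2 / θ₀ ^ 2) ≤ jetL θ₀ θ₁ L₀ :=
      le_max_of_le_right (le_max_of_le_right (le_max_left _ _))
    have h4 := mul_le_mul_of_nonneg_right hLc (show 0 ≤ nh x y / C by positivity)
    have h5 : 0 ≤ 3 / C * nh x y := by positivity
    obtain ⟨u1, u2⟩ := abs_le.1 hrest
    have e1 : (3 + 4 * (L₀ / θ₀ + 2 * L₀ ^ 2 / θ₀ ^ 2)) * (nh x y / C) = 3 / C * nh x y
        + 4 * ((L₀ / θ₀ + 2 * L₀ ^ 2 / θ₀ ^ 2) / C) * nh x y := by ring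
    have e2 : jetL θ₀ θ₁ L₀ * (nh x y / C) = jetL θ₀ θ₁ L₀ / C * nh x y := by ring
    rw [abs_le]
    constructor <;> linarith
  · -- the mixed block
    have hLc : 12 * L₀ / Le ^ 2 ≤ jetL θ₀ θ₁ L₀ :=
      le_max_of_le_right (le_max_of_le_right (le_max_right _ _))
    set b := ‖σ‖ * L₀ / (Le ^ 2 * ((C + p) * √(C + p))) with hb
    have hCp : 0 < C + p := by linarith
    have hbound : ∀ j k l, ‖mixR C p θ T₃ σ j k l / ((r j * r k * r l : ℝ) : ℂ)‖ ≤ b := by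
      intro j k l
      have hs : ∀ i, √D ≤ r i := fun i => by
        rw [← Real.sqrt_sq (hr i).le, hr2]; exact Real.sqrt_le_sqrt (hG0 i)
      have h3 : D * √D ≤ r j * r k * r l := by
        calc D * √D = √D * √D * √D := by rw [Real.mul_self_sqrt hGC.le]
          _ ≤ _ := mul_le_mul (mul_le_mul (hs j) (hs k) (Real.sqrt_nonneg D) (hr j).le) (hs l)
              (Real.sqrt_nonneg D) (mul_pos (hr j) (hr k)).le
      have h4 : Le ^ 2 * ((C + p) * √(C + p)) ≤ D * √D := by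
        have h5 : Le * √(C + p) ≤ √D := by
          calc Le * √(C + p) = √(Le ^ 2 * (C + p)) := by
                rw [Real.sqrt_mul (sq_nonneg _), Real.sqrt_sq hLe.le]
            _ ≤ √D := Real.sqrt_le_sqrt (le_trans (mul_le_mul_of_nonneg_right
                (pow_le_of_le_one hLe.le (min_le_left _ _) two_ne_zero) hCp.le) hLeD)
        calc Le ^ 2 * ((C + p) * √(C + p)) = Le * (C + p) * (Le * √(C + p)) := by ring
          _ ≤ D * √D := mul_le_mul hLeD h5 (by positivity) hGC.le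
      have hpos : 0 < r j * r k * r l := mul_pos (mul_pos (hr j) (hr k)) (hr l)
      rw [norm_div, mixR, norm_neg, norm_mul, norm_mul, norm_real, norm_real, Real.norm_eq_abs,
        Real.norm_eq_abs, abs_of_pos hpos, abs_of_pos (div_pos hC0 (hG k))]
      refine div_le_div₀ (by positivity) ?_ (by positivity) (h4.trans h3)
      calc ‖σ‖ * ‖T₃ j k l‖ * (C / (C + p * θ k)) ≤ ‖σ‖ * L₀ * 1 := by
            refine mul_le_mul (mul_le_mul_of_nonneg_left (h₃ j k l) (norm_nonneg _)) ?_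
              (div_pos hC0 (hG k)).le (mul_nonneg (norm_nonneg _) hL0)
            rw [div_le_one (hG k)]
            linarith [mul_nonneg hp (hθ₀.le.trans (hθl k))]
        _ = _ := mul_one _
    set P := ∑ j, ∑ k, ‖wedge x y (bi j) (bi k)‖
    set Q := ∑ l, ‖wedge x y (bi l) 2‖
    have habs : |jetCr C p θ r T₃ σ x y| ≤ 4 * b * (P * Q) := by
      rw [jetCr, abs_mul, show |(-4 : ℝ)| = 4 by norm_num, mul_assoc]
      refine mul_le_mul_of_nonneg_left ?_ (by norm_num)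
      calc _ ≤ ∑ j, ∑ k, ∑ l, b * (‖wedge x y (bi j) (bi k)‖ * ‖wedge x y (bi l) 2‖) := by
            refine (abs_sum_le_sum_abs _ _).trans (sum_le_sum fun j _ => ?_)
            refine (abs_sum_le_sum_abs _ _).trans (sum_le_sum fun k _ => ?_)
            refine (abs_sum_le_sum_abs _ _).trans (sum_le_sum fun l _ => ?_)
            refine (abs_re_le_norm _).trans ?_
            rw [norm_mul, norm_mul]
            exact mul_le_mul_of_nonneg_right (hbound j k l) (by positivity)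
        _ = b * (P * Q) := by simp only [P, Q, Fin.sum_univ_two]; ring
    have hPQ : (P * Q) ^ 2 ≤ 8 * (nh x y * nu x y) := by
      calc (P * Q) ^ 2 = P ^ 2 * Q ^ 2 := mul_pow _ _ 2
        _ ≤ (4 * nh x y) * (2 * nu x y) :=
            mul_le_mul sq_norm_wedge sq_norm_mixed (sq_nonneg _) (by positivity)
        _ = _ := by ring
    have hb2 : b ^ 2 = L₀ ^ 2 / (Le ^ 2) ^ 2 * (p * (1 + p)) / (C + p) ^ 3 := by
      rw [hb, div_pow, mul_pow, Complex.sq_norm, hσ]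
      simp only [mul_pow, Real.sq_sqrt hCp.le]
      field_simp
    calc jetCr C p θ r T₃ σ x y ^ 2 ≤ (4 * b * (P * Q)) ^ 2 :=
          sq_le_sq' (abs_le.1 habs).1 (abs_le.1 habs).2
      _ = 16 * b ^ 2 * (P * Q) ^ 2 := by ring
      _ ≤ 16 * b ^ 2 * (8 * (nh x y * nu x y)) := mul_le_mul_of_nonneg_left hPQ (by positivity)
      _ ≤ (12 * L₀ / Le ^ 2) ^ 2 * (p * (1 + p)) / (C + p) ^ 3 * (nh x y * nu x y) := by
          rw [hb2]
          have h0 : 0 ≤ L₀ ^ 2 / (Le ^ 2) ^ 2 * (p * (1 + p)) / (C + p) ^ 3 * (nh x y * nu x y) := by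
            have := nu_nonneg x y
            positivity
          have e : (12 * L₀ / Le ^ 2) ^ 2 * (p * (1 + p)) / (C + p) ^ 3 * (nh x y * nu x y)
              = 144 * (L₀ ^ 2 / (Le ^ 2) ^ 2 * (p * (1 + p)) / (C + p) ^ 3 * (nh x y * nu x y)) := by
            ring
          rw [e]
          linarith
      _ ≤ _ := by
          have := nu_nonneg x y
          gcongr

end Vale.Agent.P250.Disproof.Alg
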