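import Mathlib

/-!
# P250 disproof: second derivatives and the Levi form of a real function

`hs φ x` is the real Hessian, `levi φ x u` the value of `i ∂∂̄ φ` on `u`.
-/

open Filter Complex
open scoped Topology ContDiff

noncomputable section

namespace Vale.Agent.P250.Disproof

section Real

variable {E F : Type*} [NormedAddCommGroup E] [NormedSpace ℝ E] [NormedAddCommGroup F]
  [NormedSpace ℝ F]

/-- The real Hessian. -/
def hs (φ : E → ℝ) (x u v : E) : ℝ := fderiv ℝ (fderiv ℝ φ) x u v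

theorem ev_differentiable {f : E → F} {x : E} (h : ContDiffAt ℝ 2 f x) :
    ∀ᶠ y in 𝓝 x, DifferentiableAt ℝ f y :=
  (h.eventually (by simp)).mono fun _ hy => hy.differentiableAt (by norm_num)

theorem hasFDerivAt_fderiv {f : E → F} {x : E} (h : ContDiffAt ℝ 2 f x) :
    HasFDerivAt (fderiv ℝ f) (fderiv ℝ (fderiv ℝ f) x) x :=
  ((h.fderiv_right (m := 1) (by norm_num)).differentiableAt (by norm_num)).hasFDerivAt

theorem hs_congr {φ ψ : E → ℝ} {x : E} (h : φ =ᶠ[𝓝 x] ψ) (u v : E) :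
    hs φ x u v = hs ψ x u v := by
  rw [hs, hs, h.fderiv.fderiv_eq]

theorem hs_comp {φ : F → ℝ} {f : E → F} {x : E} (hφ : ContDiffAt ℝ 2 φ (f x))
    (hf : ContDiffAt ℝ 2 f x) (u v : E) :
    hs (φ ∘ f) x u v = hs φ (f x) (fderiv ℝ f x u) (fderiv ℝ f x v)
      + fderiv ℝ φ (f x) (fderiv ℝ (fderiv ℝ f) x u v) := by
  have hev : fderiv ℝ (φ ∘ f) =ᶠ[𝓝 x]
      fun y => (fderiv ℝ φ (f y)).comp (fderiv ℝ f y) := by
    filter_upwards [ev_differentiable hf,
      hf.continuousAt.eventually (ev_differentiable hφ)] with y hy hy'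
    exact fderiv_comp y hy' hy
  have h1 : HasFDerivAt (fun y => fderiv ℝ φ (f y))
      ((fderiv ℝ (fderiv ℝ φ) (f x)).comp (fderiv ℝ f x)) x :=
    (hasFDerivAt_fderiv hφ).comp x (hf.differentiableAt (by norm_num)).hasFDerivAt
  have h2 := h1.clm_comp (hasFDerivAt_fderiv hf)
  rw [hs, hev.fderiv_eq, h2.fderiv]
  simp [hs, add_comm]

theorem hs_add {φ ψ : E → ℝ} {x : E} (hφ : ContDiffAt ℝ 2 φ x) (hψ : ContDiffAt ℝ 2 ψ x)
    (u v : E) : hs (fun y => φ y + ψ y) x u v = hs φ x u v + hs ψ x u v := by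
  have hev : fderiv ℝ (fun y => φ y + ψ y) =ᶠ[𝓝 x]
      fun y => fderiv ℝ φ y + fderiv ℝ ψ y := by
    filter_upwards [ev_differentiable hφ, ev_differentiable hψ] with y h1 h2
    exact fderiv_fun_add h1 h2
  rw [hs, hev.fderiv_eq, ((hasFDerivAt_fderiv hφ).fun_add (hasFDerivAt_fderiv hψ)).fderiv]
  rfl

theorem hs_const_mul {φ : E → ℝ} {x : E} (hφ : ContDiffAt ℝ 2 φ x) (c : ℝ) (u v : E) :
    hs (fun y => c * φ y) x u v = c * hs φ x u v := by
  have hev : fderiv ℝ (fun y => c * φ y) =ᶠ[𝓝 x] fun y => c • fderiv ℝ φ y := by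
    filter_upwards [ev_differentiable hφ] with y h1
    exact fderiv_const_mul h1 c
  rw [hs, hev.fderiv_eq, ((hasFDerivAt_fderiv hφ).fun_const_smul c).fderiv]
  simp [hs]

theorem hs_const_add {φ : E → ℝ} (x : E) (c : ℝ) (u v : E) :
    hs (fun y => c + φ y) x u v = hs φ x u v := by
  have : fderiv ℝ (fun y => c + φ y) = fderiv ℝ φ := funext fun y => fderiv_const_add c
  rw [hs, this, hs]

theorem hs_mul {φ ψ : E → ℝ} {x : E} (hφ : ContDiffAt ℝ 2 φ x) (hψ : ContDiffAt ℝ 2 ψ x)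
    (u v : E) : hs (fun y => φ y * ψ y) x u v = φ x * hs ψ x u v + ψ x * hs φ x u v
      + fderiv ℝ φ x u * fderiv ℝ ψ x v + fderiv ℝ ψ x u * fderiv ℝ φ x v := by
  have hev : fderiv ℝ (fun y => φ y * ψ y) =ᶠ[𝓝 x]
      fun y => φ y • fderiv ℝ ψ y + ψ y • fderiv ℝ φ y := by
    filter_upwards [ev_differentiable hφ, ev_differentiable hψ] with y h1 h2
    exact fderiv_fun_mul h1 h2
  have h1 := (hφ.differentiableAt (by norm_num)).hasFDerivAt
  have h2 := (hψ.differentiableAt (by norm_num)).hasFDerivAt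
  have h := (h1.fun_smul (hasFDerivAt_fderiv hψ)).fun_add (h2.fun_smul (hasFDerivAt_fderiv hφ))
  rw [hs, hev.fderiv_eq, h.fderiv]
  simp [hs]
  ring

theorem hs_clm (ℓ : E →L[ℝ] ℝ) (x u v : E) : hs (⇑ℓ) x u v = 0 := by
  have : fderiv ℝ (⇑ℓ) = fun _ => ℓ := funext fun y => ℓ.fderiv
  rw [hs, this]
  simp

theorem hs_log {φ : E → ℝ} {x : E} (hφ : ContDiffAt ℝ 2 φ x) (h0 : φ x ≠ 0) (u v : E) :
    hs (fun y => Real.log (φ y)) x u v
      = (φ x)⁻¹ * hs φ x u v - ((φ x) ^ 2)⁻¹ * (fderiv ℝ φ x u * fderiv ℝ φ x v) := by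
  have hev : fderiv ℝ (fun y => Real.log (φ y)) =ᶠ[𝓝 x] fun y => (φ y)⁻¹ • fderiv ℝ φ y := by
    filter_upwards [ev_differentiable hφ, hφ.continuousAt.eventually_ne h0] with y h1 h2
    exact fderiv.log h1 h2
  have h1 := (hφ.differentiableAt (by norm_num)).hasFDerivAt
  have h2 : HasFDerivAt (fun y => (φ y)⁻¹) ((-((φ x) ^ 2)⁻¹) • fderiv ℝ φ x) x :=
    (hasDerivAt_inv h0).comp_hasFDerivAt x h1
  have h := h2.fun_smul (hasFDerivAt_fderiv hφ)
  rw [hs, hev.fderiv_eq, h.fderiv]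
  simp [hs]
  ring

theorem hs_exp {φ : E → ℝ} {x : E} (hφ : ContDiffAt ℝ 2 φ x) (u v : E) :
    hs (fun y => Real.exp (φ y)) x u v
      = Real.exp (φ x) * (hs φ x u v + fderiv ℝ φ x u * fderiv ℝ φ x v) := by
  have hev : fderiv ℝ (fun y => Real.exp (φ y)) =ᶠ[𝓝 x]
      fun y => Real.exp (φ y) • fderiv ℝ φ y := by
    filter_upwards [ev_differentiable hφ] with y h1
    exact fderiv_exp h1
  have h1 := (hφ.differentiableAt (by norm_num)).hasFDerivAt
  have h := h1.exp.fun_smul (hasFDerivAt_fderiv hφ)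
  rw [hs, hev.fderiv_eq, h.fderiv]
  simp [hs]
  ring

end Real

section Levi

variable {E F : Type*} [NormedAddCommGroup E] [NormedSpace ℂ E] [NormedAddCommGroup F]
  [NormedSpace ℂ F]

/-- The Levi form of `φ` on `u`. -/
def levi (φ : E → ℝ) (x u : E) : ℝ := (hs φ x u u + hs φ x (I • u) (I • u)) / 4

theorem levi_congr {φ ψ : E → ℝ} {x : E} (h : φ =ᶠ[𝓝 x] ψ) (u : E) :
    levi φ x u = levi ψ x u := by
  rw [levi, levi, hs_congr h, hs_congr h]

theorem levi_add {φ ψ : E → ℝ} {x : E} (hφ : ContDiffAt ℝ 2 φ x) (hψ : ContDiffAt ℝ 2 ψ x)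
    (u : E) : levi (fun y => φ y + ψ y) x u = levi φ x u + levi ψ x u := by
  simp only [levi, hs_add hφ hψ]; ring

theorem levi_const_mul {φ : E → ℝ} {x : E} (hφ : ContDiffAt ℝ 2 φ x) (c : ℝ) (u : E) :
    levi (fun y => c * φ y) x u = c * levi φ x u := by
  simp only [levi, hs_const_mul hφ]; ring

theorem levi_log {φ : E → ℝ} {x : E} (hφ : ContDiffAt ℝ 2 φ x) (h0 : φ x ≠ 0) (u : E) :
    levi (fun y => Real.log (φ y)) x u = (φ x)⁻¹ * levi φ x u
      - ((fderiv ℝ φ x u) ^ 2 + (fderiv ℝ φ x (I • u)) ^ 2) / (4 * (φ x) ^ 2) := by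
  simp only [levi, hs_log hφ h0]
  field_simp
  ring

/-- The Levi form pulls back under holomorphic maps. -/
theorem levi_comp {φ : F → ℝ} {f : E → F} {x : E} (hφ : ContDiffAt ℝ 2 φ (f x))
    (hf : ContDiffAt ℂ 2 f x) (u : E) :
    levi (φ ∘ f) x u = levi φ (f x) (fderiv ℂ f x u) := by
  have hd : ∀ᶠ y in 𝓝 x, DifferentiableAt ℂ f y :=
    (hf.eventually (by simp)).mono fun _ hy => hy.differentiableAt (by norm_num)
  have hev : fderiv ℝ f =ᶠ[𝓝 x] fun y => (fderiv ℂ f y).restrictScalars ℝ := by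
    filter_upwards [hd] with y hy
    exact (hy.hasFDerivAt.restrictScalars ℝ).fderiv
  have h2 : HasFDerivAt (fderiv ℂ f) (fderiv ℂ (fderiv ℂ f) x) x :=
    ((hf.fderiv_right (m := 1) (by norm_num)).differentiableAt (by norm_num)).hasFDerivAt
  have h3 := (ContinuousLinearMap.restrictScalarsL ℂ E F ℝ ℝ).hasFDerivAt.comp x
    (h2.restrictScalars ℝ)
  have key : ∀ a b : E, fderiv ℝ (fderiv ℝ f) x a b = fderiv ℂ (fderiv ℂ f) x a b := by
    intro a b
    have := (h3.congr_of_eventuallyEq hev).fderiv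
    rw [this]
    rfl
  have h1 : ∀ a : E, fderiv ℝ f x a = fderiv ℂ f x a := fun a => by rw [hev.eq_of_nhds]; rfl
  simp only [levi, hs_comp hφ (hf.restrict_scalars ℝ), key, h1, map_smul,
    smul_apply, smul_smul, I_mul_I, neg_one_smul, map_neg]
  ring

/-- The Levi form pulls back under complex linear maps. -/
theorem levi_comp_clm {φ : F → ℝ} (T : E →L[ℂ] F) {x : E} (hφ : ContDiffAt ℝ 2 φ (T x)) (u : E) :
    levi (φ ∘ T) x u = levi φ (T x) (T u) := by
  rw [levi_comp hφ T.contDiff.contDiffAt, T.fderiv]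

end Levi

end Vale.Agent.P250.Disproof
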