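import Vale.Agent.P250.Disproof.Defs

/-!
# P250 disproof: the theta series

Periodicity, and elementary bounds for the first two terms.
-/

open Complex Filter Set
open scoped Topology

noncomputable section

namespace Vale.Agent.P250.Disproof

theorem differentiable_theta : Differentiable ℂ theta := fun z =>
  differentiableAt_jacobiTheta₂_fst z (by simp)

theorem differentiable_P : Differentiable ℂ P := by
  have := differentiable_theta
  unfold P; fun_prop

theorem theta_add_one (z : ℂ) : theta (z + 1) = theta z := jacobiTheta₂_add_left z I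

theorem theta_add_I (z : ℂ) : theta (z + I) = cexp (-Real.pi * I * (I + 2 * z)) * theta z :=
  jacobiTheta₂_add_left' z I

theorem rho_shift (a : ℂ) (s : ℝ) (x : B2) : rho (shift a s x) = rho x := by
  simp [rho, shift, normSq_apply]; ring

theorem rho_dil (t : ℝ) (x : B2) : rho (dil t x) = t ^ 2 * rho x := by
  simp [rho, dil, normSq_apply, pow_two]; ring

theorem P_shift_real (x : B2) : P (shift 0 4 x) = P x := by
  unfold P shift
  simp only [add_zero, map_zero, mul_zero, zero_mul, ofReal_zero]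
  congr 1
  rw [Complex.exp_eq_exp_iff_exists_int]
  exact ⟨1, by push_cast; ring⟩

theorem theta_add_int_mul_I (z : ℂ) : ∀ n : ℤ,
    theta (z + n * I) = cexp (Real.pi * (n : ℂ) ^ 2 - 2 * Real.pi * I * n * z) * theta z := by
  intro n
  induction n using Int.induction_on with
  | zero => simp
  | succ k ih =>
    have h : z + ((k : ℤ) + 1 : ℤ) * I = (z + (k : ℤ) * I) + I := by push_cast; ring
    rw [h, theta_add_I, ih, ← mul_assoc, ← Complex.exp_add]
    congr 2
    push_cast
    linear_combination (-(Real.pi : ℂ) - 2 * Real.pi * (k : ℂ)) * I_sq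
  | pred k ih =>
    have h := theta_add_I (z + ((-(k : ℤ) - 1 : ℤ) : ℂ) * I)
    have h2 : z + ((-(k : ℤ) - 1 : ℤ) : ℂ) * I + I = z + ((-(k : ℤ) : ℤ) : ℂ) * I := by
      push_cast; ring
    rw [h2, ih] at h
    apply mul_left_cancel₀ (Complex.exp_ne_zero (-Real.pi * I * (I + 2 * (z + ((-(k : ℤ) - 1 : ℤ) : ℂ) * I))))
    rw [← h, ← mul_assoc, ← Complex.exp_add]
    congr 2
    push_cast
    linear_combination -((Real.pi : ℂ) + 2 * Real.pi * (k : ℂ)) * I_sq

theorem theta_add_int (z : ℂ) (m : ℤ) : theta (z + m) = theta z := by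
  induction m using Int.induction_on with
  | zero => simp
  | succ k ih =>
    rw [show z + ((k : ℤ) + 1 : ℤ) = (z + (k : ℤ)) + 1 by push_cast; ring, theta_add_one, ih]
  | pred k ih =>
    rw [← theta_add_one, show z + ((-(k : ℤ) - 1 : ℤ) : ℂ) + 1 = z + ((-(k : ℤ) : ℤ) : ℂ) by
      push_cast; ring, ih]

/-- `P` is invariant under the lattice translations. -/
theorem P_shift_lattice (m n : ℤ) (x : B2) :
    P (shift ((m : ℂ) + n * I) (2 * m * n) x) = P x := by
  have hth : theta (x.1 + ((m : ℂ) + n * I)) =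
      cexp (Real.pi * (n : ℂ) ^ 2 - 2 * Real.pi * I * n * x.1) * theta x.1 := by
    rw [show x.1 + ((m : ℂ) + n * I) = (x.1 + n * I) + m by ring, theta_add_int,
      theta_add_int_mul_I]
  unfold P shift
  rw [hth, ← mul_assoc, ← Complex.exp_add]
  congr 1
  rw [Complex.exp_eq_exp_iff_exists_int]
  refine ⟨m * n, ?_⟩
  have hs : (starRingEnd ℂ) ((m : ℂ) + n * I) = m - n * I := by
    simp [map_add, map_mul, conj_I]; ring
  have hN : ((normSq ((m : ℂ) + n * I) : ℝ) : ℂ) = (m : ℂ) ^ 2 + (n : ℂ) ^ 2 := by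
    rw [normSq_apply]; simp; ring
  rw [hs, hN]
  push_cast
  linear_combination ((Real.pi : ℂ) / 2 *
    ((m : ℂ) ^ 2 + (2 : ℂ) * (n : ℂ) ^ 2 + 2 * (m : ℂ) * x.1 - 2 * (n : ℂ) * I * x.1)) * I_sq

theorem norm_P (x : B2) :
    ‖P x‖ = Real.exp (-Real.pi * rho x / 2) * (‖theta x.1‖ * Real.exp (-Real.pi * x.1.im ^ 2)) := by
  unfold P
  rw [norm_mul, Complex.norm_exp]
  have e : (I * Real.pi * x.2 / 2 + Real.pi * x.1 ^ 2 / 2).re =
      -Real.pi * rho x / 2 + -Real.pi * x.1.im ^ 2 := by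
    simp [rho, normSq_apply, pow_two]; ring
  rw [e, Real.exp_add]; ring

/-- `e^{-π}`. -/
def qq : ℝ := Real.exp (-Real.pi)

theorem qq_bounds : 1 / 25 ≤ qq ∧ qq ≤ 1 / 23 := by
  have h1 := Real.exp_one_gt_d9
  have h1' := Real.exp_one_lt_d9
  have p1 := Real.pi_gt_d4
  have p2 := Real.pi_lt_d4
  have e3 : Real.exp 3 = Real.exp 1 ^ 3 := by rw [← Real.exp_nat_mul]; norm_num
  have hA : (23 : ℝ) ≤ Real.exp Real.pi := by
    have h2 : (1.1513 : ℝ) ≤ Real.exp (Real.pi - 3) := by
      have := Real.quadratic_le_exp_of_nonneg (show (0 : ℝ) ≤ Real.pi - 3 by linarith)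
      nlinarith
    have h3 : (20.0855 : ℝ) ≤ Real.exp 3 := by rw [e3]; nlinarith [sq_nonneg (Real.exp 1)]
    have : Real.exp Real.pi = Real.exp 3 * Real.exp (Real.pi - 3) := by
      rw [← Real.exp_add]; ring_nf
    rw [this]; nlinarith
  have hB : Real.exp Real.pi ≤ 25 := by
    have h2 : Real.exp (Real.pi - 3) ≤ 1 / (1 - (Real.pi - 3)) :=
      Real.exp_bound_div_one_sub_of_interval (by linarith) (by linarith)
    have h3 : Real.exp 3 ≤ 20.09 := by rw [e3]; nlinarith [sq_nonneg (Real.exp 1)]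
    have h4 : (1 : ℝ) / (1 - (Real.pi - 3)) ≤ 1.17 := by
      rw [div_le_iff₀ (by linarith)]; linarith
    have : Real.exp Real.pi = Real.exp 3 * Real.exp (Real.pi - 3) := by
      rw [← Real.exp_add]; ring_nf
    rw [this]; nlinarith [Real.exp_pos 3, Real.exp_pos (Real.pi - 3)]
  unfold qq
  rw [Real.exp_neg, one_div, one_div]
  exact ⟨inv_anti₀ (Real.exp_pos _) hB, inv_anti₀ (by norm_num) hA⟩

/-- The first two terms of the series. -/
def main (z : ℂ) : ℂ :=
  1 + (qq : ℂ) * (cexp (2 * Real.pi * I * z) + cexp (-(2 * Real.pi * I * z)))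

theorem theta_sub_main {z : ℂ} (hz : |z.im| ≤ 1 / 2) : ‖theta z - main z‖ ≤ 1 / 200 := by
  set f : ℤ → ℂ := fun k => jacobiTheta₂_term k z I with hf
  set x : ℝ := Real.exp (-(2 * Real.pi)) with hx
  have hs : Summable f := (hasSum_jacobiTheta₂_term z (by simp : 0 < I.im)).summable
  have h1 : Summable fun n : ℕ => f n := hs.comp_injective Nat.cast_injective
  have h2 : Summable fun n : ℕ => f (-((n : ℤ) + 1)) :=
    hs.comp_injective fun a b h => by simpa using h
  have e : theta z = (∑' n : ℕ, f n) + ∑' n : ℕ, f (-((n : ℤ) + 1)) := by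
    rw [theta, jacobiTheta₂, tsum_of_nat_of_neg_add_one h1 h2]
  have hb : ∀ k : ℤ, (2 : ℤ) ≤ |k| → ‖f k‖ ≤ x ^ (|k| - 1).toNat := by
    intro k hk
    rw [hf, norm_jacobiTheta₂_term, hx, ← Real.exp_nat_mul]
    refine Real.exp_le_exp.2 ?_
    have hj : (((|k| - 1).toNat : ℕ) : ℝ) = |(k : ℝ)| - 1 := by
      rw [show (((|k| - 1).toNat : ℕ) : ℝ) = (((|k| - 1).toNat : ℤ) : ℝ) by norm_cast,
        Int.toNat_of_nonneg (by omega)]
      push_cast; ring
    have hk2 : (2 : ℝ) ≤ |(k : ℝ)| := by exact_mod_cast hk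
    have hy : -((k : ℝ) * z.im) ≤ |(k : ℝ)| / 2 := by
      calc -((k : ℝ) * z.im) ≤ |(k : ℝ) * z.im| := neg_le_abs _
        _ = |(k : ℝ)| * |z.im| := abs_mul _ _
        _ ≤ |(k : ℝ)| / 2 := by nlinarith [abs_nonneg (k : ℝ)]
    rw [hj, I_im]
    have := sq_abs (k : ℝ)
    have hp := Real.pi_pos
    have hy' := mul_le_mul_of_nonneg_left hy hp.le
    nlinarith [mul_nonneg hp.le (mul_nonneg (sub_nonneg.2 hk2) (sub_nonneg.2 ((by norm_num : (1:ℝ) ≤ 2).trans hk2)))]
  have hx0 : 0 ≤ x := (Real.exp_pos _).le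
  have hx1 : x ≤ 1 / 500 := by
    rw [hx, show -(2 * Real.pi) = -Real.pi + -Real.pi by ring, Real.exp_add]
    have := qq_bounds.2
    unfold qq at this
    nlinarith [Real.exp_pos (-Real.pi)]
  have hg : HasSum (fun n : ℕ => x * x ^ n) (x * (1 - x)⁻¹) :=
    (hasSum_geometric_of_lt_one hx0 (by linarith)).mul_left x
  have t1 : ‖∑' n : ℕ, f ((n + 2 : ℕ) : ℤ)‖ ≤ x * (1 - x)⁻¹ := by
    refine tsum_of_norm_bounded hg fun n => ?_
    refine (hb _ (by rw [abs_of_nonneg] <;> omega)).trans (le_of_eq ?_)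
    rw [← pow_succ']; congr 1; rw [abs_of_nonneg (by omega)]; omega
  have t2 : ‖∑' n : ℕ, f (-(((n + 1 : ℕ) : ℤ) + 1))‖ ≤ x * (1 - x)⁻¹ := by
    refine tsum_of_norm_bounded hg fun n => ?_
    refine (hb _ (by rw [abs_of_nonpos] <;> omega)).trans (le_of_eq ?_)
    rw [← pow_succ']; congr 1; rw [abs_of_nonpos (by omega)]; omega
  have e1 := h1.sum_add_tsum_nat_add 2
  have e2 := h2.sum_add_tsum_nat_add 1
  have hm : main z = f 0 + f 1 + f (-1) := by
    simp only [hf, jacobiTheta₂_term, main, qq, Complex.ofReal_exp]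
    push_cast
    simp only [mul_add, ← Complex.exp_add, mul_zero, zero_mul, Complex.exp_zero, add_zero,
      zero_pow (two_ne_zero), mul_one, one_pow, neg_sq]
    rw [add_assoc]
    congr 1
    congr 1 <;> congr 1 <;> linear_combination (-(Real.pi : ℂ)) * I_sq
  have key : theta z - main z =
      (∑' n : ℕ, f ((n + 2 : ℕ) : ℤ)) + ∑' n : ℕ, f (-(((n + 1 : ℕ) : ℤ) + 1)) := by
    rw [e, ← e1, ← e2, hm]
    simp [Finset.sum_range_succ]
    ring
  rw [key]
  refine (norm_add_le _ _).trans ?_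
  have hi : (1 - x)⁻¹ ≤ 21 / 20 := by
    rw [← one_div, div_le_iff₀ (by linarith)]; linarith
  have := mul_le_mul_of_nonneg_left hi hx0
  nlinarith

theorem main_re_im (z : ℂ) :
    (main z).re = 1 + qq * Real.cos (2 * Real.pi * z.re) *
        (Real.exp (-(2 * Real.pi * z.im)) + Real.exp (2 * Real.pi * z.im)) ∧
      (main z).im = qq * Real.sin (2 * Real.pi * z.re) *
        (Real.exp (-(2 * Real.pi * z.im)) - Real.exp (2 * Real.pi * z.im)) := by
  constructor <;>
  · simp [main, Complex.exp_re, Complex.exp_im, Real.cos_neg, Real.sin_neg]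
    ring

/-- `e^{-Y} + e^{Y}` on the square. -/
theorem cosh_le {y : ℝ} (hy : |y| ≤ 9 / 20) :
    Real.exp (-(2 * Real.pi * y)) + Real.exp (2 * Real.pi * y) ≤ 91 / 5 := by
  have p2 := Real.pi_lt_d4
  have p0 := Real.pi_pos
  set a : ℝ := 9 / 10 * Real.pi
  have hconv : ∀ t : ℝ, |t| ≤ a →
      Real.exp (-t) + Real.exp t ≤ Real.exp (-a) + Real.exp a := by
    intro t ht
    have := Real.cosh_le_cosh.2 (ht.trans (le_abs_self a))
    rw [Real.cosh_eq, Real.cosh_eq] at this
    linarith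
  refine (hconv _ (by rw [abs_mul, abs_of_pos (by positivity : (0:ℝ) < 2 * Real.pi)]; simp only [a]; nlinarith)).trans ?_
  have ha : a ≤ 2.8275 := by simp only [a]; linarith
  have h1 : Real.exp (-a) ≤ 1 := Real.exp_le_one_iff.2 (by simp only [a]; linarith)
  have e3 : Real.exp 3 = Real.exp 1 ^ 3 := by rw [← Real.exp_nat_mul]; norm_num
  have h2 : Real.exp a ≤ 17.2 := by
    have : Real.exp a = Real.exp 3 * Real.exp (a - 3) := by rw [← Real.exp_add]; ring_nf
    have h3 : Real.exp 3 ≤ 20.09 := by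
      rw [e3]; nlinarith [Real.exp_one_lt_d9, sq_nonneg (Real.exp 1), Real.exp_pos 1]
    have hs : (1 : ℝ) + 0.1725 ≤ Real.exp (3 - a) := by
      linarith [Real.add_one_le_exp (3 - a)]
    have h4 : Real.exp (a - 3) ≤ 1 / 1.1725 := by
      rw [show a - 3 = -(3 - a) by ring, Real.exp_neg, one_div]
      exact inv_anti₀ (by norm_num) (by linarith)
    rw [this]; nlinarith [Real.exp_pos (a - 3), Real.exp_pos 3]
  linarith

theorem theta_re_pos {z : ℂ} (hy : |z.im| ≤ 9 / 20) : 0 < (theta z).re := by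
  have h := theta_sub_main (hy.trans (by norm_num))
  have h2 := (Complex.abs_re_le_norm _).trans h
  rw [sub_re, (main_re_im z).1] at h2
  have hc := Real.abs_cos_le_one (2 * Real.pi * z.re)
  have hS := cosh_le hy
  have hq := qq_bounds
  set S := Real.exp (-(2 * Real.pi * z.im)) + Real.exp (2 * Real.pi * z.im)
  have hS0 : 0 ≤ S := by positivity
  have : -(qq * S) ≤ qq * Real.cos (2 * Real.pi * z.re) * S := by
    have := mul_le_mul_of_nonneg_left (abs_le.1 hc).1 (mul_nonneg (show 0 ≤ qq by linarith) hS0)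
    nlinarith
  nlinarith [abs_le.1 h2, mul_le_mul hq.2 hS hS0 (by norm_num)]

/-- `beta = |theta| e^{-π y²}`. -/
def beta (z : ℂ) : ℝ := ‖theta z‖ * Real.exp (-Real.pi * z.im ^ 2)

theorem norm_main_le (z : ℂ) :
    ‖main z‖ ≤ 1 + qq * (Real.exp (-(2 * Real.pi * z.im)) + Real.exp (2 * Real.pi * z.im)) := by
  refine (norm_add_le _ _).trans ?_
  rw [norm_one, norm_mul, Complex.norm_real, Real.norm_eq_abs,
    abs_of_pos (show (0:ℝ) < qq from Real.exp_pos _)]
  gcongr
  · exact (Real.exp_pos _).le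
  · refine (norm_add_le _ _).trans (le_of_eq ?_)
    simp [Complex.norm_exp]

theorem beta_le_three {z : ℂ} (hy : |z.im| ≤ 1 / 2) : beta z ≤ 3 := by
  have h := theta_sub_main hy
  have hq := qq_bounds
  have hn : ‖theta z‖ ≤ ‖main z‖ + 1 / 200 := by
    have := norm_sub_norm_le (theta z) (main z); linarith
  have hm := norm_main_le z
  have p0 := Real.pi_pos
  have hS : qq * (Real.exp (-(2 * Real.pi * z.im)) + Real.exp (2 * Real.pi * z.im)) ≤ 1 + qq := by
    have hbound : ∀ t : ℝ, t ≤ Real.pi → qq * Real.exp t ≤ 1 := by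
      intro t ht; unfold qq; rw [← Real.exp_add]; exact Real.exp_le_one_iff.2 (by linarith)
    have hy' := abs_le.1 hy
    rcases le_total 0 z.im with h0 | h0
    · have h1 : Real.exp (-(2 * Real.pi * z.im)) ≤ 1 := Real.exp_le_one_iff.2 (by nlinarith)
      nlinarith [hbound (2 * Real.pi * z.im) (by nlinarith), Real.exp_pos (-(2 * Real.pi * z.im))]
    · have h1 : Real.exp (2 * Real.pi * z.im) ≤ 1 := Real.exp_le_one_iff.2 (by nlinarith)
      nlinarith [hbound (-(2 * Real.pi * z.im)) (by nlinarith), Real.exp_pos (2 * Real.pi * z.im)]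
  have he : Real.exp (-Real.pi * z.im ^ 2) ≤ 1 := Real.exp_le_one_iff.2 (by nlinarith [sq_nonneg z.im])
  unfold beta
  nlinarith [norm_nonneg (theta z), Real.exp_pos (-Real.pi * z.im ^ 2)]

/-- On the boundary of the square `beta` stays below the level. -/
theorem beta_edge {z : ℂ} (hx : |z.re| ≤ 9 / 20) (hy : |z.im| ≤ 9 / 20)
    (he : |z.re| = 9 / 20 ∨ |z.im| = 9 / 20) : beta z < lvl := by
  have h := theta_sub_main (hy.trans (by norm_num))
  have hq := qq_bounds
  have hn : ‖theta z‖ ≤ ‖main z‖ + 1 / 200 := by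
    have := norm_sub_norm_le (theta z) (main z); linarith
  have p0 := Real.pi_pos
  have p1 := Real.pi_gt_d4
  have p2 := Real.pi_lt_d4
  have hS := cosh_le hy
  set S := Real.exp (-(2 * Real.pi * z.im)) + Real.exp (2 * Real.pi * z.im) with hSdef
  have hS0 : 0 ≤ S := by positivity
  have he0 : Real.exp (-Real.pi * z.im ^ 2) ≤ 1 := Real.exp_le_one_iff.2 (by nlinarith [sq_nonneg z.im])
  rcases he with he | he
  · obtain ⟨hr, hi⟩ := main_re_im z
    have hnorm : ‖main z‖ ≤ |(main z).re| + |(main z).im| := Complex.norm_le_abs_re_add_abs_im _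
    have harg : |2 * Real.pi * z.re| = Real.pi - Real.pi / 10 := by
      rw [abs_mul, abs_of_pos (by positivity : (0:ℝ) < 2 * Real.pi), he]; ring
    have hcos : Real.cos (2 * Real.pi * z.re) = -Real.cos (Real.pi / 10) := by
      rw [← Real.cos_abs, harg, Real.cos_pi_sub]
    have hsin : |Real.sin (2 * Real.pi * z.re)| ≤ Real.pi / 10 := by
      have h1 : |Real.sin (2 * Real.pi * z.re)| = |Real.sin (|2 * Real.pi * z.re|)| := by
        rcases abs_choice (2 * Real.pi * z.re) with h | h <;> rw [h]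
        rw [Real.sin_neg, abs_neg]
      rw [h1, harg, Real.sin_pi_sub]
      exact Real.abs_sin_le_abs.trans (by rw [abs_of_pos (by positivity)])
    have hC : 1 - (Real.pi / 10) ^ 2 / 2 ≤ Real.cos (Real.pi / 10) := Real.one_sub_sq_div_two_le_cos
    have hC1 := Real.cos_le_one (Real.pi / 10)
    set C := Real.cos (Real.pi / 10)
    have hD : |Real.exp (-(2 * Real.pi * z.im)) - Real.exp (2 * Real.pi * z.im)| ≤ S := by
      rw [hSdef, abs_le]; constructor <;> linarith [Real.exp_pos (-(2 * Real.pi * z.im)), Real.exp_pos (2 * Real.pi * z.im)]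
    have hS2 : 2 ≤ S := by
      have := Real.one_le_cosh (2 * Real.pi * z.im)
      rw [Real.cosh_eq] at this; rw [hSdef]; linarith
    have hqS : qq * S ≤ 1 := by nlinarith [mul_le_mul hq.2 hS hS0 (by norm_num)]
    have hre : |(main z).re| ≤ 1 - qq * C * S := by
      rw [hr, hcos, abs_of_nonneg]
      · exact le_of_eq (by ring)
      · nlinarith [mul_nonneg (show 0 ≤ qq by linarith) hS0]
    have him : |(main z).im| ≤ qq * (Real.pi / 10) * S := by
      rw [hi, abs_mul, abs_mul, abs_of_pos (show (0:ℝ) < qq from Real.exp_pos _)]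
      have hqq : (0:ℝ) ≤ qq := (Real.exp_pos _).le
      gcongr
    have hgap : (3 : ℝ) / 5 ≤ C - Real.pi / 10 := by nlinarith
    have : 2 / 25 * (3 / 5) ≤ qq * S * (C - Real.pi / 10) := by
      refine mul_le_mul ?_ hgap (by norm_num) (mul_nonneg (by linarith) hS0)
      nlinarith
    unfold beta lvl
    nlinarith [norm_nonneg (theta z), Real.exp_pos (-Real.pi * z.im ^ 2)]
  · have hm := norm_main_le z
    have hexp : Real.exp (-Real.pi * z.im ^ 2) ≤ 11 / 20 := by
      have hy2 : z.im ^ 2 = 81 / 400 := by rw [← sq_abs, he]; norm_num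
      rw [hy2, show -Real.pi * (81 / 400) = -(Real.pi * (81 / 400)) by ring, Real.exp_neg]
      have := Real.quadratic_le_exp_of_nonneg (show (0:ℝ) ≤ Real.pi * (81 / 400) by positivity)
      rw [← one_div, div_le_iff₀ (Real.exp_pos _)]
      nlinarith
    have : qq * S ≤ 1 / 23 * (91 / 5) := mul_le_mul hq.2 hS hS0 (by norm_num)
    unfold beta lvl
    nlinarith [norm_nonneg (theta z), Real.exp_pos (-Real.pi * z.im ^ 2)]

theorem lvl_lt_theta_zero : lvl < (theta 0).re := by
  have h := theta_sub_main (z := 0) (by simp)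
  have h2 := (Complex.abs_re_le_norm _).trans h
  rw [sub_re, (main_re_im 0).1] at h2
  simp at h2
  have := qq_bounds.1
  unfold lvl
  linarith [(abs_le.1 h2).1]

theorem beta_zero : lvl < beta 0 := by
  unfold beta
  simp
  exact lvl_lt_theta_zero.trans_le (Complex.re_le_norm _)

/-- Every point is moved by a lattice translation to one with `|Re z|, |Im z| ≤ 1/2`. -/
theorem exists_reduce (z : ℂ) :
    ∃ m n : ℤ, |(z + ((m : ℂ) + n * I)).re| ≤ 1 / 2 ∧ |(z + ((m : ℂ) + n * I)).im| ≤ 1 / 2 := by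
  refine ⟨-round z.re, -round z.im, ?_, ?_⟩
  · simpa [← sub_eq_add_neg] using abs_sub_round z.re
  · simpa [← sub_eq_add_neg] using abs_sub_round z.im

theorem norm_P_le (x : B2) : ‖P x‖ ≤ 3 * Real.exp (-Real.pi * rho x / 2) := by
  obtain ⟨m, n, _, hn⟩ := exists_reduce x.1
  rw [← P_shift_lattice m n x, norm_P, rho_shift, mul_comm]
  refine mul_le_mul_of_nonneg_right ?_ (Real.exp_pos _).le
  exact beta_le_three hn

end Vale.Agent.P250.Disproof
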