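import Vale.Agent.P250.Disproof.Defs
import Vale.Agent.P250.Disproof.Theta
import Vale.Agent.P250.Disproof.Hess

/-!
# P250 disproof: the weight is smooth and plurisubharmonic on the Siegel domain
-/

open Filter Complex
open scoped Topology ContDiff

noncomputable section

namespace Vale.Agent.P250.Disproof

/-- The inverse of the Cayley map. -/
def cayleyInv (y : B2) : B2 := (2 * I * y.1 / (I + y.2), (I - y.2) / (I + y.2))

/-- The inverse of the normal chart at `x`. -/
def ninv (x : B2) (y : B2) : B2 :=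
  cayleyInv (dil (Real.sqrt (rho x))⁻¹ (shift (-x.1) (-x.2.re) y))

theorem shift_shift_neg (a : ℂ) (s : ℝ) (y : B2) : shift a s (shift (-a) (-s) y) = y := by
  refine Prod.ext (by simp [shift]) ?_
  simp only [shift, map_neg, normSq_neg, ofReal_neg]
  linear_combination 2 * I * normSq_eq_conj_mul_self (z := a)

theorem dil_dil_inv {t : ℝ} (ht : t ≠ 0) (y : B2) : dil t (dil t⁻¹ y) = y := by
  have : (t : ℂ) ≠ 0 := ofReal_ne_zero.2 ht
  ext <;> simp [dil] <;> field_simp

theorem cayley_cayleyInv {y : B2} (h : I + y.2 ≠ 0) : cayley (cayleyInv y) = y := by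
  have h1 : 1 + (I - y.2) / (I + y.2) = 2 * I / (I + y.2) := by field_simp; ring
  have h2 : 1 - (I - y.2) / (I + y.2) = 2 * y.2 / (I + y.2) := by field_simp; ring
  refine Prod.ext ?_ ?_ <;> simp only [cayley, cayleyInv, h1, h2] <;>
    field_simp [I_ne_zero]

theorem ninv_aux {x : B2} (hx : x ∈ siegel) :
    dil (Real.sqrt (rho x))⁻¹ (shift (-x.1) (-x.2.re) x) = (0, I) := by
  have hx : 0 < rho x := hx
  have hs : ((Real.sqrt (rho x) : ℂ)) ^ 2 = (rho x : ℂ) := by
    rw [← ofReal_pow, Real.sq_sqrt hx.le]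
  have hr : (rho x : ℂ) ≠ 0 := ofReal_ne_zero.2 hx.ne'
  have h2 : (shift (-x.1) (-x.2.re) x).2 = I * (rho x : ℂ) := by
    simp only [shift, map_neg, normSq_neg, rho, ofReal_sub, ofReal_neg]
    linear_combination 2 * I * normSq_eq_conj_mul_self (z := x.1) - re_add_im x.2
  refine Prod.ext (by simp [dil, shift]) ?_
  simp only [dil, h2, ofReal_inv, inv_pow, hs]
  field_simp

theorem ninv_self {x : B2} (hx : x ∈ siegel) : ninv x x = 0 := by
  rw [ninv, ninv_aux hx]
  simp [cayleyInv]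

theorem nchart_ninv {x : B2} (hx : x ∈ siegel) {y : B2}
    (h : I + (dil (Real.sqrt (rho x))⁻¹ (shift (-x.1) (-x.2.re) y)).2 ≠ 0) :
    nchart x (ninv x y) = y := by
  rw [nchart, ninv, cayley_cayleyInv h, dil_dil_inv (Real.sqrt_pos.2 (hx : 0 < rho x)).ne',
    shift_shift_neg]

theorem eventually_nchart_ninv {x : B2} (hx : x ∈ siegel) :
    (fun y => nchart x (ninv x y)) =ᶠ[𝓝 x] id := by
  have hc : ContinuousAt
      (fun y => I + (dil (Real.sqrt (rho x))⁻¹ (shift (-x.1) (-x.2.re) y)).2) x := by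
    unfold dil shift; fun_prop
  have hne : I + (dil (Real.sqrt (rho x))⁻¹ (shift (-x.1) (-x.2.re) x)).2 ≠ 0 := by
    simp [ninv_aux hx, ← two_mul]
  filter_upwards [hc.eventually_ne hne] with y hy
  exact nchart_ninv hx hy

theorem contDiffAt_ninv {x : B2} (hx : x ∈ siegel) {n : WithTop ℕ∞} :
    ContDiffAt ℂ n (ninv x) x := by
  have hne : I + (dil (Real.sqrt (rho x))⁻¹ (shift (-x.1) (-x.2.re) x)).2 ≠ 0 := by
    simp [ninv_aux hx, ← two_mul]
  unfold ninv cayleyInv
  have hd : ContDiffAt ℂ n (fun y => dil (Real.sqrt (rho x))⁻¹ (shift (-x.1) (-x.2.re) y)) x := by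
    unfold dil shift; fun_prop
  exact ((contDiffAt_const.mul hd.fst).div (contDiffAt_const.add hd.snd) hne).prodMk
    ((contDiffAt_const.sub hd.snd).div (contDiffAt_const.add hd.snd) hne)

theorem dips_eventuallyEq {h q : ℝ} {x : B2} (hx : x ∈ siegel) :
    dips h q =ᶠ[𝓝 x] dipsAt h q x ∘ ninv x := by
  filter_upwards [eventually_nchart_ninv hx] with y hy
  simp only [Function.comp, dipsAt, hy, id]

theorem isOpen_siegel : IsOpen siegel := by
  refine isOpen_lt continuous_const ?_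
  unfold rho
  fun_prop

theorem contDiffAt_dips {h q : ℝ} (hJ : Jets h q) {x : B2} (hx : x ∈ siegel) :
    ContDiffAt ℝ ∞ (dips h q) x := by
  obtain ⟨b, hb⟩ := hJ
  refine ContDiffAt.congr_of_eventuallyEq ?_ (dips_eventuallyEq hx)
  have hf : ContDiffAt ℝ ∞ (ninv x) x := (contDiffAt_ninv hx).restrict_scalars ℝ
  refine ContDiffAt.comp x ?_ hf
  rw [ninv_self hx]
  exact (hb x hx).1

theorem levi_dips_nonneg {h q : ℝ} (hJ : Jets h q) {x : B2} (hx : x ∈ siegel) (u : B2) :
    0 ≤ levi (dips h q) x u := by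
  obtain ⟨b, hb⟩ := hJ
  rw [levi_congr (dips_eventuallyEq hx), levi_comp ?_ (contDiffAt_ninv hx), ninv_self hx]
  · exact div_nonneg ((hb x hx).2.2 _) (by norm_num)
  · rw [ninv_self hx]
    exact (hb x hx).1.of_le (WithTop.coe_le_coe.2 le_top)

theorem rho_eq (x : B2) :
    rho x = x.2.im + (-1) * (x.1.re * x.1.re + x.1.im * x.1.im) := by
  simp [rho, normSq_apply]; ring

theorem contDiff_rho {n : WithTop ℕ∞} : ContDiff ℝ n rho := by
  rw [show rho = fun x : B2 => x.2.im + (-1) * (x.1.re * x.1.re + x.1.im * x.1.im) from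
    funext rho_eq]
  have h1 : ContDiff ℝ n (fun x : B2 => x.1.re) := reCLM.contDiff.comp contDiff_fst
  have h2 : ContDiff ℝ n (fun x : B2 => x.1.im) := imCLM.contDiff.comp contDiff_fst
  have h3 : ContDiff ℝ n (fun x : B2 => x.2.im) := imCLM.contDiff.comp contDiff_snd
  exact h3.add (contDiff_const.mul ((h1.mul h1).add (h2.mul h2)))

theorem fderiv_rho (x u : B2) :
    fderiv ℝ rho x u = u.2.im - 2 * (x.1.re * u.1.re + x.1.im * u.1.im) := by
  let a := reCLM.comp (ContinuousLinearMap.fst ℝ ℂ ℂ)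
  let b := imCLM.comp (ContinuousLinearMap.fst ℝ ℂ ℂ)
  let c := imCLM.comp (ContinuousLinearMap.snd ℝ ℂ ℂ)
  have h := c.hasFDerivAt.fun_add ((((a.hasFDerivAt (x := x)).fun_mul a.hasFDerivAt).fun_add
    ((b.hasFDerivAt (x := x)).fun_mul b.hasFDerivAt)).const_mul (-1 : ℝ))
  rw [show rho = fun y => c y + (-1 : ℝ) * (a y * a y + b y * b y) from funext fun y => rho_eq y,
    h.fderiv]
  simp [a, b, c]
  ring

theorem hs_rho (x u : B2) : hs rho x u u = -2 * normSq u.1 := by
  let a := reCLM.comp (ContinuousLinearMap.fst ℝ ℂ ℂ)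
  let b := imCLM.comp (ContinuousLinearMap.fst ℝ ℂ ℂ)
  let c := imCLM.comp (ContinuousLinearMap.snd ℝ ℂ ℂ)
  have ha : ContDiffAt ℝ 2 (fun y => a y) x := a.contDiff.contDiffAt
  have hb : ContDiffAt ℝ 2 (fun y => b y) x := b.contDiff.contDiffAt
  have hc : ContDiffAt ℝ 2 (fun y => c y) x := c.contDiff.contDiffAt
  rw [show rho = fun y => c y + (-1 : ℝ) * (a y * a y + b y * b y) from funext fun y => rho_eq y,
    hs_add hc (contDiffAt_const.mul ((ha.mul ha).add (hb.mul hb))),
    hs_const_mul ((ha.mul ha).add (hb.mul hb)), hs_add (ha.mul ha) (hb.mul hb), hs_mul ha ha,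
    hs_mul hb hb, hs_clm, hs_clm, hs_clm, a.fderiv, b.fderiv, normSq_apply]
  simp [a, b]
  ring

theorem levi_log_rho {x : B2} (hx : x ∈ siegel) (u : B2) :
    levi (fun y => Real.log (rho y)) x u = -(normSq u.1 / rho x)
      - ((fderiv ℝ rho x u) ^ 2 + (fderiv ℝ rho x (I • u)) ^ 2) / (4 * rho x ^ 2) := by
  rw [levi_log contDiff_rho.contDiffAt (hx : 0 < rho x).ne', levi, hs_rho, hs_rho]
  simp [normSq_mul]
  ring

theorem contDiffAt_log_rho {x : B2} (hx : x ∈ siegel) {n : WithTop ℕ∞} :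
    ContDiffAt ℝ n (fun y => Real.log (rho y)) x :=
  contDiff_rho.contDiffAt.log (hx : 0 < rho x).ne'

theorem contDiffAt_weight {p : Params} (hJ : Jets p.h p.q) {x : B2} (hx : x ∈ siegel) :
    ContDiffAt ℝ ∞ (weight p) x :=
  contDiffAt_const.mul ((contDiffAt_const.mul (contDiffAt_log_rho hx)).add (contDiffAt_dips hJ hx))

theorem continuousOn_weight {p : Params} (hJ : Jets p.h p.q) :
    ContinuousOn (weight p) siegel := fun _ hx =>
  (contDiffAt_weight hJ hx).continuousAt.continuousWithinAt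

theorem levi_weight_nonneg {p : Params} (hJ : Jets p.h p.q) {x : B2} (hx : x ∈ siegel) (u : B2) :
    0 ≤ levi (weight p) x u := by
  have h1 : ContDiffAt ℝ 2 (fun y => Real.log (rho y)) x := contDiffAt_log_rho hx
  have h2 : ContDiffAt ℝ 2 (dips p.h p.q) x := (contDiffAt_dips hJ hx).of_le (WithTop.coe_le_coe.2 le_top)
  unfold weight
  rw [levi_const_mul ((contDiffAt_const.mul h1).add h2), levi_add (contDiffAt_const.mul h1) h2,
    levi_const_mul h1, levi_log_rho hx]
  refine mul_nonneg p.K_pos.le (add_nonneg ?_ (levi_dips_nonneg hJ hx u))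
  have hr : 0 < rho x := hx
  have := p.eps_pos
  have e1 : 0 ≤ normSq u.1 / rho x := div_nonneg (normSq_nonneg _) hr.le
  have e2 : 0 ≤ ((fderiv ℝ rho x u) ^ 2 + (fderiv ℝ rho x (I • u)) ^ 2) / (4 * rho x ^ 2) := by
    positivity
  nlinarith

end Vale.Agent.P250.Disproof
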