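import Vale.Agent.P250.Disproof.Defs
import Vale.Agent.P250.Disproof.Hess
import Vale.Agent.P250.Disproof.Psh

/-!
# P250 disproof: lower bounds for the metric
-/

open Filter Complex
open scoped Topology ContDiff

noncomputable section

namespace Vale.Agent.P250.Disproof

/-- The projection to the base as a complex linear map. -/
def baseL : E3 →L[ℂ] B2 :=
  (ContinuousLinearMap.proj 0).prod (ContinuousLinearMap.proj 1)

theorem baseL_apply (y : E3) : baseL y = base y := rfl

/-- The squared fibre coordinate. -/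
def fibN (y : E3) : ℝ := (y 2).re * (y 2).re + (y 2).im * (y 2).im

theorem fibN_eq (y : E3) : normSq (y 2) = fibN y := normSq_apply _

theorem contDiff_fibN {n : WithTop ℕ∞} : ContDiff ℝ n fibN := by
  have h2 : ContDiff ℝ n (fun y : E3 => y 2) :=
    (ContinuousLinearMap.proj (R := ℝ) (φ := fun _ : Fin 3 => ℂ) 2).contDiff
  exact ((reCLM.contDiff.comp h2).mul (reCLM.contDiff.comp h2)).add
    ((imCLM.contDiff.comp h2).mul (imCLM.contDiff.comp h2))

theorem fderiv_fibN (y u : E3) :
    fderiv ℝ fibN y u = 2 * ((y 2).re * (u 2).re + (y 2).im * (u 2).im) := by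
  let a := reCLM.comp (ContinuousLinearMap.proj (R := ℝ) (φ := fun _ : Fin 3 => ℂ) 2)
  let b := imCLM.comp (ContinuousLinearMap.proj (R := ℝ) (φ := fun _ : Fin 3 => ℂ) 2)
  have h := ((a.hasFDerivAt (x := y)).fun_mul a.hasFDerivAt).fun_add
    ((b.hasFDerivAt (x := y)).fun_mul b.hasFDerivAt)
  rw [show fibN = fun z => a z * a z + b z * b z from rfl, h.fderiv]
  simp [a, b]
  ring

theorem hs_fibN (y u : E3) : hs fibN y u u = 2 * normSq (u 2) := by
  let a := reCLM.comp (ContinuousLinearMap.proj (R := ℝ) (φ := fun _ : Fin 3 => ℂ) 2)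
  let b := imCLM.comp (ContinuousLinearMap.proj (R := ℝ) (φ := fun _ : Fin 3 => ℂ) 2)
  have ha : ContDiffAt ℝ 2 (fun z => a z) y := a.contDiff.contDiffAt
  have hb : ContDiffAt ℝ 2 (fun z => b z) y := b.contDiff.contDiffAt
  rw [show fibN = fun z => a z * a z + b z * b z from rfl, hs_add (ha.mul ha) (hb.mul hb),
    hs_mul ha ha, hs_mul hb hb, hs_clm, hs_clm, a.fderiv, b.fderiv, normSq_apply]
  simp [a, b]
  ring

variable {p : Params}

theorem fib_eq (p : Params) : fib p = fun y => fibN y * Real.exp ((weight p ∘ baseL) y) :=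
  funext fun y => by rw [fib, fibN_eq]; rfl

theorem contDiffAt_weight_base (hJ : Jets p.h p.q) {y : E3} (hy : base y ∈ siegel) :
    ContDiffAt ℝ ∞ (weight p ∘ baseL) y :=
  ContDiffAt.comp y (contDiffAt_weight hJ hy) (baseL.restrictScalars ℝ).contDiff.contDiffAt

theorem fderiv_weight_base (hJ : Jets p.h p.q) {y : E3} (hy : base y ∈ siegel) (u : E3) :
    fderiv ℝ (weight p ∘ baseL) y u = fderiv ℝ (weight p) (base y) (base u) := by
  have h1 := ((contDiffAt_weight hJ hy).differentiableAt (by simp)).hasFDerivAt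
  have h2 := h1.comp y (baseL.restrictScalars ℝ).hasFDerivAt
  have h3 : HasFDerivAt (weight p ∘ baseL) ((fderiv ℝ (weight p) (base y)).comp
    (baseL.restrictScalars ℝ)) y := h2
  rw [h3.fderiv]
  rfl

theorem contDiffAt_fib (hJ : Jets p.h p.q) {y : E3} (hy : base y ∈ siegel) :
    ContDiffAt ℝ ∞ (fib p) y := by
  rw [fib_eq]
  exact contDiff_fibN.contDiffAt.mul (contDiffAt_weight_base hJ hy).exp

theorem isOpen_base_siegel : IsOpen {y : E3 | base y ∈ siegel} :=
  isOpen_siegel.preimage baseL.continuous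

/-- The total space is open. -/
theorem isOpen_dom (hJ : Jets p.h p.q) : IsOpen (dom p) := by
  have hc : ContinuousOn (fib p) {y : E3 | base y ∈ siegel} := fun _ hy =>
    (contDiffAt_fib hJ hy).continuousAt.continuousWithinAt
  exact hc.isOpen_inter_preimage isOpen_base_siegel isOpen_Iio

theorem fib_nonneg (p : Params) (y : E3) : 0 ≤ fib p y :=
  mul_nonneg (normSq_nonneg _) (Real.exp_pos _).le

theorem contDiffAt_pot (hJ : Jets p.h p.q) {y : E3} (hy : y ∈ dom p) :
    ContDiffAt ℝ ∞ (pot p) y := by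
  refine (contDiffAt_const.mul ?_).sub ?_
  · exact ContDiffAt.comp y (contDiffAt_log_rho hy.1) (baseL.restrictScalars ℝ).contDiff.contDiffAt
  · exact (contDiffAt_const.sub (contDiffAt_fib hJ hy.1)).log (by linarith [hy.2])

theorem metric_apply_self (p : Params) (y u : E3) : metric p y u u = levi (pot p) y u := by
  simp [metric, levi, hs, mulI]
  ring

theorem levi_fib (hJ : Jets p.h p.q) {y : E3} (hy : base y ∈ siegel) (u : E3) :
    levi (fib p) y u = Real.exp (weight p (base y)) *
      (normSq (y 2) * levi (weight p) (base y) (base u) +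
        normSq (u 2 + y 2 * (⟨fderiv ℝ (weight p) (base y) (base u) / 2,
          -(fderiv ℝ (weight p) (base y) (I • base u) / 2)⟩ : ℂ))) := by
  have h2 : ContDiffAt ℝ 2 (weight p ∘ baseL) y :=
    (contDiffAt_weight_base hJ hy).of_le (WithTop.coe_le_coe.2 le_top)
  have hI : base (I • u) = I • base u := baseL.map_smul I u
  have hL : levi (weight p ∘ baseL) y u = levi (weight p) (base y) (base u) :=
    levi_comp_clm baseL ((contDiffAt_weight hJ hy).of_le (WithTop.coe_le_coe.2 le_top)) u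
  rw [fib_eq, ← hL, fibN_eq, levi]
  rw [hs_mul contDiff_fibN.contDiffAt h2.exp, hs_mul contDiff_fibN.contDiffAt h2.exp,
    hs_exp h2, hs_exp h2, hs_fibN, hs_fibN,
    fderiv_exp (h2.differentiableAt (by norm_num)), fderiv_fibN, fderiv_fibN]
  simp only [smul_apply, smul_eq_mul, fderiv_weight_base hJ hy, hI, levi, Function.comp,
    baseL_apply, Pi.smul_apply, normSq_I, normSq_add, map_mul]
  simp [normSq_apply, fibN]
  ring

theorem levi_fib_ge (hJ : Jets p.h p.q) {y : E3} (hy : base y ∈ siegel) (u : E3) :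
    Real.exp (weight p (base y)) *
        normSq (u 2 + y 2 * (⟨fderiv ℝ (weight p) (base y) (base u) / 2,
          -(fderiv ℝ (weight p) (base y) (I • base u) / 2)⟩ : ℂ)) ≤ levi (fib p) y u := by
  rw [levi_fib hJ hy]
  refine mul_le_mul_of_nonneg_left (le_add_of_nonneg_left ?_) (Real.exp_pos _).le
  exact mul_nonneg (normSq_nonneg _) (levi_weight_nonneg hJ hy _)

theorem levi_pot (hJ : Jets p.h p.q) {y : E3} (hy : y ∈ dom p) (u : E3) :
    levi (pot p) y u = p.C * (normSq (u 0) / rho (base y) +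
        ((fderiv ℝ rho (base y) (base u)) ^ 2 + (fderiv ℝ rho (base y) (I • base u)) ^ 2) /
          (4 * rho (base y) ^ 2)) +
      (levi (fib p) y u / (1 - fib p y) + ((fderiv ℝ (fib p) y u) ^ 2 +
        (fderiv ℝ (fib p) y (I • u)) ^ 2) / (4 * (1 - fib p y) ^ 2)) := by
  have h1 : ContDiffAt ℝ 2 ((fun x => Real.log (rho x)) ∘ baseL) y :=
    ContDiffAt.comp y (contDiffAt_log_rho hy.1) (baseL.restrictScalars ℝ).contDiff.contDiffAt
  have hf : ContDiffAt ℝ 2 (fib p) y :=
    (contDiffAt_fib hJ hy.1).of_le (WithTop.coe_le_coe.2 le_top)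
  have hf' : ContDiffAt ℝ 2 (fun z => (-1 : ℝ) * fib p z) y := contDiffAt_const.mul hf
  have hg : ContDiffAt ℝ 2 (fun z => 1 + (-1) * fib p z) y := contDiffAt_const.add hf'
  have hne : 1 + (-1) * fib p y ≠ 0 := by linarith [hy.2]
  have hlevi : levi (fun z => 1 + (-1) * fib p z) y u = -levi (fib p) y u := by
    simp only [levi, hs_const_add, hs_const_mul hf]
    ring
  have hder : ∀ v, fderiv ℝ (fun z => 1 + (-1) * fib p z) y v = -fderiv ℝ (fib p) y v := by
    intro v
    rw [fderiv_const_add, fderiv_const_mul (hf.differentiableAt (by norm_num))]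
    simp
  have e : pot p = fun z => (-p.C) * ((fun x => Real.log (rho x)) ∘ baseL) z +
      (-1) * Real.log (1 + (-1) * fib p z) := funext fun z => by
    simp [pot, baseL_apply]; ring_nf
  rw [e, levi_add (contDiffAt_const.mul h1) (contDiffAt_const.mul (hg.log hne)),
    levi_const_mul h1, levi_const_mul (hg.log hne), levi_log hg hne, hlevi, hder, hder,
    levi_comp_clm baseL (contDiffAt_log_rho hy.1), baseL_apply, baseL_apply, levi_log_rho hy.1]
  simp [base]
  ring

/-- The four lower bounds used for completeness. -/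
theorem metric_ge (hJ : Jets p.h p.q) {y : E3} (hy : y ∈ dom p) (u : E3) :
    p.C * (normSq (u 0) / rho (base y)) ≤ metric p y u u ∧
    p.C * ((fderiv ℝ rho (base y) (base u)) ^ 2 + (fderiv ℝ rho (base y) (I • base u)) ^ 2) /
      (4 * rho (base y) ^ 2) ≤ metric p y u u ∧
    (fderiv ℝ (fib p) y u) ^ 2 / (4 * (1 - fib p y) ^ 2) ≤ metric p y u u ∧
    Real.exp (weight p (base y)) *
        normSq (u 2 + y 2 * (⟨fderiv ℝ (weight p) (base y) (base u) / 2,
          -(fderiv ℝ (weight p) (base y) (I • base u) / 2)⟩ : ℂ)) ≤ metric p y u u := by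
  rw [metric_apply_self, levi_pot hJ hy]
  have hr : 0 < rho (base y) := hy.1
  have hs : 0 < 1 - fib p y := by linarith [hy.2]
  have hC := p.C_pos
  have hL := levi_fib_ge hJ hy.1 u
  have hE := (Real.exp_pos (weight p (base y))).le
  set N := normSq (u 2 + y 2 * (⟨fderiv ℝ (weight p) (base y) (base u) / 2,
          -(fderiv ℝ (weight p) (base y) (I • base u) / 2)⟩ : ℂ))
  have hN : 0 ≤ N := normSq_nonneg _
  have h0 : 0 ≤ levi (fib p) y u := (mul_nonneg hE hN).trans hL
  have a1 : 0 ≤ p.C * (normSq (u 0) / rho (base y)) :=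
    mul_nonneg hC.le (div_nonneg (normSq_nonneg _) hr.le)
  have a2 : 0 ≤ p.C * ((fderiv ℝ rho (base y) (base u)) ^ 2 +
      (fderiv ℝ rho (base y) (I • base u)) ^ 2) / (4 * rho (base y) ^ 2) := by positivity
  have a3 : 0 ≤ (fderiv ℝ (fib p) y (I • u)) ^ 2 / (4 * (1 - fib p y) ^ 2) := by positivity
  have a4 : 0 ≤ (fderiv ℝ (fib p) y u) ^ 2 / (4 * (1 - fib p y) ^ 2) := by positivity
  have a5 : levi (fib p) y u ≤ levi (fib p) y u / (1 - fib p y) := by
    rw [le_div_iff₀ hs]
    nlinarith [fib_nonneg p y]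
  simp only [mul_add, add_div, mul_div_assoc] at a1 a2 a3 a4 a5 ⊢
  refine ⟨?_, ?_, ?_, ?_⟩ <;> linarith

end Vale.Agent.P250.Disproof
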