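import Vale.Agent.P250.Disproof.Holo
import Vale.Agent.P250.Disproof.Lower

/-!
# P250 disproof: no bounded realisation

A bounded biholomorphic image yields a zero-free holomorphic Jacobian along the zero section whose
size Cauchy's estimates control by the weight.
-/

open Complex Metric
open scoped Topology ComplexConjugate

noncomputable section

namespace Vale.Agent.P250.Disproof

/-- The zero section. -/
def zsec (x : B2) : E3 := ![x.1, x.2, 0]

/-- The determinant of three columns. -/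
def det3 (u v w : E3) : ℂ :=
  u 0 * v 1 * w 2 - u 0 * v 2 * w 1 - u 1 * v 0 * w 2 + u 1 * v 2 * w 0 + u 2 * v 0 * w 1
    - u 2 * v 1 * w 0

theorem norm_det3_le (u v w : E3) : ‖det3 u v w‖ ≤ 6 * (‖u‖ * ‖v‖ * ‖w‖) := by
  have h : ∀ i j k, ‖u i * v j * w k‖ ≤ ‖u‖ * ‖v‖ * ‖w‖ := fun i j k => by
    rw [norm_mul, norm_mul]
    gcongr <;> exact norm_le_pi_norm _ _
  have h1 := h 0 1 2
  have h2 := h 0 2 1
  have h3 := h 1 0 2
  have h4 := h 1 2 0
  have h5 := h 2 0 1
  have h6 := h 2 1 0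
  unfold det3
  refine (norm_sub_le _ _).trans ?_
  grw [norm_add_le, norm_add_le, norm_sub_le, norm_sub_le]
  linarith

theorem det3_sub_smul (c : ℂ) (u v w : E3) : det3 (u - c • v) v w = det3 u v w := by
  simp only [det3, Pi.sub_apply, Pi.smul_apply, smul_eq_mul]
  ring

/-- A linear map with a left inverse has nonzero determinant. -/
theorem det3_ne_zero {L L' : E3 →L[ℂ] E3} (h : L'.comp L = ContinuousLinearMap.id ℂ E3) :
    det3 (L (Pi.single 0 1)) (L (Pi.single 1 1)) (L (Pi.single 2 1)) ≠ 0 := by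
  have h1 : LinearMap.toMatrix' (L' : E3 →ₗ[ℂ] E3) * LinearMap.toMatrix' (L : E3 →ₗ[ℂ] E3) = 1 := by
    rw [← LinearMap.toMatrix'_comp, ← ContinuousLinearMap.toLinearMap_comp, h]
    exact LinearMap.toMatrix'_id
  have h2 : det3 (L (Pi.single 0 1)) (L (Pi.single 1 1)) (L (Pi.single 2 1)) =
      (LinearMap.toMatrix' (L : E3 →ₗ[ℂ] E3)).det := by
    rw [Matrix.det_fin_three]
    simp [det3, LinearMap.toMatrix'_apply]
    ring
  rw [h2]
  intro h0
  simpa [h0] using congrArg Matrix.det h1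

/-- Cauchy's estimate on an affine disc in the domain. -/
theorem norm_fderiv_le_disc {f : E3 → E3} {D : Set E3} (hD : IsOpen D)
    (hf : DifferentiableOn ℂ f D) {R r : ℝ} (hR : ∀ y ∈ D, ‖f y‖ ≤ R) (hr : 0 < r) {y a : E3}
    (hm : ∀ t : ℂ, ‖t‖ ≤ r → y + t • a ∈ D) : ‖fderiv ℂ f y a‖ ≤ R / r := by
  have hmem : ∀ t ∈ closedBall (0 : ℂ) r, y + t • a ∈ D := fun t ht =>
    hm t (mem_closedBall_zero_iff.1 ht)
  have hy : y ∈ D := by simpa using hm 0 (by simpa using hr.le)
  have hd : DifferentiableOn ℂ (fun t : ℂ => f (y + t • a)) (closedBall 0 r) :=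
    hf.comp (by fun_prop) hmem
  have hb := Complex.norm_deriv_le_of_forall_mem_sphere_norm_le hr
    (f := fun t : ℂ => f (y + t • a)) (C := R)
    ((hd.mono closure_ball_subset_closedBall).diffContOnCl)
    fun t ht => hR _ (hmem t (sphere_subset_closedBall ht))
  have h1 : HasDerivAt (fun t : ℂ => y + t • a) a 0 := by
    simpa using ((hasDerivAt_id (0 : ℂ)).smul_const a).const_add y
  have h2 : HasDerivAt (fun t : ℂ => f (y + t • a)) (fderiv ℂ f y a) 0 :=
    (hf.differentiableAt (hD.mem_nhds hy)).hasFDerivAt.comp_hasDerivAt_of_eq 0 h1 (by simp)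
  rwa [h2.deriv] at hb

theorem zsec_mem {p : Params} {x : B2} (hx : x ∈ siegel) : zsec x ∈ dom p := by
  simpa [dom, zsec, base, fib] using show 0 < rho x from hx

/-- The horizontal disc of radius `√rho / 2`. -/
theorem disc_hor {p : Params} {x : B2} (hx : x ∈ siegel) {t : ℂ}
    (ht : ‖t‖ ≤ Real.sqrt (rho x) / 2) : zsec x + t • ![1, 2 * I * conj x.1, 0] ∈ dom p := by
  have hx : 0 < rho x := hx
  refine ⟨?_, by simp [zsec, fib]⟩
  have h1 : rho (base (zsec x + t • ![1, 2 * I * conj x.1, 0])) = rho x - normSq t := by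
    simp [zsec, base, rho, normSq_apply]
    ring
  have h2 : normSq t ≤ rho x / 4 := by
    rw [normSq_eq_norm_sq]
    calc ‖t‖ ^ 2 ≤ (Real.sqrt (rho x) / 2) ^ 2 := pow_le_pow_left₀ (norm_nonneg _) ht 2
      _ = rho x / 4 := by rw [div_pow, Real.sq_sqrt hx.le]; norm_num
  linarith

/-- The vertical disc of radius `rho / 2`. -/
theorem disc_ver {p : Params} {x : B2} (hx : x ∈ siegel) {t : ℂ} (ht : ‖t‖ ≤ rho x / 2) :
    zsec x + t • ![0, 1, 0] ∈ dom p := by
  have hx : 0 < rho x := hx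
  refine ⟨?_, by simp [zsec, fib]⟩
  have h1 : rho (base (zsec x + t • ![0, 1, 0])) = rho x + t.im := by
    simp [zsec, base, rho]
    ring
  have := (abs_le.1 ((Complex.abs_im_le_norm t).trans ht)).1
  linarith

/-- The fibre disc of radius `exp (-weight / 2) / 2`. -/
theorem disc_fib {p : Params} {x : B2} (hx : x ∈ siegel) {t : ℂ}
    (ht : ‖t‖ ≤ Real.exp (-(weight p x / 2)) / 2) : zsec x + t • ![0, 0, 1] ∈ dom p := by
  have hb : base (zsec x + t • ![0, 0, 1]) = x := by simp [zsec, base]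
  refine ⟨by rw [hb]; exact hx, ?_⟩
  rw [fib, hb]
  have h2 : (zsec x + t • ![0, 0, 1] : E3) 2 = t := by simp [zsec]
  rw [h2, normSq_eq_norm_sq]
  have he : Real.exp (-(weight p x / 2)) ^ 2 * Real.exp (weight p x) = 1 := by
    rw [← Real.exp_nat_mul, ← Real.exp_add, Real.exp_eq_one_iff]
    push_cast
    ring
  calc ‖t‖ ^ 2 * Real.exp (weight p x)
      ≤ (Real.exp (-(weight p x / 2)) / 2) ^ 2 * Real.exp (weight p x) :=
        mul_le_mul_of_nonneg_right (pow_le_pow_left₀ (norm_nonneg _) ht 2) (Real.exp_pos _).le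
    _ = 1 / 4 := by rw [div_pow, div_mul_eq_mul_div, he]; norm_num
    _ < 1 := by norm_num

/-- Without a minorant of the weight, the manifold has no bounded realisation. -/
theorem noBiholo (p : Params) (hj : Jets p.h p.q) (h : NoMinorant p) :
    ¬ BiholoBounded (dom p) := by
  rintro ⟨Ω, f, f', hΩ, hbd, hmf, -, hdf, hdf', hleft, -⟩
  obtain ⟨R, hR0, hR⟩ := hbd.exists_pos_norm_le
  have hfR : ∀ y ∈ dom p, ‖f y‖ ≤ R := fun y hy => hR _ (hmf hy)
  have hD := isOpen_dom hj
  set J : B2 → ℂ := fun x => det3 (fderiv ℂ f (zsec x) (Pi.single 0 1))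
    (fderiv ℂ f (zsec x) (Pi.single 1 1)) (fderiv ℂ f (zsec x) (Pi.single 2 1)) with hJ
  have hsec : DifferentiableOn ℂ zsec siegel := by
    refine differentiableOn_pi.2 fun i => ?_
    fin_cases i <;> simp [zsec] <;> fun_prop
  have hcomp : ∀ v : E3, ∀ i : Fin 3,
      DifferentiableOn ℂ (fun x => fderiv ℂ f (zsec x) v i) siegel := fun v i =>
    differentiableOn_pi.1 ((fderiv_differentiable hD hdf v).comp hsec fun x hx => zsec_mem hx) i
  have hJd : DifferentiableOn ℂ J siegel := by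
    simp only [hJ, det3]
    fun_prop (disch := assumption)
  have hJ0 : ∀ x ∈ siegel, J x ≠ 0 := by
    intro x hx
    have hy := zsec_mem (p := p) hx
    have h1 : DifferentiableAt ℂ f (zsec x) := hdf.differentiableAt (hD.mem_nhds hy)
    have h2 : DifferentiableAt ℂ f' (f (zsec x)) := hdf'.differentiableAt (hΩ.mem_nhds (hmf hy))
    have h3 : f' ∘ f =ᶠ[𝓝 (zsec x)] id :=
      Filter.eventuallyEq_of_mem (hD.mem_nhds hy) fun z hz => hleft hz
    refine det3_ne_zero (L' := fderiv ℂ f' (f (zsec x))) ?_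
    rw [← fderiv_comp (zsec x) h2 h1, h3.fderiv_eq, fderiv_id]
  refine h J (2 * Real.log (48 * R ^ 3)) hJd hJ0 fun x hx => ?_
  have hr : 0 < rho x := hx
  have hs : 0 < Real.sqrt (rho x) := Real.sqrt_pos.2 hr
  set L := fderiv ℂ f (zsec x)
  set w := weight p x
  have b0 : ‖L ![1, 2 * I * conj x.1, 0]‖ ≤ R / (Real.sqrt (rho x) / 2) :=
    norm_fderiv_le_disc hD hdf hfR (by positivity) fun t ht => disc_hor hx ht
  have b1 : ‖L ![0, 1, 0]‖ ≤ R / (rho x / 2) :=
    norm_fderiv_le_disc hD hdf hfR (by positivity) fun t ht => disc_ver hx ht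
  have b2 : ‖L ![0, 0, 1]‖ ≤ R / (Real.exp (-(w / 2)) / 2) :=
    norm_fderiv_le_disc hD hdf hfR (by positivity) fun t ht => disc_fib hx ht
  have e0 : (Pi.single 0 1 : E3) = ![1, 2 * I * conj x.1, 0] - (2 * I * conj x.1) • ![0, 1, 0] := by
    ext i; fin_cases i <;> simp
  have e1 : (Pi.single 1 1 : E3) = ![0, 1, 0] := by ext i; fin_cases i <;> simp
  have e2 : (Pi.single 2 1 : E3) = ![0, 0, 1] := by ext i; fin_cases i <;> simp
  have hJx : J x = det3 (L ![1, 2 * I * conj x.1, 0]) (L ![0, 1, 0]) (L ![0, 0, 1]) := by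
    simp only [hJ, e0, e1, e2, map_sub, map_smul, det3_sub_smul]
    rfl
  have hb : ‖J x‖ ≤ 48 * R ^ 3 * Real.exp (w / 2) / (Real.sqrt (rho x) * rho x) := by
    rw [hJx]
    refine (norm_det3_le _ _ _).trans ?_
    grw [b0, b1, b2]
    rw [Real.exp_neg]
    field_simp
    norm_num
  have hpos : 0 < ‖J x‖ := norm_pos_iff.2 (hJ0 x hx)
  have hlog := Real.log_le_log hpos hb
  rw [Real.log_div (by positivity) (by positivity),
    Real.log_mul (x := 48 * R ^ 3) (by positivity) (by positivity),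
    Real.log_mul (x := Real.sqrt (rho x)) hs.ne' hr.ne', Real.log_exp,
    Real.log_sqrt hr.le] at hlog
  rw [normSq_eq_norm_sq, Real.log_pow]
  push_cast
  linarith

end Vale.Agent.P250.Disproof
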