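import Mathlib

/-!
# P250 disproof: the notions in the statement

Everything is written in the coordinates of an open subset `D` of `ℂ³`, with scalar functions.
-/

open scoped ContDiff Topology
open Complex Filter

noncomputable section

namespace Vale.Agent.P250.Neg

/-- `ℂ³`. -/
abbrev C3 : Type := Fin 3 → ℂ

/-- Multiplication by `i`. -/
def J (v : C3) : C3 := fun k => I * v k

/-- The derivative at `x` in the direction `v` of a real function. -/
def dirD (f : C3 → ℝ) (x v : C3) : ℝ := deriv (fun t : ℝ => f (fun k => x k + t * v k)) 0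

/-- The derivative at `x` in the direction `v` of a vector-valued function, by components. -/
def dirV (f : C3 → C3) (x v : C3) : C3 :=
  fun j => deriv (fun t : ℝ => f (fun k => x k + t * v k) j) 0

/-- `G x` is a smoothly varying Hermitian inner product for `x` in `D`. -/
def HermitianMetric (G : C3 → C3 → C3 → ℝ) (D : Set C3) : Prop :=
  (∀ u v, ContDiffOn ℝ ∞ (fun x => G x u v) D) ∧
    ∀ x ∈ D, ∀ u v w : C3, G x u v = G x v u ∧ G x (J u) (J v) = G x u v ∧
      (∀ r : ℝ, G x (fun k => r * u k + v k) w = r * G x u w + G x v w) ∧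
      (u ≠ 0 → 0 < G x u u)

/-- `Γ` gives the Christoffel symbols of the Levi-Civita connection of `G`. -/
def LeviCivita (G : C3 → C3 → C3 → ℝ) (Γ : C3 → C3 → C3 → C3) (D : Set C3) : Prop :=
  ∀ x ∈ D, ∀ u v w : C3, 2 * G x (Γ x u v) w =
    dirD (fun y => G y v w) x u + dirD (fun y => G y u w) x v - dirD (fun y => G y u v) x w

/-- The complex structure is parallel. -/
def JParallel (Γ : C3 → C3 → C3 → C3) (D : Set C3) : Prop :=
  ∀ x ∈ D, ∀ u v, Γ x u (J v) = J (Γ x u v)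

/-- The Riemann curvature `R(u, v) w`. -/
def curv (Γ : C3 → C3 → C3 → C3) (x u v w : C3) : C3 :=
  fun j => dirV (fun y => Γ y v w) x u j - dirV (fun y => Γ y u w) x v j +
    Γ x u (Γ x v w) j - Γ x v (Γ x u w) j

/-- The square of the area of the parallelogram on `u, v`. -/
def area (G : C3 → C3 → C3 → ℝ) (x u v : C3) : ℝ := G x u u * G x v v - G x u v ^ 2

/-- All sectional curvatures lie in `[-b, -a]`. -/
def SectBounds (G : C3 → C3 → C3 → ℝ) (Γ : C3 → C3 → C3 → C3) (D : Set C3) (a b : ℝ) : Prop :=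
  ∀ x ∈ D, ∀ u v, -b * area G x u v ≤ G x (curv Γ x u v v) u ∧
    G x (curv Γ x u v v) u ≤ -a * area G x u v

/-- A `C¹` curve of finite length in `D` has a limit in `D`. -/
def LengthComplete (G : C3 → C3 → C3 → ℝ) (D : Set C3) : Prop :=
  ∀ (c : ℝ → C3) (b : ℝ), 0 < b → ContDiffOn ℝ 1 c (Set.Ico 0 b) → Set.MapsTo c (Set.Ico 0 b) D →
    (∃ L : ℝ, ∀ t ∈ Set.Ico 0 b,
      ∫ s in (0 : ℝ)..t, Real.sqrt (G (c s) (derivWithin c (Set.Ico 0 b) s)
        (derivWithin c (Set.Ico 0 b) s)) ≤ L) →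
    ∃ y ∈ D, Tendsto c (𝓝[<] b) (𝓝 y)

/-- Every initial point and velocity is that of a geodesic in `D` defined on the whole line. -/
def GeodesicsForever (Γ : C3 → C3 → C3 → C3) (D : Set C3) : Prop :=
  ∀ x ∈ D, ∀ v : C3, ∃ γ u : ℝ → C3, γ 0 = x ∧ u 0 = v ∧ ∀ t, γ t ∈ D ∧ ∀ k,
    HasDerivAt (fun s => γ s k) (u t k) t ∧
      HasDerivAt (fun s => u s k) (-Γ (γ t) (u t) (u t) k) t

/-- `D` is biholomorphic to a bounded open subset of `ℂ³`. -/
def BiholoToBounded (D : Set C3) : Prop :=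
  ∃ (Ω : Set C3) (f f' : C3 → C3), IsOpen Ω ∧ Bornology.IsBounded Ω ∧
    Set.MapsTo f D Ω ∧ Set.MapsTo f' Ω D ∧ DifferentiableOn ℂ f D ∧ DifferentiableOn ℂ f' Ω ∧
    Set.LeftInvOn f' f D ∧ Set.LeftInvOn f f' Ω

end Vale.Agent.P250.Neg
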