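import Vale.Agent.P250.Disproof.Final
import Vale.Agent.P250.Disproof.Public

/-!
# P250 disproof: from the working definitions to the ones in the statement
-/

open Set Filter Complex
open scoped Topology ContDiff

noncomputable section

namespace Vale.Agent.P250.Disproof

-- the trilinear maps need a deeper instance search
set_option maxSynthPendingDepth 10

open Vale.Agent.P250

theorem line_eq (x v : E3) (t : ℝ) : (fun k => x k + t * v k) = x + t • v := by
  funext k
  simp

theorem Jmul_eq (v : E3) : Neg.J v = I • v := by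
  funext k
  simp [Neg.J]

theorem dirD_eq {f : E3 → ℝ} {x : E3} (hf : DifferentiableAt ℝ f x) (v : E3) :
    Neg.dirD f x v = fderiv ℝ f x v := by
  rw [← hf.lineDeriv_eq_fderiv]
  simp only [Neg.dirD, lineDeriv, line_eq]

theorem dirV_eq {f : E3 → E3} {x : E3} (hf : DifferentiableAt ℝ f x) (v : E3) :
    Neg.dirV f x v = fderiv ℝ f x v := by
  funext j
  have h := hasDerivAt_pi.1 (hf.hasFDerivAt.hasLineDerivAt v) j
  simp only [Neg.dirV, line_eq]
  exact h.deriv

variable {g : Field} {D : Set E3}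

theorem hasFDerivAt_coef (hD : IsOpen D) (hk : IsKaehlerOn g D) {x : E3} (hx : x ∈ D) (v w u : E3) :
    DifferentiableAt ℝ (fun y => g y v w) x ∧
      fderiv ℝ (fun y => g y v w) x u = fderiv ℝ g x u v w := by
  have hg : DifferentiableAt ℝ g x :=
    (hk.smooth.contDiffAt (hD.mem_nhds hx)).differentiableAt (by simp)
  refine ⟨(hg.clm_apply (differentiableAt_const v)).clm_apply (differentiableAt_const w), ?_⟩
  rw [fderiv_clm_apply (hg.clm_apply (differentiableAt_const v)) (differentiableAt_const w),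
    fderiv_clm_apply hg (differentiableAt_const v)]
  simp

theorem differentiableAt_gam (hD : IsOpen D) (hk : IsKaehlerOn g D) {x : E3} (hx : x ∈ D)
    (v w : E3) : DifferentiableAt ℝ (fun y => gam g y v w) x := by
  have h2 : ContDiffAt ℝ 2 g x :=
    (hk.smooth.contDiffAt (hD.mem_nhds hx)).of_le (WithTop.coe_le_coe.2 le_top)
  have hd : DifferentiableAt ℝ (fderiv ℝ g) x :=
    (h2.fderiv_right (m := 1) (by norm_num)).differentiableAt (by simp)
  obtain ⟨e, he⟩ := exists_equiv (hk.pos x hx)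
  have hinv : ContDiffAt ℝ 1 (fun y : E3 => (g y).inverse) x :=
    ContDiffAt.comp x (ContinuousLinearMap.IsInvertible.contDiffAt_map_inverse ⟨e, he⟩)
      (h2.of_le (by norm_num))
  have hc : DifferentiableAt ℝ (fun y => chris g y v w) x := by
    have h1 : ∀ a b : E3, DifferentiableAt ℝ (fun y => fderiv ℝ g y a b) x := fun a b =>
      (hd.clm_apply (differentiableAt_const a)).clm_apply (differentiableAt_const b)
    simp only [chris]
    refine ((h1 v w).add (h1 w v)).sub ?_
    refine DifferentiableAt.comp x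
      (g := fun B : E3 →L[ℝ] E3 →L[ℝ] E3 →L[ℝ] ℝ => (B.flip v).flip w) ?_ hd
    exact ((ContinuousLinearMap.flipₗᵢ ℝ E3 E3 ℝ).contDiff.comp
      (((ContinuousLinearMap.apply ℝ (E3 →L[ℝ] E3 →L[ℝ] ℝ) v).comp
        (ContinuousLinearMap.flipₗᵢ ℝ E3 E3 (E3 →L[ℝ] ℝ)).toContinuousLinearEquiv.toContinuousLinearMap).contDiff)
      |>.clm_apply contDiff_const).differentiable (n := 1) one_ne_zero |>.differentiableAt
  exact ((hinv.differentiableAt (by simp)).clm_apply hc).const_smul (1 / 2 : ℝ)

theorem hermitianMetric (hk : IsKaehlerOn g D) : Neg.HermitianMetric (fun x u v => g x u v) D := by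
  refine ⟨fun u v => (hk.smooth.clm_apply contDiffOn_const).clm_apply contDiffOn_const,
    fun x hx u v w => ⟨hk.symm x hx u v, ?_, fun r => ?_, hk.pos x hx u⟩⟩
  · rw [Jmul_eq, Jmul_eq]; exact hk.herm x hx u v
  · have e : (fun k => (r : ℂ) * u k + v k) = r • u + v := by
      funext k
      simp
    simp [e]

theorem leviCivita (hD : IsOpen D) (hk : IsKaehlerOn g D) :
    Neg.LeviCivita (fun x u v => g x u v) (gam g) D := by
  intro x hx u v w
  rw [dirD_eq (hasFDerivAt_coef hD hk hx v w u).1, dirD_eq (hasFDerivAt_coef hD hk hx u w v).1,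
    dirD_eq (hasFDerivAt_coef hD hk hx u v w).1, (hasFDerivAt_coef hD hk hx v w u).2,
    (hasFDerivAt_coef hD hk hx u w v).2, (hasFDerivAt_coef hD hk hx u v w).2]
  show 2 * g x (gam g x u v) w = _
  rw [apply_gam hk hx]
  simp [chris]

theorem jParallel (hk : IsKaehlerOn g D) : Neg.JParallel (gam g) D := by
  intro x hx u v
  rw [Jmul_eq, Jmul_eq]
  exact hk.parallel x hx u v

theorem curv_eq (hD : IsOpen D) (hk : IsKaehlerOn g D) {x : E3} (hx : x ∈ D) (u v w : E3) :
    Neg.curv (gam g) x u v w = riem g x u v w := by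
  funext j
  simp only [Neg.curv, riem, dirV_eq (differentiableAt_gam hD hk hx v w),
    dirV_eq (differentiableAt_gam hD hk hx u w), Pi.add_apply, Pi.sub_apply]

theorem sectBounds (hD : IsOpen D) (hk : IsKaehlerOn g D) {a b : ℝ} (h : Pinched g D a b) :
    Neg.SectBounds (fun x u v => g x u v) (gam g) D a b := by
  intro x hx u v
  simp only [curv_eq hD hk hx, Neg.area]
  exact h x hx u v

theorem geodesicsForever (h : GeodesicallyComplete g D) : Neg.GeodesicsForever (gam g) D := by
  intro x hx v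
  obtain ⟨γ, u, h0, h1, h2⟩ := h x hx v
  refine ⟨γ, u, h0, h1, fun t => ⟨(h2 t).1, fun k => ⟨hasDerivAt_pi.1 (h2 t).2.1 k, ?_⟩⟩⟩
  have := hasDerivAt_pi.1 (h2 t).2.2 k
  exact this

/-- The statement in plain definitions, given the pinching. -/
theorem public_answer_of_pinch
    (hpinch : ∀ h q eps K : ℝ, 0 < h → 1 < q → 0 < eps → 0 < K → Jets h q →
      PinchedForLargeC h q eps K) :
    ∃ (D : Set Neg.C3) (G : Neg.C3 → Neg.C3 → Neg.C3 → ℝ) (Γ : Neg.C3 → Neg.C3 → Neg.C3 → Neg.C3)
      (a b : ℝ), IsOpen D ∧ D.Nonempty ∧ ContractibleSpace D ∧ Neg.HermitianMetric G D ∧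
      Neg.LeviCivita G Γ D ∧ Neg.JParallel Γ D ∧ Neg.LengthComplete G D ∧
      Neg.GeodesicsForever Γ D ∧ 0 < a ∧ a ≤ b ∧ Neg.SectBounds G Γ D a b ∧
      ¬ Neg.BiholoToBounded D := by
  obtain ⟨D, g, a, b, hD, hne, hct, hk, hc, hgeo, ha, hab, hp, hb⟩ := answer_of_pinch hpinch
  exact ⟨D, fun x u v => g x u v, gam g, a, b, hD, hne, hct, hermitianMetric hk, leviCivita hD hk,
    jParallel hk, hc, geodesicsForever hgeo, ha, hab, sectBounds hD hk hp, hb⟩

end Vale.Agent.P250.Disproof
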