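import Mathlib

/-!
# P250 disproof: the objects

See `notes/P250/disproof_helper15.md`. The base is the Siegel domain `{Im w > |z|²}` in `ℂ × ℂ`.
The manifold is a disc bundle over it, an open subset of `ℂ³`.
-/

open scoped ContDiff Topology
open Complex Filter

noncomputable section

namespace Vale.Agent.P250.Disproof

/-- The base coordinates. -/
abbrev B2 : Type := ℂ × ℂ

/-- `ℂ³`. -/
abbrev E3 : Type := Fin 3 → ℂ

/-- The defining function of the Siegel domain. -/
def rho (x : B2) : ℝ := x.2.im - normSq x.1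

/-- The Siegel domain. -/
def siegel : Set B2 := {x | 0 < rho x}

/-- `θ(z) = ∑ exp(-π k² + 2 π i k z)`. -/
def theta (z : ℂ) : ℂ := jacobiTheta₂ z I

/-- The periodic function whose level curve carries the dip. -/
def P (x : B2) : ℂ := cexp (I * Real.pi * x.2 / 2 + Real.pi * x.1 ^ 2 / 2) * theta x.1

/-- The level. -/
def lvl : ℝ := 21 / 20

/-- The dip profile. -/
def dip (h : ℝ) (ξ : ℂ) : ℝ := Real.log ((normSq (ξ - lvl) + h ^ 2) / (lvl ^ 2 + h ^ 2))

/-- The dilation of the Siegel domain by `t`, which multiplies `rho` by `t²`. -/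
def dil (t : ℝ) (x : B2) : B2 := ((t : ℂ) * x.1, ((t : ℂ) ^ 2) * x.2)

/-- The translation of the Siegel domain by `(a, s)`, which fixes `rho`. -/
def shift (a : ℂ) (s : ℝ) (x : B2) : B2 :=
  (x.1 + a, x.2 + 2 * I * (starRingEnd ℂ) a * x.1 + I * (normSq a : ℝ) + s)

/-- One layer of dips. -/
def layer (h q : ℝ) (k : ℕ) (x : B2) : ℝ := dip h (P (dil (q ^ k) x))

/-- The series of dips. -/
def dips (h q : ℝ) (x : B2) : ℝ := ∑' k, layer h q k x

/-- The parameters of the construction. -/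
structure Params where
  h : ℝ
  q : ℝ
  eps : ℝ
  K : ℝ
  C : ℝ
  h_pos : 0 < h
  q_big : 1 < q
  eps_pos : 0 < eps
  K_pos : 0 < K
  C_pos : 0 < C

/-- The weight. -/
def weight (p : Params) (x : B2) : ℝ := p.K * (-p.eps * Real.log (rho x) + dips p.h p.q x)

/-- The projection to the base. -/
def base (y : E3) : B2 := (y 0, y 1)

/-- The fibre coordinate squared, in the weight. -/
def fib (p : Params) (y : E3) : ℝ := normSq (y 2) * Real.exp (weight p (base y))

/-- The manifold. -/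
def dom (p : Params) : Set E3 := {y | 0 < rho (base y) ∧ fib p y < 1}

/-- The Kähler potential. -/
def pot (p : Params) (y : E3) : ℝ := -p.C * Real.log (rho (base y)) - Real.log (1 - fib p y)

/-! ### Real Riemannian notions on `ℂ³` -/

/-- A field of bilinear forms. -/
abbrev Field : Type := E3 → E3 →L[ℝ] E3 →L[ℝ] ℝ

/-- Twice the Christoffel symbols of the first kind. -/
def chris (g : Field) (x u v : E3) : E3 →L[ℝ] ℝ :=
  fderiv ℝ g x u v + fderiv ℝ g x v u - ((fderiv ℝ g x).flip u).flip v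

/-- The Christoffel symbols of the Levi-Civita connection. -/
def gam (g : Field) (x u v : E3) : E3 := (1 / 2 : ℝ) • (g x).inverse (chris g x u v)

/-- The Riemann curvature operator. -/
def riem (g : Field) (x u v w : E3) : E3 :=
  fderiv ℝ (fun y => gam g y v w) x u - fderiv ℝ (fun y => gam g y u w) x v +
    gam g x u (gam g x v w) - gam g x v (gam g x u w)

/-- The square of the area of the parallelogram on `u, v`. -/
def area2 (g : Field) (x u v : E3) : ℝ := g x u u * g x v v - g x u v ^ 2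

/-- A smooth Kähler metric on `D`: Hermitian, with the complex structure parallel. -/
structure IsKaehlerOn (g : Field) (D : Set E3) : Prop where
  smooth : ContDiffOn ℝ ∞ g D
  symm : ∀ x ∈ D, ∀ u v, g x u v = g x v u
  pos : ∀ x ∈ D, ∀ u, u ≠ 0 → 0 < g x u u
  herm : ∀ x ∈ D, ∀ u v, g x (I • u) (I • v) = g x u v
  parallel : ∀ x ∈ D, ∀ u v, gam g x u (I • v) = I • gam g x u v

/-- All sectional curvatures lie in `[-b, -a]`. -/
def Pinched (g : Field) (D : Set E3) (a b : ℝ) : Prop :=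
  ∀ x ∈ D, ∀ u v, -b * area2 g x u v ≤ g x (riem g x u v v) u ∧
    g x (riem g x u v v) u ≤ -a * area2 g x u v

/-- A `C¹` curve of finite length in `D` has a limit in `D`. -/
def CompleteOn (g : Field) (D : Set E3) : Prop :=
  ∀ (c : ℝ → E3) (b : ℝ), 0 < b → ContDiffOn ℝ 1 c (Set.Ico 0 b) → Set.MapsTo c (Set.Ico 0 b) D →
    (∃ L : ℝ, ∀ t ∈ Set.Ico 0 b,
      ∫ s in (0 : ℝ)..t, Real.sqrt (g (c s) (derivWithin c (Set.Ico 0 b) s)
        (derivWithin c (Set.Ico 0 b) s)) ≤ L) →
    ∃ y ∈ D, Tendsto c (𝓝[<] b) (𝓝 y)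

/-- `D` is biholomorphic to a bounded open subset of `ℂ³`. -/
def BiholoBounded (D : Set E3) : Prop :=
  ∃ (Ω : Set E3) (f f' : E3 → E3), IsOpen Ω ∧ Bornology.IsBounded Ω ∧
    Set.MapsTo f D Ω ∧ Set.MapsTo f' Ω D ∧ DifferentiableOn ℂ f D ∧ DifferentiableOn ℂ f' Ω ∧
    Set.LeftInvOn f' f D ∧ Set.LeftInvOn f f' Ω

/-! ### The metric and the interfaces between the parts -/

/-- Multiplication by `i`, as a real linear map. -/
def mulI : E3 →L[ℝ] E3 := ContinuousLinearMap.restrictScalars ℝ (I • ContinuousLinearMap.id ℂ E3)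

/-- `i ∂∂̄ pot` as a bilinear form: the `J`-invariant part of the real Hessian of the potential. -/
def metric (p : Params) : Field := fun y =>
  (1 / 4 : ℝ) • (fderiv ℝ (fderiv ℝ (pot p)) y +
    (fderiv ℝ (fderiv ℝ (pot p)) y).bilinearComp mulI mulI)

/-- Part 1+3: no zero-free holomorphic function on the base is dominated by the weight. -/
def NoMinorant (p : Params) : Prop :=
  ∀ (f : B2 → ℂ) (C₀ : ℝ), DifferentiableOn ℂ f siegel → (∀ x ∈ siegel, f x ≠ 0) →
    ¬ ∀ x ∈ siegel, Real.log (normSq (f x)) ≤ weight p x - 3 * Real.log (rho x) + C₀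

/-- Parts 2, 4, 5: the metric is pinched once `C` is large. -/
def PinchedForLargeC (h q eps K : ℝ) : Prop :=
  ∃ C₁ : ℝ, ∀ p : Params, p.h = h → p.q = q → p.eps = eps → p.K = K → C₁ ≤ p.C →
    IsKaehlerOn (metric p) (dom p) ∧ ∃ a b : ℝ, 0 < a ∧ Pinched (metric p) (dom p) a b

/-- The Cayley map from the unit ball to the Siegel domain; it sends `0` to `(0, i)`. -/
def cayley (ξ : B2) : B2 := (ξ.1 / (1 + ξ.2), I * (1 - ξ.2) / (1 + ξ.2))

/-- The normal chart of the Siegel domain at `x`: it sends `0` to `x`. -/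
def nchart (x : B2) (ξ : B2) : B2 := shift x.1 x.2.re (dil (Real.sqrt (rho x)) (cayley ξ))

/-- The dips read in the normal chart at `x`. -/
def dipsAt (h q : ℝ) (x : B2) (ξ : B2) : ℝ := dips h q (nchart x ξ)

/-- Part 2: in every normal chart the dips are plurisubharmonic and have bounded four-jets. -/
def Jets (h q : ℝ) : Prop :=
  ∃ b : ℝ, ∀ x ∈ siegel,
    ContDiffAt ℝ ∞ (dipsAt h q x) 0 ∧
    (∀ m : ℕ, 1 ≤ m → m ≤ 4 → ‖iteratedFDeriv ℝ m (dipsAt h q x) 0‖ ≤ b) ∧
    ∀ v : B2, 0 ≤ fderiv ℝ (fderiv ℝ (dipsAt h q x)) 0 v v +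
      fderiv ℝ (fderiv ℝ (dipsAt h q x)) 0 (I • v) (I • v)

/-- What the final theorem states. -/
def Answer : Prop :=
  ∃ (D : Set E3) (g : Field) (a b : ℝ), IsOpen D ∧ D.Nonempty ∧ ContractibleSpace D ∧
    IsKaehlerOn g D ∧ CompleteOn g D ∧ 0 < a ∧ a ≤ b ∧ Pinched g D a b ∧ ¬ BiholoBounded D

end Vale.Agent.P250.Disproof
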