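import Mathlib
import Vale.Agent.P250.Disproof.Defs

/-!
P250 disproof: Christoffel symbols and curvature of a field of bilinear forms under changes of
coordinates.
-/

open scoped Topology ContDiff
open Filter Set

set_option maxSynthPendingDepth 3

noncomputable section

namespace Vale.Agent.P250.Disproof

/-- A smooth metric on an open set. -/
structure MetricOn (g : Field) (S : Set E3) : Prop where
  isOpen : IsOpen S
  smooth : ContDiffOn ℝ ∞ g S
  symm : ∀ x ∈ S, ∀ u v, g x u v = g x v u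
  pos : ∀ x ∈ S, ∀ u, u ≠ 0 → 0 < g x u u

variable {g : Field} {S : Set E3} {x : E3}

theorem MetricOn.cda (h : MetricOn g S) (hx : x ∈ S) : ContDiffAt ℝ ∞ g x :=
  h.smooth.contDiffAt (h.isOpen.mem_nhds hx)

theorem finrank_dual_eq :
    Module.finrank ℝ E3 = Module.finrank ℝ (E3 →L[ℝ] ℝ) := by
  rw [← (LinearMap.toContinuousLinearMap : (E3 →ₗ[ℝ] ℝ) ≃ₗ[ℝ] (E3 →L[ℝ] ℝ)).finrank_eq,
    Subspace.dual_finrank_eq]

theorem MetricOn.exists_equiv (h : MetricOn g S) (hx : x ∈ S) :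
    ∃ e : E3 ≃L[ℝ] (E3 →L[ℝ] ℝ), (e : E3 →L[ℝ] E3 →L[ℝ] ℝ) = g x := by
  have hinj : Function.Injective (g x).toLinearMap := by
    rw [← LinearMap.ker_eq_bot, LinearMap.ker_eq_bot']
    intro u hu
    by_contra hne
    exact absurd (h.pos x hx u hne) (by
      rw [show g x u = 0 from hu]; simp)
  exact ⟨(LinearEquiv.ofInjectiveOfFinrankEq _ hinj finrank_dual_eq).toContinuousLinearEquiv, by
    ext1 u; rfl⟩

theorem MetricOn.g_inverse (h : MetricOn g S) (hx : x ∈ S) (ℓ : E3 →L[ℝ] ℝ) :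
    g x ((g x).inverse ℓ) = ℓ := by
  obtain ⟨e, he⟩ := h.exists_equiv hx
  rw [← he, ContinuousLinearMap.inverse_equiv]
  exact e.apply_symm_apply ℓ

theorem MetricOn.eq_of_g (h : MetricOn g S) (hx : x ∈ S) {a b : E3}
    (hab : ∀ w, g x a w = g x b w) : a = b := by
  by_contra hne
  have h1 := h.pos x hx (a - b) (sub_ne_zero.2 hne)
  have h0 : g x (a - b) (a - b) = g x a (a - b) - g x b (a - b) := by
    rw [map_sub (g x)]; rfl
  rw [h0, hab, sub_self] at h1
  exact lt_irrefl _ h1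

theorem chris_apply (u v w : E3) :
    chris g x u v w = fderiv ℝ g x u v w + fderiv ℝ g x v u w - fderiv ℝ g x w u v := rfl

theorem MetricOn.g_gam (h : MetricOn g S) (hx : x ∈ S) (u v w : E3) :
    g x (gam g x u v) w = (1 / 2 : ℝ) * chris g x u v w := by
  rw [gam, map_smul, smul_apply, h.g_inverse hx, smul_eq_mul]

theorem MetricOn.fderiv_symm (h : MetricOn g S) (hx : x ∈ S) (a u v : E3) :
    fderiv ℝ g x a u v = fderiv ℝ g x a v u := by
  have hd : DifferentiableAt ℝ g x := (h.cda hx).differentiableAt (by simp)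
  have e : (fun y => g y u v) =ᶠ[𝓝 x] fun y => g y v u :=
    eventuallyEq_of_mem (h.isOpen.mem_nhds hx) fun y hy => h.symm y hy u v
  have key : ∀ p q : E3, fderiv ℝ (fun y => g y p q) x a = fderiv ℝ g x a p q := fun p q => by
    have := ((hd.hasFDerivAt.clm_apply (hasFDerivAt_const p x)).clm_apply (hasFDerivAt_const q x))
    rw [this.fderiv]; simp
  rw [← key, ← key, e.fderiv_eq]

theorem MetricOn.gam_symm (h : MetricOn g S) (hx : x ∈ S) (u v : E3) :
    gam g x u v = gam g x v u := by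
  refine h.eq_of_g hx fun w => ?_
  rw [h.g_gam hx, h.g_gam hx, chris_apply, chris_apply, h.fderiv_symm hx w u v]
  ring

theorem MetricOn.gam_add_right (h : MetricOn g S) (hx : x ∈ S) (u v v' : E3) :
    gam g x u (v + v') = gam g x u v + gam g x u v' := by
  refine h.eq_of_g hx fun w => ?_
  rw [map_add, add_apply, h.g_gam hx, h.g_gam hx, h.g_gam hx]
  simp only [chris_apply, map_add, add_apply]
  ring

theorem MetricOn.gam_sub_right (h : MetricOn g S) (hx : x ∈ S) (u v v' : E3) :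
    gam g x u (v - v') = gam g x u v - gam g x u v' := by
  rw [eq_sub_iff_add_eq, ← h.gam_add_right hx, sub_add_cancel]

theorem MetricOn.contDiffAt_inverse (h : MetricOn g S) (hx : x ∈ S) :
    ContDiffAt ℝ ∞ (fun y => (g y).inverse) x := by
  obtain ⟨e, he⟩ := h.exists_equiv hx
  exact (he ▸ contDiffAt_map_inverse e).comp x (h.cda hx)

/-- A curve of Christoffel symbols is differentiable. -/
theorem MetricOn.diffAt_gam_curve (h : MetricOn g S) {c a b : ℝ → E3} {t : ℝ}
    (hc : DifferentiableAt ℝ c t) (ha : DifferentiableAt ℝ a t) (hb : DifferentiableAt ℝ b t)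
    (hx : c t ∈ S) : DifferentiableAt ℝ (fun s => gam g (c s) (a s) (b s)) t := by
  have hD : DifferentiableAt ℝ (fun s => fderiv ℝ g (c s)) t :=
    (((h.cda hx).fderiv_right (m := ∞) (by simp)).differentiableAt (by simp)).comp t hc
  have h1 : DifferentiableAt ℝ (fun s => fderiv ℝ g (c s) (a s) (b s)) t :=
    (hD.clm_apply ha).clm_apply hb
  have h2 : DifferentiableAt ℝ (fun s => fderiv ℝ g (c s) (b s) (a s)) t :=
    (hD.clm_apply hb).clm_apply ha
  have h3 : DifferentiableAt ℝ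
      (fun s => ((fderiv ℝ g (c s)).flip (a s)).flip (b s)) t := by
    have hf : DifferentiableAt ℝ (fun s => (fderiv ℝ g (c s)).flip) t :=
      (ContinuousLinearMap.flipₗᵢ ℝ E3 E3 (E3 →L[ℝ] ℝ)).toContinuousLinearEquiv.differentiableAt.comp
        t hD
    exact ((ContinuousLinearMap.flipₗᵢ ℝ E3 E3 ℝ).toContinuousLinearEquiv.differentiableAt.comp
      t (hf.clm_apply ha)).clm_apply hb
  have hi : DifferentiableAt ℝ (fun s => (g (c s)).inverse) t :=
    ((h.contDiffAt_inverse hx).differentiableAt (by simp)).comp t hc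
  exact ((hi.clm_apply ((h1.add h2).sub h3)).const_smul (1 / 2 : ℝ))

theorem MetricOn.diffAt_gam (h : MetricOn g S) (hx : x ∈ S) (a b : E3) :
    DifferentiableAt ℝ (fun y => gam g y a b) x := by
  have hD : DifferentiableAt ℝ (fderiv ℝ g) x :=
    ((h.cda hx).fderiv_right (m := ∞) (by simp)).differentiableAt (by simp)
  have h1 : DifferentiableAt ℝ (fun y => fderiv ℝ g y a b) x :=
    (hD.clm_apply (differentiableAt_const a)).clm_apply (differentiableAt_const b)
  have h2 : DifferentiableAt ℝ (fun y => fderiv ℝ g y b a) x :=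
    (hD.clm_apply (differentiableAt_const b)).clm_apply (differentiableAt_const a)
  have h3 : DifferentiableAt ℝ (fun y => ((fderiv ℝ g y).flip a).flip b) x := by
    have hf : DifferentiableAt ℝ (fun y => (fderiv ℝ g y).flip) x :=
      (ContinuousLinearMap.flipₗᵢ ℝ E3 E3 (E3 →L[ℝ] ℝ)).toContinuousLinearEquiv.differentiableAt.comp
        x hD
    exact ((ContinuousLinearMap.flipₗᵢ ℝ E3 E3 ℝ).toContinuousLinearEquiv.differentiableAt.comp
      x (hf.clm_apply (differentiableAt_const a))).clm_apply (differentiableAt_const b)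
  have hi : DifferentiableAt ℝ (fun y => (g y).inverse) x :=
    (h.contDiffAt_inverse hx).differentiableAt (by simp)
  exact ((hi.clm_apply ((h1.add h2).sub h3)).const_smul (1 / 2 : ℝ))

/-! ### Congruence -/

theorem gam_congr {g' : Field} (h : g' =ᶠ[𝓝 x] g) (u v : E3) : gam g' x u v = gam g x u v := by
  simp only [gam, chris, h.fderiv_eq, h.eq_of_nhds]

theorem riem_congr {g' : Field} (h : g' =ᶠ[𝓝 x] g) (u v w : E3) :
    riem g' x u v w = riem g x u v w := by
  have hv : ∀ a b, (fun y => gam g' y a b) =ᶠ[𝓝 x] fun y => gam g y a b := fun a b =>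
    h.eventuallyEq_nhds.mono fun y hy => gam_congr hy a b
  simp only [riem, (hv v w).fderiv_eq, (hv u w).fderiv_eq, gam_congr h]

/-! ### Changes of coordinates -/

/-- The pullback of a field. -/
def pull (φ : E3 → E3) (g : Field) : Field := fun y =>
  (g (φ y)).bilinearComp (fderiv ℝ φ y) (fderiv ℝ φ y)

theorem pull_apply (φ : E3 → E3) (g : Field) (y u v : E3) :
    pull φ g y u v = g (φ y) (fderiv ℝ φ y u) (fderiv ℝ φ y v) := rfl

/-- A smooth change of coordinates from `U` into `S`. -/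
structure ChangeOn (φ : E3 → E3) (U S : Set E3) : Prop where
  isOpen : IsOpen U
  smooth : ContDiffOn ℝ ∞ φ U
  maps : MapsTo φ U S
  bij : ∀ y ∈ U, Function.Bijective (fderiv ℝ φ y)

variable {φ : E3 → E3} {U : Set E3} {y : E3}

theorem ChangeOn.cda (hφ : ChangeOn φ U S) (hy : y ∈ U) : ContDiffAt ℝ ∞ φ y :=
  hφ.smooth.contDiffAt (hφ.isOpen.mem_nhds hy)

theorem ChangeOn.cdaD (hφ : ChangeOn φ U S) (hy : y ∈ U) : ContDiffAt ℝ ∞ (fderiv ℝ φ) y :=
  (hφ.cda hy).fderiv_right (by simp)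

theorem ChangeOn.symm_D2 (hφ : ChangeOn φ U S) (hy : y ∈ U) (u v : E3) :
    fderiv ℝ (fderiv ℝ φ) y u v = fderiv ℝ (fderiv ℝ φ) y v u :=
  ((hφ.cda hy).isSymmSndFDerivAt (by simp; exact WithTop.coe_le_coe.2 le_top)).eq u v

theorem MetricOn.pull (h : MetricOn g S) (hφ : ChangeOn φ U S) : MetricOn (pull φ g) U := by
  refine ⟨hφ.isOpen, fun y hy => ?_, fun y hy u v => h.symm _ (hφ.maps hy) _ _,
    fun y hy u hu => h.pos _ (hφ.maps hy) _ fun h0 => hu ((hφ.bij y hy).1 (h0.trans (map_zero _).symm))⟩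
  have hflip : ContDiff ℝ ∞ (ContinuousLinearMap.flipₗᵢ ℝ E3 E3 ℝ) :=
    (ContinuousLinearMap.flipₗᵢ ℝ E3 E3 ℝ).toContinuousLinearEquiv.contDiff
  have h1 := hflip.contDiffAt.comp y
    (((h.cda (hφ.maps hy)).comp y (hφ.cda hy)).clm_comp (hφ.cdaD hy))
  have h2 := hflip.contDiffAt.comp y (h1.clm_comp (hφ.cdaD hy))
  refine (h2.congr_of_eventuallyEq (Eventually.of_forall fun z => ?_)).contDiffWithinAt
  exact ContinuousLinearMap.ext fun u => ContinuousLinearMap.ext fun v => rfl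

theorem hasDerivAt_line (p a : E3) : HasDerivAt (fun t : ℝ => p + t • a) a 0 := by
  simpa using ((hasDerivAt_id (0 : ℝ)).smul_const a).const_add p

theorem fderiv_pull (h : MetricOn g S) (hφ : ChangeOn φ U S) (hy : y ∈ U) (u v w : E3) :
    fderiv ℝ (pull φ g) y u v w =
      fderiv ℝ g (φ y) (fderiv ℝ φ y u) (fderiv ℝ φ y v) (fderiv ℝ φ y w) +
      g (φ y) (fderiv ℝ (fderiv ℝ φ) y u v) (fderiv ℝ φ y w) +
      g (φ y) (fderiv ℝ φ y v) (fderiv ℝ (fderiv ℝ φ) y u w) := by
  have hline := hasDerivAt_line y u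
  have hx : y + (0 : ℝ) • u = y := by simp
  have hD : HasDerivAt (fun t : ℝ => fderiv ℝ φ (y + t • u)) (fderiv ℝ (fderiv ℝ φ) y u) 0 :=
    ((hφ.cdaD hy).differentiableAt (by simp)).hasFDerivAt.comp_hasDerivAt_of_eq (0 : ℝ)
      hline hx.symm
  have hP : HasDerivAt (fun t : ℝ => Disproof.pull φ g (y + t • u))
      (fderiv ℝ (Disproof.pull φ g) y u) 0 :=
    (((h.pull hφ).cda hy).differentiableAt (by simp)).hasFDerivAt.comp_hasDerivAt_of_eq
      (0 : ℝ) hline hx.symm
  have hG : HasDerivAt (fun t : ℝ => g (φ (y + t • u)))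
      (fderiv ℝ g (φ y) (fderiv ℝ φ y u)) 0 :=
    ((h.cda (hφ.maps hy)).differentiableAt (by simp)).hasFDerivAt.comp_hasDerivAt_of_eq (0 : ℝ)
      (((hφ.cda hy).differentiableAt (by simp)).hasFDerivAt.comp_hasDerivAt_of_eq (0 : ℝ) hline
        hx.symm) (by simp)
  have h1 := (hP.clm_apply (hasDerivAt_const 0 v)).clm_apply (hasDerivAt_const 0 w)
  have h2 := (hG.clm_apply (hD.clm_apply (hasDerivAt_const 0 v))).clm_apply
    (hD.clm_apply (hasDerivAt_const 0 w))
  have := h1.unique h2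
  simpa [hx] using this

theorem gam_pull (h : MetricOn g S) (hφ : ChangeOn φ U S) (hy : y ∈ U) (u v : E3) :
    fderiv ℝ φ y (gam (pull φ g) y u v) =
      gam g (φ y) (fderiv ℝ φ y u) (fderiv ℝ φ y v) + fderiv ℝ (fderiv ℝ φ) y u v := by
  refine h.eq_of_g (hφ.maps hy) fun w' => ?_
  obtain ⟨w, rfl⟩ := (hφ.bij y hy).2 w'
  have h1 : g (φ y) (fderiv ℝ φ y (gam (pull φ g) y u v)) (fderiv ℝ φ y w) =
      (1 / 2 : ℝ) * chris (pull φ g) y u v w := (h.pull hφ).g_gam hy u v w
  rw [map_add, add_apply, h1, h.g_gam (hφ.maps hy)]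
  simp only [chris_apply, fderiv_pull h hφ hy]
  rw [hφ.symm_D2 hy v u, hφ.symm_D2 hy w u, hφ.symm_D2 hy w v,
    h.symm _ (hφ.maps hy) (fderiv ℝ φ y v) (fderiv ℝ (fderiv ℝ φ) y u w),
    h.symm _ (hφ.maps hy) (fderiv ℝ φ y u) (fderiv ℝ (fderiv ℝ φ) y v w)]
  ring

theorem MetricOn.gam_curve (h : MetricOn g S) {c a b : ℝ → E3} {c' a' b' : E3} {t : ℝ}
    (hc : HasDerivAt c c' t) (ha : HasDerivAt a a' t) (hb : HasDerivAt b b' t) (hx : c t ∈ S) :
    HasDerivAt (fun s => gam g (c s) (a s) (b s))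
      (fderiv ℝ (fun y => gam g y (a t) (b t)) (c t) c' + gam g (c t) a' (b t) +
        gam g (c t) (a t) b') t := by
  set Γ := fun (s : ℝ) => gam g (c s) (a s) (b s) with hΓ
  have hd : DifferentiableAt ℝ Γ t :=
    h.diffAt_gam_curve hc.differentiableAt ha.differentiableAt hb.differentiableAt hx
  have hd0 : HasDerivAt (fun s => gam g (c s) (a t) (b t))
      (fderiv ℝ (fun y => gam g y (a t) (b t)) (c t) c') t :=
    (h.diffAt_gam hx (a t) (b t)).hasFDerivAt.comp_hasDerivAt (l := fun y => gam g y (a t) (b t))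
      t hc
  have hev : ∀ᶠ s in 𝓝 t, c s ∈ S :=
    hc.continuousAt.eventually (h.isOpen.mem_nhds hx)
  have hG : HasDerivAt (fun s => g (c s)) (fderiv ℝ g (c t) c') t :=
    ((h.cda hx).differentiableAt (by simp)).hasFDerivAt.comp_hasDerivAt t hc
  have hD : HasDerivAt (fun s => fderiv ℝ g (c s)) (fderiv ℝ (fderiv ℝ g) (c t) c') t :=
    (((h.cda hx).fderiv_right (m := ∞) (by simp)).differentiableAt
      (by simp)).hasFDerivAt.comp_hasDerivAt t hc
  have hd' : HasDerivAt Γ (deriv Γ t) t := hd.hasDerivAt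
  set z := deriv Γ t with hz
  have goal : z = fderiv ℝ (fun y => gam g y (a t) (b t)) (c t) c' + gam g (c t) a' (b t) +
      gam g (c t) (a t) b' := by
    refine h.eq_of_g hx fun w => ?_
    have e1 := (hG.clm_apply hd').clm_apply (hasDerivAt_const t w)
    have e0 := (hG.clm_apply hd0).clm_apply (hasDerivAt_const t w)
    have f1 : ∀ {A B : ℝ → E3} {A' B' : E3}, HasDerivAt A A' t → HasDerivAt B B' t →
        HasDerivAt (fun s => (1 / 2 : ℝ) *
          (fderiv ℝ g (c s) (A s) (B s) w + fderiv ℝ g (c s) (B s) (A s) w -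
            fderiv ℝ g (c s) w (A s) (B s))) _ t := fun hA hB =>
      (((((hD.clm_apply hA).clm_apply hB).clm_apply (hasDerivAt_const t w)).add
        (((hD.clm_apply hB).clm_apply hA).clm_apply (hasDerivAt_const t w))).sub
        (((hD.clm_apply (hasDerivAt_const t w)).clm_apply hA).clm_apply hB)).const_mul _
    have r1 := f1 ha hb
    have r0 := f1 (hasDerivAt_const t (a t)) (hasDerivAt_const t (b t))
    have E1 := e1.unique (r1.congr_of_eventuallyEq
      (hev.mono fun s hs => by simp only [hΓ, h.g_gam hs, chris_apply]))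
    have E0 := e0.unique (r0.congr_of_eventuallyEq
      (hev.mono fun s hs => by simp only [h.g_gam hs, chris_apply]))
    simp only [map_add, add_apply, map_zero, zero_apply, add_zero, zero_add] at E1 E0 ⊢
    rw [h.g_gam hx, h.g_gam hx]
    simp only [chris_apply, hΓ] at E1 E0 ⊢
    linarith
  rw [← goal]; exact hd'

theorem deriv_gam_id (h : MetricOn g S) (hφ : ChangeOn φ U S) (hy : y ∈ U) (a b c : E3) :
    fderiv ℝ (fderiv ℝ φ) y a (gam (pull φ g) y b c) +
        fderiv ℝ φ y (fderiv ℝ (fun z => gam (pull φ g) z b c) y a) =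
      fderiv ℝ (fun z => gam g z (fderiv ℝ φ y b) (fderiv ℝ φ y c)) (φ y) (fderiv ℝ φ y a) +
        gam g (φ y) (fderiv ℝ (fderiv ℝ φ) y a b) (fderiv ℝ φ y c) +
        gam g (φ y) (fderiv ℝ φ y b) (fderiv ℝ (fderiv ℝ φ) y a c) +
        fderiv ℝ (fderiv ℝ (fderiv ℝ φ)) y a b c := by
  have hline := hasDerivAt_line y a
  have hx : y + (0 : ℝ) • a = y := by simp
  have hq : HasDerivAt (fun t : ℝ => fderiv ℝ φ (y + t • a)) (fderiv ℝ (fderiv ℝ φ) y a) 0 :=
    ((hφ.cdaD hy).differentiableAt (by simp)).hasFDerivAt.comp_hasDerivAt_of_eq (0 : ℝ) hline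
      hx.symm
  have hq2 : HasDerivAt (fun t : ℝ => fderiv ℝ (fderiv ℝ φ) (y + t • a))
      (fderiv ℝ (fderiv ℝ (fderiv ℝ φ)) y a) 0 :=
    (((hφ.cdaD hy).fderiv_right (m := ∞) (by simp)).differentiableAt
      (by simp)).hasFDerivAt.comp_hasDerivAt_of_eq (0 : ℝ) hline hx.symm
  have hP : HasDerivAt (fun t : ℝ => gam (pull φ g) (y + t • a) b c)
      (fderiv ℝ (fun z => gam (pull φ g) z b c) y a) 0 :=
    ((h.pull hφ).diffAt_gam hy b c).hasFDerivAt.comp_hasDerivAt_of_eq
      (l := fun z => gam (pull φ g) z b c) (0 : ℝ) hline hx.symm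
  have hL := hq.clm_apply hP
  have hφd : HasDerivAt (fun t : ℝ => φ (y + t • a)) (fderiv ℝ φ y a) 0 :=
    ((hφ.cda hy).differentiableAt (by simp)).hasFDerivAt.comp_hasDerivAt_of_eq (0 : ℝ) hline
      hx.symm
  have hq2b := (hq2.clm_apply (hasDerivAt_const 0 b)).clm_apply (hasDerivAt_const 0 c)
  have hR := (h.gam_curve hφd (hq.clm_apply (hasDerivAt_const 0 b))
    (hq.clm_apply (hasDerivAt_const 0 c)) (by simpa [hx] using hφ.maps hy)).add hq2b
  have hev : ∀ᶠ t : ℝ in 𝓝 0, y + t • a ∈ U :=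
    hline.continuousAt.eventually (by simpa using hφ.isOpen.mem_nhds hy)
  have := (hL.congr_of_eventuallyEq
    (hev.mono fun t ht => (gam_pull h hφ ht b c).symm)).unique hR
  simpa [hx] using this

theorem riem_pull (h : MetricOn g S) (hφ : ChangeOn φ U S) (hy : y ∈ U) (u v w : E3) :
    fderiv ℝ φ y (riem (pull φ g) y u v w) =
      riem g (φ y) (fderiv ℝ φ y u) (fderiv ℝ φ y v) (fderiv ℝ φ y w) := by
  have e1 := deriv_gam_id h hφ hy u v w
  have e2 := deriv_gam_id h hφ hy v u w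
  have hC : fderiv ℝ (fderiv ℝ (fderiv ℝ φ)) y v u = fderiv ℝ (fderiv ℝ (fderiv ℝ φ)) y u v :=
    ((hφ.cdaD hy).isSymmSndFDerivAt (by simp; exact WithTop.coe_le_coe.2 le_top)).eq v u
  rw [hC, hφ.symm_D2 hy v u] at e2
  have hg1 : ∀ a b, gam g (φ y) (fderiv ℝ φ y a) (fderiv ℝ φ y b) =
      fderiv ℝ φ y (gam (pull φ g) y a b) - fderiv ℝ (fderiv ℝ φ) y a b := fun a b => by
    rw [gam_pull h hφ hy]; abel
  simp only [riem, map_sub, map_add]
  rw [hg1 v w, hg1 u w, h.gam_sub_right (hφ.maps hy), h.gam_sub_right (hφ.maps hy),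
    hg1 u (gam (pull φ g) y v w), hg1 v (gam (pull φ g) y u w)]
  linear_combination (norm := module) e1 - e2

/-- The sectional numerator is natural. -/
theorem sec_pull (h : MetricOn g S) (hφ : ChangeOn φ U S) (hy : y ∈ U) (u v : E3) :
    pull φ g y (riem (pull φ g) y u v v) u =
      g (φ y) (riem g (φ y) (fderiv ℝ φ y u) (fderiv ℝ φ y v) (fderiv ℝ φ y v)) (fderiv ℝ φ y u) := by
  rw [pull_apply, riem_pull h hφ hy]

end Vale.Agent.P250.Disproof
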