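import Mathlib
import Vale.Agent.P250.Disproof.Defs

/-!
P250 disproof: Wirtinger derivatives of smooth functions on an open subset of a complex space.
-/

open scoped Topology ContDiff ComplexConjugate
open Complex Filter Set

noncomputable section

namespace Vale.Agent.P250.Disproof

variable {V : Type*} [NormedAddCommGroup V] [NormedSpace ℂ V]

/-- The directional derivative. -/
def dd (a : V) (φ : V → ℂ) : V → ℂ := fun y => fderiv ℝ φ y a

/-- The holomorphic Wirtinger derivative. -/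
def dz (a : V) (φ : V → ℂ) : V → ℂ := fun y => (1 / 2 : ℂ) * (dd a φ y - I * dd (I • a) φ y)

/-- The antiholomorphic Wirtinger derivative. -/
def dzb (a : V) (φ : V → ℂ) : V → ℂ := fun y => (1 / 2 : ℂ) * (dd a φ y + I * dd (I • a) φ y)

/-- Smoothness on an open set. -/
structure Sm (S : Set V) (φ : V → ℂ) : Prop where
  isOpen : IsOpen S
  smooth : ContDiffOn ℝ ∞ φ S

variable {S : Set V} {φ ψ : V → ℂ} {y : V}

theorem Sm.cda (h : Sm S φ) (hy : y ∈ S) : ContDiffAt ℝ ∞ φ y :=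
  h.smooth.contDiffAt (h.isOpen.mem_nhds hy)

theorem Sm.diffAt (h : Sm S φ) (hy : y ∈ S) : DifferentiableAt ℝ φ y :=
  (h.cda hy).differentiableAt (by simp)

theorem Sm.dd' (h : Sm S φ) (a : V) : Sm S (dd a φ) :=
  ⟨h.isOpen, fun y hy => by
    exact (((h.cda hy).fderiv_right (m := ∞) (by simp)).clm_apply contDiffAt_const).contDiffWithinAt⟩

theorem Sm.dz' (h : Sm S φ) (a : V) : Sm S (dz a φ) :=
  ⟨h.isOpen, contDiffOn_const.mul ((h.dd' a).smooth.sub (contDiffOn_const.mul (h.dd' _).smooth))⟩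

theorem Sm.dzb' (h : Sm S φ) (a : V) : Sm S (dzb a φ) :=
  ⟨h.isOpen, contDiffOn_const.mul ((h.dd' a).smooth.add (contDiffOn_const.mul (h.dd' _).smooth))⟩

theorem Sm.conj' (h : Sm S φ) : Sm S (fun x => conj (φ x)) :=
  ⟨h.isOpen, conjCLE.contDiff.comp_contDiffOn h.smooth⟩

theorem I_smul_I_smul (a : V) : I • I • a = -a := by
  rw [smul_smul, I_mul_I, neg_one_smul]

theorem dd_add_dir (a b : V) : dd (a + b) φ y = dd a φ y + dd b φ y := map_add _ _ _

theorem dd_smul_dir (r : ℝ) (a : V) : dd (r • a) φ y = (r : ℂ) * dd a φ y := by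
  rw [dd, map_smul, real_smul]; rfl

theorem dd_neg_dir (a : V) : dd (-a) φ y = -dd a φ y := map_neg _ _

theorem dd_zero_dir : dd (0 : V) φ y = 0 := map_zero _

theorem dd_eq (a : V) : dd a φ y = dz a φ y + dzb a φ y := by
  simp only [dz, dzb]; ring

theorem dz_add_dir (a b : V) : dz (a + b) φ y = dz a φ y + dz b φ y := by
  simp only [dz, smul_add, dd_add_dir]; ring

theorem dzb_add_dir (a b : V) : dzb (a + b) φ y = dzb a φ y + dzb b φ y := by
  simp only [dzb, smul_add, dd_add_dir]; ring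

theorem dz_I (a : V) : dz (I • a) φ y = I * dz a φ y := by
  simp only [dz, I_smul_I_smul, dd_neg_dir]
  linear_combination (-(1 / 2 : ℂ) * dd (I • a) φ y) * I_mul_I * (-1)

theorem dzb_I (a : V) : dzb (I • a) φ y = -I * dzb a φ y := by
  simp only [dzb, I_smul_I_smul, dd_neg_dir]
  linear_combination ((1 / 2 : ℂ) * dd (I • a) φ y) * I_mul_I

theorem dz_smul_dir (c : ℂ) (a : V) : dz (c • a) φ y = c * dz a φ y := by
  have h : c • a = c.re • a + c.im • (I • a) := by
    rw [← Complex.coe_smul, ← Complex.coe_smul c.im, smul_smul, ← add_smul, re_add_im]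
  rw [h, dz_add_dir]
  have hr : ∀ (r : ℝ) (b : V), dz (r • b) φ y = (r : ℂ) * dz b φ y := fun r b => by
    simp only [dz, smul_comm I r, dd_smul_dir]; ring
  rw [hr, hr, dz_I]
  linear_combination (dz a φ y) * re_add_im c

theorem dzb_smul_dir (c : ℂ) (a : V) : dzb (c • a) φ y = conj c * dzb a φ y := by
  have h : c • a = c.re • a + c.im • (I • a) := by
    rw [← Complex.coe_smul, ← Complex.coe_smul c.im, smul_smul, ← add_smul, re_add_im]
  rw [h, dzb_add_dir]
  have hr : ∀ (r : ℝ) (b : V), dzb (r • b) φ y = (r : ℂ) * dzb b φ y := fun r b => by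
    simp only [dzb, smul_comm I r, dd_smul_dir]; ring
  rw [hr, hr, dzb_I]
  have hc : conj c = (c.re : ℂ) - (c.im : ℂ) * I := by
    apply Complex.ext <;> simp
  rw [hc]; ring

/-! ### Calculus -/

theorem dd_congr (h : φ =ᶠ[𝓝 y] ψ) (a : V) : dd a φ y = dd a ψ y := by
  simp only [dd, h.fderiv_eq]

theorem dz_congr (h : φ =ᶠ[𝓝 y] ψ) (a : V) : dz a φ y = dz a ψ y := by
  simp only [dz, dd_congr h]

theorem dzb_congr (h : φ =ᶠ[𝓝 y] ψ) (a : V) : dzb a φ y = dzb a ψ y := by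
  simp only [dzb, dd_congr h]

theorem dz_congr_on (hS : IsOpen S) (h : EqOn φ ψ S) (hy : y ∈ S) (a : V) :
    dz a φ y = dz a ψ y :=
  dz_congr (eventuallyEq_of_mem (hS.mem_nhds hy) h) a

theorem dzb_congr_on (hS : IsOpen S) (h : EqOn φ ψ S) (hy : y ∈ S) (a : V) :
    dzb a φ y = dzb a ψ y :=
  dzb_congr (eventuallyEq_of_mem (hS.mem_nhds hy) h) a

theorem dd_const (c : ℂ) (a : V) : dd a (fun _ => c) y = 0 := by simp [dd]

theorem dz_const (c : ℂ) (a : V) : dz a (fun _ => c) y = 0 := by simp [dz, dd_const]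

theorem dzb_const (c : ℂ) (a : V) : dzb a (fun _ => c) y = 0 := by simp [dzb, dd_const]

theorem dd_add (hφ : DifferentiableAt ℝ φ y) (hψ : DifferentiableAt ℝ ψ y) (a : V) :
    dd a (fun x => φ x + ψ x) y = dd a φ y + dd a ψ y := by
  simp [dd, fderiv_fun_add hφ hψ]

theorem dz_add (hφ : DifferentiableAt ℝ φ y) (hψ : DifferentiableAt ℝ ψ y) (a : V) :
    dz a (fun x => φ x + ψ x) y = dz a φ y + dz a ψ y := by
  simp only [dz, dd_add hφ hψ]; ring

theorem dzb_add (hφ : DifferentiableAt ℝ φ y) (hψ : DifferentiableAt ℝ ψ y) (a : V) :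
    dzb a (fun x => φ x + ψ x) y = dzb a φ y + dzb a ψ y := by
  simp only [dzb, dd_add hφ hψ]; ring

theorem dd_mul (hφ : DifferentiableAt ℝ φ y) (hψ : DifferentiableAt ℝ ψ y) (a : V) :
    dd a (fun x => φ x * ψ x) y = φ y * dd a ψ y + dd a φ y * ψ y := by
  simp [dd, fderiv_fun_mul hφ hψ, mul_comm (ψ y)]

theorem dz_mul (hφ : DifferentiableAt ℝ φ y) (hψ : DifferentiableAt ℝ ψ y) (a : V) :
    dz a (fun x => φ x * ψ x) y = φ y * dz a ψ y + dz a φ y * ψ y := by
  simp only [dz, dd_mul hφ hψ]; ring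

theorem dzb_mul (hφ : DifferentiableAt ℝ φ y) (hψ : DifferentiableAt ℝ ψ y) (a : V) :
    dzb a (fun x => φ x * ψ x) y = φ y * dzb a ψ y + dzb a φ y * ψ y := by
  simp only [dzb, dd_mul hφ hψ]; ring

theorem dz_const_mul (c : ℂ) (hψ : DifferentiableAt ℝ ψ y) (a : V) :
    dz a (fun x => c * ψ x) y = c * dz a ψ y := by
  rw [dz_mul (differentiableAt_const c) hψ, dz_const, zero_mul, add_zero]

theorem dzb_const_mul (c : ℂ) (hψ : DifferentiableAt ℝ ψ y) (a : V) :
    dzb a (fun x => c * ψ x) y = c * dzb a ψ y := by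
  rw [dzb_mul (differentiableAt_const c) hψ, dzb_const, zero_mul, add_zero]

theorem dd_comp {F : ℂ → ℂ} {F' : ℂ} (hF : HasDerivAt F F' (φ y)) (hφ : DifferentiableAt ℝ φ y)
    (a : V) : dd a (fun x => F (φ x)) y = F' * dd a φ y := by
  have h := (hF.hasFDerivAt.restrictScalars ℝ).comp y hφ.hasFDerivAt
  rw [Function.comp_def] at h
  simp [dd, h.fderiv, mul_comm]

theorem dz_comp {F : ℂ → ℂ} {F' : ℂ} (hF : HasDerivAt F F' (φ y)) (hφ : DifferentiableAt ℝ φ y)
    (a : V) : dz a (fun x => F (φ x)) y = F' * dz a φ y := by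
  simp only [dz, dd_comp hF hφ]; ring

theorem dzb_comp {F : ℂ → ℂ} {F' : ℂ} (hF : HasDerivAt F F' (φ y)) (hφ : DifferentiableAt ℝ φ y)
    (a : V) : dzb a (fun x => F (φ x)) y = F' * dzb a φ y := by
  simp only [dzb, dd_comp hF hφ]; ring

theorem dd_conj (hφ : DifferentiableAt ℝ φ y) (a : V) :
    dd a (fun x => conj (φ x)) y = conj (dd a φ y) := by
  have h := (conjCLE.hasFDerivAt).comp y hφ.hasFDerivAt
  rw [Function.comp_def] at h
  have h' : HasFDerivAt (fun x => conj (φ x)) _ y := h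
  simp [dd, h'.fderiv]

theorem dz_conj (hφ : DifferentiableAt ℝ φ y) (a : V) :
    dz a (fun x => conj (φ x)) y = conj (dzb a φ y) := by
  simp only [dz, dzb, dd_conj hφ, map_mul, map_add, conj_I, map_div₀, map_one, map_ofNat]; ring

theorem dzb_conj (hφ : DifferentiableAt ℝ φ y) (a : V) :
    dzb a (fun x => conj (φ x)) y = conj (dz a φ y) := by
  simp only [dz, dzb, dd_conj hφ, map_mul, map_sub, conj_I, map_div₀, map_one, map_ofNat]; ring

theorem dd_clm (L : V →L[ℝ] ℂ) (a : V) : dd a (fun x => L x) y = L a := by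
  simp [dd, L.hasFDerivAt.fderiv]

theorem dz_lin (L : V →L[ℂ] ℂ) (a : V) : dz a (fun x => L x) y = L a := by
  have h : ∀ b, dd b (fun x => L x) y = L b := fun b => dd_clm (L.restrictScalars ℝ) b
  simp only [dz, h, map_smul, smul_eq_mul]
  linear_combination (-(1 / 2 : ℂ) * L a) * I_mul_I

theorem dzb_lin (L : V →L[ℂ] ℂ) (a : V) : dzb a (fun x => L x) y = 0 := by
  have h : ∀ b, dd b (fun x => L x) y = L b := fun b => dd_clm (L.restrictScalars ℝ) b
  simp only [dzb, h, map_smul, smul_eq_mul]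
  linear_combination ((1 / 2 : ℂ) * L a) * I_mul_I

/-! ### Commutation -/

theorem dd_comm (h : Sm S φ) (hy : y ∈ S) (a b : V) : dd a (dd b φ) y = dd b (dd a φ) y := by
  have hd : DifferentiableAt ℝ (fderiv ℝ φ) y :=
    ((h.cda hy).fderiv_right (m := ∞) (by simp)).differentiableAt (by simp)
  have key : ∀ p q : V, dd p (dd q φ) y = fderiv ℝ (fderiv ℝ φ) y p q := fun p q => by
    show fderiv ℝ (fun x => fderiv ℝ φ x q) y p = _
    rw [fderiv_clm_apply hd (differentiableAt_const q)]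
    simp
  rw [key, key, ((h.cda hy).isSymmSndFDerivAt
    (by simp; exact WithTop.coe_le_coe.2 le_top)).eq]

theorem dd_dz (h : Sm S φ) (hy : y ∈ S) (a b : V) :
    dd a (dz b φ) y = (1 / 2 : ℂ) * (dd a (dd b φ) y - I * dd a (dd (I • b) φ) y) := by
  have hg := (h.dd' b).diffAt hy
  have hh := (h.dd' (I • b)).diffAt hy
  have e := ((hg.hasFDerivAt.sub (hh.hasFDerivAt.const_mul I)).const_mul (1 / 2 : ℂ))
  have e' : HasFDerivAt (dz b φ) _ y := e
  show fderiv ℝ (dz b φ) y a = _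
  rw [e'.fderiv]
  simp only [smul_apply, sub_apply, smul_eq_mul]
  rfl

theorem dd_dzb (h : Sm S φ) (hy : y ∈ S) (a b : V) :
    dd a (dzb b φ) y = (1 / 2 : ℂ) * (dd a (dd b φ) y + I * dd a (dd (I • b) φ) y) := by
  have hg := (h.dd' b).diffAt hy
  have hh := (h.dd' (I • b)).diffAt hy
  have e := ((hg.hasFDerivAt.add (hh.hasFDerivAt.const_mul I)).const_mul (1 / 2 : ℂ))
  have e' : HasFDerivAt (dzb b φ) _ y := e
  show fderiv ℝ (dzb b φ) y a = _
  rw [e'.fderiv]
  simp only [smul_apply, add_apply, smul_eq_mul]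
  rfl

theorem dz_comm (h : Sm S φ) (hy : y ∈ S) (a b : V) : dz a (dz b φ) y = dz b (dz a φ) y := by
  have e : ∀ p q, dz p (dz q φ) y = (1 / 2 : ℂ) * (dd p (dz q φ) y - I * dd (I • p) (dz q φ) y) :=
    fun _ _ => rfl
  simp only [e, dd_dz h hy, dd_comm h hy _ a, dd_comm h hy _ (I • a)]
  ring

theorem dzb_comm (h : Sm S φ) (hy : y ∈ S) (a b : V) : dzb a (dzb b φ) y = dzb b (dzb a φ) y := by
  have e : ∀ p q, dzb p (dzb q φ) y = (1 / 2 : ℂ) * (dd p (dzb q φ) y + I * dd (I • p) (dzb q φ) y) :=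
    fun _ _ => rfl
  simp only [e, dd_dzb h hy, dd_comm h hy _ a, dd_comm h hy _ (I • a)]
  ring

theorem dz_dzb_comm (h : Sm S φ) (hy : y ∈ S) (a b : V) :
    dz a (dzb b φ) y = dzb b (dz a φ) y := by
  have e1 : dz a (dzb b φ) y =
      (1 / 2 : ℂ) * (dd a (dzb b φ) y - I * dd (I • a) (dzb b φ) y) := rfl
  have e2 : dzb b (dz a φ) y =
      (1 / 2 : ℂ) * (dd b (dz a φ) y + I * dd (I • b) (dz a φ) y) := rfl
  rw [e1, e2]
  simp only [dd_dzb h hy, dd_dz h hy, dd_comm h hy b, dd_comm h hy (I • b)]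
  ring

end Vale.Agent.P250.Disproof
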