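import Mathlib
import Vale.Agent.P250.Disproof.Defs
import Vale.Agent.P250.Disproof.Wirt
import Vale.Agent.P250.Disproof.Covar

/-!
P250 disproof: the metric of a potential, its connection and its sectional curvature in terms of
Wirtinger derivatives of the potential.
-/

open scoped Topology ContDiff ComplexConjugate
open Complex Filter Set

set_option maxSynthPendingDepth 3

noncomputable section

namespace Vale.Agent.P250.Disproof

/-- `i ∂∂̄ f` as a bilinear form. -/
def ddc (f : E3 → ℝ) : Field := fun y =>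
  (1 / 4 : ℝ) • (fderiv ℝ (fderiv ℝ f) y + (fderiv ℝ (fderiv ℝ f) y).bilinearComp mulI mulI)

theorem metric_eq_ddc (p : Params) : metric p = ddc (pot p) := rfl

/-- A real function as a complex one. -/
def cf {V : Type*} (f : V → ℝ) : V → ℂ := fun y => (f y : ℂ)

/-- `f_{c d̄}`. -/
def hh (f : E3 → ℝ) (c d : E3) : E3 → ℂ := dz c (dzb d (cf f))

/-- `f_{a c d̄}`. -/
def TT (f : E3 → ℝ) (a c d : E3) : E3 → ℂ := dz a (hh f c d)

/-- `f_{a b̄ c d̄}`. -/
def XX (f : E3 → ℝ) (a b c d : E3) : E3 → ℂ := dz a (dzb b (hh f c d))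

variable {f : E3 → ℝ} {S : Set E3} {y : E3}

theorem sm_cf {V : Type*} [NormedAddCommGroup V] [NormedSpace ℂ V] {S : Set V} {f : V → ℝ}
    (hS : IsOpen S) (hf : ContDiffOn ℝ ∞ f S) : Sm S (cf f) :=
  ⟨hS, ofRealCLM.contDiff.comp_contDiffOn hf⟩

theorem ddc_apply (hS : IsOpen S) (hf : ContDiffOn ℝ ∞ f S) (hy : y ∈ S) (c d : E3) :
    ddc f y c d = (hh f c d y).re := by
  have hm : ∀ u : E3, mulI u = I • u := fun u => rfl
  have h := sm_cf hS hf
  have hd : ∀ z ∈ S, DifferentiableAt ℝ f z := fun z hz =>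
    (hf.contDiffAt (hS.mem_nhds hz)).differentiableAt (by simp)
  have hD : DifferentiableAt ℝ (fderiv ℝ f) y :=
    ((hf.contDiffAt (hS.mem_nhds hy)).fderiv_right (m := ∞) (by simp)).differentiableAt (by simp)
  have e : ∀ a b : E3, dd a (dd b (cf f)) y = (fderiv ℝ (fderiv ℝ f) y a b : ℂ) := by
    intro a b
    have h1 : ∀ z ∈ S, dd b (cf f) z = ofRealCLM (fderiv ℝ f z b) := by
      intro z hz
      have := ofRealCLM.hasFDerivAt.comp z (hd z hz).hasFDerivAt
      rw [Function.comp_def] at this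
      have h' : HasFDerivAt (cf f) _ z := this
      simp [dd, h'.fderiv]
    rw [dd_congr (eventuallyEq_of_mem (hS.mem_nhds hy) h1)]
    have h2 := ofRealCLM.hasFDerivAt.comp y (hD.hasFDerivAt.clm_apply (hasFDerivAt_const b y))
    rw [Function.comp_def] at h2
    simp only [dd, h2.fderiv]
    simp
  have e1 : hh f c d y =
      (1 / 2 : ℂ) * (dd c (dzb d (cf f)) y - I * dd (I • c) (dzb d (cf f)) y) := rfl
  rw [e1, dd_dzb h hy, dd_dzb h hy, e, e, e, e]
  simp [ddc, hm]
  ring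

theorem Sm.hh' (h : Sm S (cf f)) (c d : E3) : Sm S (hh f c d) := (h.dzb' d).dz' c

theorem Sm.TT' (h : Sm S (cf f)) (a c d : E3) : Sm S (TT f a c d) := (h.hh' c d).dz' a

theorem conj_hh (h : Sm S (cf f)) (hy : y ∈ S) (c d : E3) : conj (hh f c d y) = hh f d c y := by
  have hc : (fun z => conj (cf f z)) = cf f := funext fun z => conj_ofReal _
  have e1 : EqOn (fun z => conj (dzb d (cf f) z)) (dz d (cf f)) S := by
    intro z hz
    show conj (dzb d (cf f) z) = dz d (cf f) z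
    rw [← dz_conj (h.diffAt hz), hc]
  have e2 := dzb_congr_on h.isOpen e1 hy c
  rw [dzb_conj ((h.dzb' d).diffAt hy)] at e2
  rw [hh, e2, hh, dz_dzb_comm h hy d c]

theorem TT_comm (h : Sm S (cf f)) (hy : y ∈ S) (a c d : E3) : TT f a c d y = TT f c a d y :=
  dz_comm (h.dzb' d) hy a c

theorem hh_I_right (h : Sm S (cf f)) (hy : y ∈ S) (c d : E3) :
    hh f c (I • d) y = -I * hh f c d y := by
  rw [hh, dz_congr_on h.isOpen (fun z _ => dzb_I (φ := cf f) (y := z) d) hy,
    dz_const_mul _ ((h.dzb' d).diffAt hy)]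
  rfl

theorem hh_I_left (c d : E3) : hh f (I • c) d y = I * hh f c d y := dz_I c

theorem TT_I_right (h : Sm S (cf f)) (hy : y ∈ S) (a c d : E3) :
    TT f a c (I • d) y = -I * TT f a c d y := by
  rw [TT, dz_congr_on h.isOpen (fun z hz => hh_I_right h hz c d) hy,
    dz_const_mul _ ((h.hh' c d).diffAt hy)]
  rfl

theorem TT_I_left (h : Sm S (cf f)) (hy : y ∈ S) (a c d : E3) :
    TT f a (I • c) d y = I * TT f a c d y := by
  rw [TT, dz_congr_on h.isOpen (fun z _ => hh_I_left (f := f) (y := z) c d) hy,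
    dz_const_mul _ ((h.hh' c d).diffAt hy)]
  rfl

theorem contDiffOn_ddc (hS : IsOpen S) (hf : ContDiffOn ℝ ∞ f S) : ContDiffOn ℝ ∞ (ddc f) S := by
  intro y hy
  have hD : ContDiffAt ℝ ∞ (fderiv ℝ (fderiv ℝ f)) y :=
    ((hf.contDiffAt (hS.mem_nhds hy)).fderiv_right (m := ∞) (by simp)).fderiv_right (by simp)
  have hflip : ContDiff ℝ ∞ (ContinuousLinearMap.flipₗᵢ ℝ E3 E3 ℝ) :=
    (ContinuousLinearMap.flipₗᵢ ℝ E3 E3 ℝ).toContinuousLinearEquiv.contDiff
  have h1 := hflip.contDiffAt.comp y (hD.clm_comp (contDiffAt_const (c := mulI)))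
  have h2 := hflip.contDiffAt.comp y (h1.clm_comp (contDiffAt_const (c := mulI)))
  refine ((hD.add (h2.congr_of_eventuallyEq ?_)).const_smul (1 / 4 : ℝ)).contDiffWithinAt
  exact Eventually.of_forall fun z =>
    ContinuousLinearMap.ext fun u => ContinuousLinearMap.ext fun v => rfl

theorem ddc_metricOn (hS : IsOpen S) (hf : ContDiffOn ℝ ∞ f S)
    (hpos : ∀ z ∈ S, ∀ u, u ≠ 0 → 0 < ddc f z u u) : MetricOn (ddc f) S :=
  ⟨hS, contDiffOn_ddc hS hf, fun z hz u v => by
    rw [ddc_apply hS hf hz, ddc_apply hS hf hz, ← conj_hh (sm_cf hS hf) hz u v, conj_re], hpos⟩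

theorem fderiv_re {φ : E3 → ℂ} (hφ : DifferentiableAt ℝ φ y) (a : E3) :
    fderiv ℝ (fun z => (φ z).re) y a = (dd a φ y).re := by
  have := reCLM.hasFDerivAt.comp y hφ.hasFDerivAt
  rw [Function.comp_def] at this
  have h' : HasFDerivAt (fun z => (φ z).re) _ y := this
  simp [h'.fderiv, dd]

theorem fderiv_ddc (hS : IsOpen S) (hf : ContDiffOn ℝ ∞ f S) (hy : y ∈ S) (a c d : E3) :
    fderiv ℝ (ddc f) y a c d = (TT f a c d y + TT f a d c y).re := by
  have h := sm_cf hS hf
  have hd : DifferentiableAt ℝ (ddc f) y :=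
    ((contDiffOn_ddc hS hf).contDiffAt (hS.mem_nhds hy)).differentiableAt (by simp)
  have e : fderiv ℝ (fun z => ddc f z c d) y a = fderiv ℝ (ddc f) y a c d := by
    have := ((hd.hasFDerivAt.clm_apply (hasFDerivAt_const c y)).clm_apply (hasFDerivAt_const d y))
    rw [this.fderiv]; simp
  have e' : (fun z => ddc f z c d) =ᶠ[𝓝 y] fun z => (hh f c d z).re :=
    eventuallyEq_of_mem (hS.mem_nhds hy) fun z hz => ddc_apply hS hf hz c d
  rw [← e, e'.fderiv_eq, fderiv_re ((h.hh' c d).diffAt hy), dd_eq]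
  have h2 : dzb a (hh f c d) y = conj (TT f a d c y) := by
    rw [dzb_congr_on hS (fun z hz => (conj_hh h hz d c).symm) hy, dzb_conj ((h.hh' d c).diffAt hy)]
    rfl
  rw [h2, add_re, conj_re, add_re]
  rfl

theorem chris_ddc (hS : IsOpen S) (hf : ContDiffOn ℝ ∞ f S) (hy : y ∈ S) (u v w : E3) :
    chris (ddc f) y u v w = 2 * (TT f u v w y).re := by
  have h := sm_cf hS hf
  rw [chris_apply, fderiv_ddc hS hf hy, fderiv_ddc hS hf hy, fderiv_ddc hS hf hy,
    TT_comm h hy w u, TT_comm h hy w v, TT_comm h hy v u]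
  simp only [add_re]
  ring

theorem g_gam_ddc (hg : MetricOn (ddc f) S) (hf : ContDiffOn ℝ ∞ f S) (hy : y ∈ S) (u v w : E3) :
    ddc f y (gam (ddc f) y u v) w = (TT f u v w y).re := by
  rw [hg.g_gam hy, chris_ddc hg.isOpen hf hy]; ring

theorem ddc_herm (hS : IsOpen S) (hf : ContDiffOn ℝ ∞ f S) (hy : y ∈ S) (u v : E3) :
    ddc f y (I • u) (I • v) = ddc f y u v := by
  rw [ddc_apply hS hf hy, ddc_apply hS hf hy, hh_I_left, hh_I_right (sm_cf hS hf) hy]
  congr 1
  linear_combination (-hh f u v y) * I_mul_I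

theorem isKaehlerOn_ddc (hS : IsOpen S) (hf : ContDiffOn ℝ ∞ f S)
    (hpos : ∀ z ∈ S, ∀ u, u ≠ 0 → 0 < ddc f z u u) : IsKaehlerOn (ddc f) S := by
  have hg := ddc_metricOn hS hf hpos
  refine ⟨hg.smooth, hg.symm, hpos, fun y hy u v => ddc_herm hS hf hy u v, fun y hy u v => ?_⟩
  refine hg.eq_of_g hy fun w => ?_
  have h := sm_cf hS hf
  have e : ddc f y (I • gam (ddc f) y u v) w = -ddc f y (gam (ddc f) y u v) (I • w) := by
    have := ddc_herm hS hf hy (gam (ddc f) y u v) (-(I • w))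
    rw [smul_neg, I_smul_I_smul, neg_neg, map_neg] at this
    exact this
  rw [e, g_gam_ddc hg hf hy, g_gam_ddc hg hf hy, TT_I_left h hy, TT_I_right h hy]
  simp

/-- The numerator of the sectional curvature of `i ∂∂̄ f`. -/
theorem sec_ddc (hg : MetricOn (ddc f) S) (hf : ContDiffOn ℝ ∞ f S) (hy : y ∈ S) (u v : E3) :
    ddc f y (riem (ddc f) y u v v) u =
      (XX f v u v u y).re - (XX f u v v u y).re
        + ddc f y (gam (ddc f) y u v) (gam (ddc f) y u v)
        - ddc f y (gam (ddc f) y u u) (gam (ddc f) y v v) := by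
  have h := sm_cf hg.isOpen hf
  set g := ddc f with hgdef
  have hdg : DifferentiableAt ℝ g y := (hg.cda hy).differentiableAt (by simp)
  have key : ∀ a b c : E3, g y (fderiv ℝ (fun z => gam g z b c) y a) u =
      (dd a (TT f b c u) y).re - fderiv ℝ g y a (gam g y b c) u := by
    intro a b c
    have hl := (hdg.hasFDerivAt.clm_apply (hg.diffAt_gam hy b c).hasFDerivAt).clm_apply
      (hasFDerivAt_const u y)
    have e' : (fun z => g z (gam g z b c) u) =ᶠ[𝓝 y] fun z => (TT f b c u z).re :=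
      eventuallyEq_of_mem (hg.isOpen.mem_nhds hy) fun z hz => g_gam_ddc hg hf hz b c u
    have := e'.fderiv_eq (𝕜 := ℝ)
    rw [hl.fderiv] at this
    have h2 := congrArg (fun L : E3 →L[ℝ] ℝ => L a) this
    simp only [fderiv_re ((h.TT' b c u).diffAt hy)] at h2
    simp at h2
    linarith
  have hP : dz u (TT f v v u) y = dz v (TT f u v u) y := dz_comm ((h.dzb' u).dz' v) hy u v
  have hX1 : dzb u (TT f v v u) y = XX f v u v u y := (dz_dzb_comm (h.hh' v u) hy v u).symm
  have hX2 : dzb v (TT f u v u) y = XX f u v v u y := (dz_dzb_comm (h.hh' v u) hy u v).symm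
  simp only [riem, map_sub, map_add, add_apply, sub_apply]
  rw [key u v v, key v u v, g_gam_ddc hg hf hy u (gam g y v v) u,
    g_gam_ddc hg hf hy v (gam g y u v) u, fderiv_ddc hg.isOpen hf hy,
    fderiv_ddc hg.isOpen hf hy, dd_eq, dd_eq, hP, hX1, hX2,
    hg.symm y hy (gam g y u u) (gam g y v v), g_gam_ddc hg hf hy u v (gam g y u v)]
  have e : g y (gam g y v v) (gam g y u u) = (TT f u u (gam g y v v) y).re := by
    rw [hg.symm y hy, g_gam_ddc hg hf hy]
  rw [e, TT_comm h hy v u]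
  simp only [add_re]
  ring

end Vale.Agent.P250.Disproof
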