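import Mathlib
import Vale.Agent.P250.Disproof.Defs

/-!
P250 disproof: the curvature at the centre of a normal chart, as a formula in the jets.

The potential is `-C log(1 - |ξ|²) - log(1 - |η|² e^W)` at `(0, t)`, with `W`, `dW` and the pure
second derivatives of `W` zero there. `θ i j = W_{i j̄}`, `T i k j = W_{i k j̄}`,
`F i j k l = W_{i j̄ k l̄}`, `s = |t|²`.
-/

open scoped Matrix ComplexConjugate
open Complex

noncomputable section

namespace Vale.Agent.P250.Disproof.Model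

/-- The data at one point. -/
structure Data where
  C : ℝ
  t : ℂ
  θ : Matrix (Fin 2) (Fin 2) ℂ
  T : Fin 2 → Fin 2 → Fin 2 → ℂ
  F : Fin 2 → Fin 2 → Fin 2 → Fin 2 → ℂ

/-- The horizontal coordinates. -/
def hor (U : E3) : Fin 2 → ℂ := ![U 0, U 1]

/-- `|t|²`. -/
def Data.s (d : Data) : ℝ := normSq d.t

/-- `p = s / (1 - s)`. -/
def Data.p (d : Data) : ℝ := d.s / (1 - d.s)

/-- `m = 1 / (1 - s)²`. -/
def Data.m (d : Data) : ℝ := 1 / (1 - d.s) ^ 2

/-- The horizontal block of the metric. -/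
def Data.G (d : Data) : Matrix (Fin 2) (Fin 2) ℂ := (d.C : ℂ) • 1 + (d.p : ℂ) • d.θ

/-- The Hermitian metric: linear in the first slot. -/
def Data.herm (d : Data) (U V : E3) : ℂ :=
  ∑ i, ∑ j, hor U i * d.G i j * conj (hor V j) + (d.m : ℂ) * (U 2) * conj (V 2)

/-- `θ` as a form. -/
def Data.th (d : Data) (a b : Fin 2 → ℂ) : ℂ := ∑ i, ∑ j, a i * d.θ i j * conj (b j)

/-- `T` as a form. -/
def Data.T3 (d : Data) (a b c : Fin 2 → ℂ) : ℂ :=
  ∑ i, ∑ k, ∑ j, a i * b k * d.T i k j * conj (c j)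

/-- `F` as a form. -/
def Data.F4 (d : Data) (a b c e : Fin 2 → ℂ) : ℂ :=
  ∑ i, ∑ j, ∑ k, ∑ l, a i * conj (b j) * c k * conj (e l) * d.F i j k l

/-- The lowered horizontal part of the connection. -/
def Data.low (d : Data) (U V : E3) (j : Fin 2) : ℂ :=
  (d.p : ℂ) * (∑ i, ∑ k, hor U i * hor V k * d.T i k j) +
    (d.m : ℂ) * conj d.t * (V 2 * (∑ i, hor U i * d.θ i j) + U 2 * (∑ i, hor V i * d.θ i j))

/-- The connection at the point: complex bilinear. -/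
def Data.conn (d : Data) (U V : E3) : E3 :=
  let Z := d.low U V ᵥ* d.G⁻¹
  ![Z 0, Z 1, 2 * conj d.t / ((1 - d.s : ℝ) : ℂ) * (U 2) * (V 2)]

/-- The Hermitian product of the flat ball, fourth derivative: linear in `a, c`. -/
def ball4 (a b c e : Fin 2 → ℂ) : ℂ :=
  (∑ i, a i * conj (b i)) * (∑ i, c i * conj (e i)) +
    (∑ i, a i * conj (e i)) * (∑ i, c i * conj (b i))

/-- `∂_U ∂̄_V` of the metric component `(W, Z̄)`. -/
def Data.X (d : Data) (U V W Z : E3) : ℂ :=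
  (d.C : ℂ) * ball4 (hor U) (hor V) (hor W) (hor Z) +
    (d.p : ℂ) * d.F4 (hor U) (hor V) (hor W) (hor Z) +
    ((d.p * (1 + d.p) : ℝ) : ℂ) * (d.th (hor U) (hor V) * d.th (hor W) (hor Z) +
      d.th (hor U) (hor Z) * d.th (hor W) (hor V)) +
    (((1 + d.s) / (1 - d.s) ^ 3 : ℝ) : ℂ) * (d.th (hor U) (hor V) * (W 2 * conj (Z 2)) +
      d.th (hor W) (hor Z) * (U 2 * conj (V 2)) + d.th (hor U) (hor Z) * (W 2 * conj (V 2)) +
      d.th (hor W) (hor V) * (U 2 * conj (Z 2))) +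
    (((2 + 4 * d.s) / (1 - d.s) ^ 4 : ℝ) : ℂ) * (U 2 * conj (V 2) * W 2 * conj (Z 2)) +
    (d.m : ℂ) * conj d.t * (U 2 * conj (d.T3 (hor V) (hor Z) (hor W)) +
      W 2 * conj (d.T3 (hor V) (hor Z) (hor U))) +
    (d.m : ℂ) * d.t * (conj (V 2) * d.T3 (hor U) (hor W) (hor Z) +
      conj (Z 2) * d.T3 (hor U) (hor W) (hor V))

/-- The curvature tensor `R(U, V̄, W, Z̄)`. -/
def Data.Q (d : Data) (U V W Z : E3) : ℂ :=
  -d.X U V W Z + d.herm (d.conn U W) (d.conn V Z)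

/-- The numerator of the sectional curvature, `g(R(U,V)V, U)`. -/
def Data.sec (d : Data) (U V : E3) : ℝ := (d.Q U U V V).re - (d.Q U V U V).re

/-- The squared area. -/
def Data.area (d : Data) (U V : E3) : ℝ :=
  (d.herm U U).re * (d.herm V V).re - (d.herm U V).re ^ 2

/-- The hypotheses on the data supplied by the jets. -/
structure Data.Good (d : Data) (κ B : ℝ) : Prop where
  t_lt : normSq d.t < 1
  herm_θ : ∀ i j, d.θ j i = conj (d.θ i j)
  θ_lb : ∀ a : Fin 2 → ℂ, κ * (normSq (a 0) + normSq (a 1)) ≤ (d.th a a).re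
  θ_ub : ∀ i j, ‖d.θ i j‖ ≤ B
  T_symm : ∀ i k j, d.T i k j = d.T k i j
  T_ub : ∀ i k j, ‖d.T i k j‖ ≤ B
  F_symm : ∀ i j k l, d.F i j k l = d.F k j i l ∧ d.F i j k l = d.F i l k j ∧
    d.F j i l k = conj (d.F i j k l)
  F_ub : ∀ i j k l, ‖d.F i j k l‖ ≤ B

/-- What the algebra has to supply: for large `C` the curvature is pinched uniformly in the data. -/
def Pinch : Prop :=
  ∀ κ B : ℝ, 0 < κ → ∃ C₁ : ℝ, ∀ C : ℝ, C₁ ≤ C → ∃ a b : ℝ, 0 < a ∧
    ∀ d : Data, d.C = C → d.Good κ B → ∀ U V : E3,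
      -b * d.area U V ≤ d.sec U V ∧ d.sec U V ≤ -a * d.area U V

end Vale.Agent.P250.Disproof.Model
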