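import Mathlib
import Vale.Agent.P250.Disproof.KaehlerCurv
import Vale.Agent.P250.Disproof.Model

/-!
P250 disproof: the fourth-order jet of the model potential at the centre of a normal chart.
-/

open scoped Topology ContDiff ComplexConjugate
open Complex Filter Set

noncomputable section

namespace Vale.Agent.P250.Disproof

variable {V : Type*} [NormedAddCommGroup V] [NormedSpace ℂ V]

/-- Both Wirtinger derivatives in one direction, with differentiability. -/
structure Hd (a : V) (φ : V → ℂ) (y : V) (v vb : ℂ) : Prop where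
  diff : DifferentiableAt ℝ φ y
  z : dz a φ y = v
  zb : dzb a φ y = vb

variable {a y : V} {φ ψ : V → ℂ} {v vb u ub : ℂ}

theorem Hd.congr (h : Hd a φ y v vb) (hv : v = u) (hvb : vb = ub) : Hd a φ y u ub :=
  ⟨h.diff, h.z.trans hv, h.zb.trans hvb⟩

theorem hd_sm {S : Set V} (h : Sm S φ) (hy : y ∈ S) : Hd a φ y (dz a φ y) (dzb a φ y) :=
  ⟨h.diffAt hy, rfl, rfl⟩

theorem hd_const (c : ℂ) : Hd a (fun _ => c) y 0 0 :=
  ⟨differentiableAt_const c, dz_const c a, dzb_const c a⟩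

theorem Hd.add (h : Hd a φ y v vb) (k : Hd a ψ y u ub) :
    Hd a (fun x => φ x + ψ x) y (v + u) (vb + ub) :=
  ⟨h.diff.add k.diff, by rw [dz_add h.diff k.diff, h.z, k.z],
    by rw [dzb_add h.diff k.diff, h.zb, k.zb]⟩

theorem Hd.mul (h : Hd a φ y v vb) (k : Hd a ψ y u ub) :
    Hd a (fun x => φ x * ψ x) y (φ y * u + v * ψ y) (φ y * ub + vb * ψ y) :=
  ⟨h.diff.mul k.diff, by rw [dz_mul h.diff k.diff, h.z, k.z],
    by rw [dzb_mul h.diff k.diff, h.zb, k.zb]⟩

theorem Hd.comp (h : Hd a φ y v vb) {F : ℂ → ℂ} {F' : ℂ} (hF : HasDerivAt F F' (φ y)) :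
    Hd a (fun x => F (φ x)) y (F' * v) (F' * vb) :=
  ⟨(hF.differentiableAt.restrictScalars ℝ).comp y h.diff, by rw [dz_comp hF h.diff, h.z],
    by rw [dzb_comp hF h.diff, h.zb]⟩

theorem Hd.inv1m (h : Hd a φ y v vb) (hne : 1 - φ y ≠ 0) :
    Hd a (fun x => (1 - φ x)⁻¹) y ((1 - φ y)⁻¹ ^ 2 * v) ((1 - φ y)⁻¹ ^ 2 * vb) := by
  have hF : HasDerivAt (fun z : ℂ => (1 - z)⁻¹) ((1 - φ y)⁻¹ ^ 2) (φ y) := by
    have := ((hasDerivAt_id (φ y)).const_sub 1).inv hne
    refine this.congr_deriv ?_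
    simp only [id, neg_neg, one_div, inv_pow]
  exact h.comp hF

theorem Hd.conj' (h : Hd a φ y v vb) :
    Hd a (fun x => conj (φ x)) y (conj vb) (conj v) :=
  ⟨conjCLE.differentiableAt.comp y h.diff, by rw [dz_conj h.diff, h.zb],
    by rw [dzb_conj h.diff, h.z]⟩

/-! ### The model -/

/-- The coordinate `i`. -/
def co (i : Fin 3) (y : E3) : ℂ := y i

theorem hd_co (a y : E3) (i : Fin 3) : Hd a (co i) y (a i) 0 :=
  ⟨(differentiableAt_apply i y), dz_lin (ContinuousLinearMap.proj i : E3 →L[ℂ] ℂ) a,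
    dzb_lin (ContinuousLinearMap.proj i : E3 →L[ℂ] ℂ) a⟩

theorem hd_coc (a y : E3) (i : Fin 3) : Hd a (fun x => conj (co i x)) y 0 (conj (a i)) :=
  (hd_co a y i).conj'.congr (map_zero _) rfl

/-- The model potential. -/
def mpot (C : ℝ) (w : E3 → ℝ) (y : E3) : ℝ :=
  -C * Real.log (1 - (normSq (y 0) + normSq (y 1))) -
    Real.log (1 - normSq (y 2) * Real.exp (w y))

/-- The domain of the model. -/
structure MDom (w : E3 → ℝ) (S : Set E3) : Prop where
  isOpen : IsOpen S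
  smooth : ContDiffOn ℝ ∞ w S
  ball : ∀ y ∈ S, normSq (y 0) + normSq (y 1) < 1
  fibre : ∀ y ∈ S, normSq (y 2) * Real.exp (w y) < 1

section

variable {C : ℝ} {w : E3 → ℝ} {S : Set E3}

/-- `1 / (1 - |ξ|²)`. -/
def rB (y : E3) : ℂ := (1 - (co 0 y * conj (co 0 y) + co 1 y * conj (co 1 y)))⁻¹

/-- `∂_c |ξ|²`. -/
def lB (c y : E3) : ℂ := c 0 * conj (co 0 y) + c 1 * conj (co 1 y)

/-- `∂̄_d |ξ|²`. -/
def lbB (d y : E3) : ℂ := co 0 y * conj (d 0) + co 1 y * conj (d 1)

/-- The flat product. -/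
def ip (c d : E3) : ℂ := c 0 * conj (d 0) + c 1 * conj (d 1)

/-- `e^w`. -/
def eW (w : E3 → ℝ) (y : E3) : ℂ := cexp (cf w y)

/-- `|η|² e^w`. -/
def sig (w : E3 → ℝ) (y : E3) : ℂ := co 2 y * conj (co 2 y) * eW w y

/-- `1 / (1 - σ)`. -/
def tau (w : E3 → ℝ) (y : E3) : ℂ := (1 - sig w y)⁻¹

/-- The covector of the fibre, holomorphic part. -/
def aH (w : E3 → ℝ) (c y : E3) : ℂ := c 2 + co 2 y * dz c (cf w) y

/-- The covector of the fibre, antiholomorphic part. -/
def aA (w : E3 → ℝ) (d y : E3) : ℂ := conj (d 2) + conj (co 2 y) * dzb d (cf w) y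

/-- The Hermitian metric of the model. -/
def hM (C : ℝ) (w : E3 → ℝ) (c d y : E3) : ℂ :=
  (C : ℂ) * (rB y * ip c d + rB y * rB y * lB c y * lbB d y) +
    sig w y * tau w y * hh w c d y + eW w y * (tau w y * tau w y) * (aH w c y * aA w d y)

/-- The antiholomorphic derivative of the Hermitian metric. -/
def kM (C : ℝ) (w : E3 → ℝ) (b c d y : E3) : ℂ :=
  (C : ℂ) * (rB y * rB y * lbB b y * ip c d + rB y * rB y * ip c b * lbB d y +
      2 * (rB y * rB y * rB y) * lbB b y * lB c y * lbB d y) +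
    eW w y * (tau w y * tau w y) * co 2 y * aA w b y * hh w c d y +
    sig w y * tau w y * dzb b (hh w c d) y +
    (eW w y * (tau w y * tau w y) * dzb b (cf w) y +
      2 * (eW w y * eW w y) * (tau w y * tau w y * tau w y) * co 2 y * aA w b y) *
        (aH w c y * aA w d y) +
    eW w y * (tau w y * tau w y) * (co 2 y * hh w c b y * aA w d y +
      aH w c y * (conj (b 2) * dzb d (cf w) y + conj (co 2 y) * dzb b (dzb d (cf w)) y))

theorem MDom.sm (h : MDom w S) : Sm S (cf w) := sm_cf h.isOpen h.smooth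

theorem ball_cast (y : E3) :
    co 0 y * conj (co 0 y) + co 1 y * conj (co 1 y) = ((normSq (y 0) + normSq (y 1) : ℝ) : ℂ) := by
  simp only [co, mul_conj, ofReal_add]

theorem sig_cast (y : E3) :
    sig w y = ((normSq (y 2) * Real.exp (w y) : ℝ) : ℂ) := by
  simp only [sig, co, mul_conj, eW, cf, ofReal_mul, ofReal_exp]

theorem MDom.ne_ball (h : MDom w S) {y : E3} (hy : y ∈ S) :
    1 - (co 0 y * conj (co 0 y) + co 1 y * conj (co 1 y)) ≠ 0 := by
  rw [ball_cast, ← ofReal_one, ← ofReal_sub]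
  exact ofReal_ne_zero.2 (by linarith [h.ball y hy])

theorem MDom.ne_sig (h : MDom w S) {y : E3} (hy : y ∈ S) : 1 - sig w y ≠ 0 := by
  rw [sig_cast, ← ofReal_one, ← ofReal_sub]
  exact ofReal_ne_zero.2 (by linarith [h.fibre y hy])

theorem hd_ball (a y : E3) : Hd a (fun x => co 0 x * conj (co 0 x) + co 1 x * conj (co 1 x)) y
    (lB a y) (lbB a y) :=
  (((hd_co a y 0).mul (hd_coc a y 0)).add ((hd_co a y 1).mul (hd_coc a y 1))).congr
    (by simp [lB, co]) (by simp [lbB, co])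

theorem hd_rB (h : MDom w S) {y : E3} (hy : y ∈ S) (a : E3) :
    Hd a rB y (rB y ^ 2 * lB a y) (rB y ^ 2 * lbB a y) :=
  (hd_ball a y).inv1m (h.ne_ball hy)

theorem hd_lB (a c y : E3) : Hd a (lB c) y 0 (ip c a) :=
  (((hd_const (c 0)).mul (hd_coc a y 0)).add ((hd_const (c 1)).mul (hd_coc a y 1))).congr
    (by simp) (by simp [ip])

theorem hd_lbB (a d y : E3) : Hd a (lbB d) y (ip a d) 0 :=
  (((hd_co a y 0).mul (hd_const (conj (d 0)))).add ((hd_co a y 1).mul (hd_const (conj (d 1))))).congr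
    (by simp [ip]) (by simp)

theorem hd_eW (h : MDom w S) {y : E3} (hy : y ∈ S) (a : E3) :
    Hd a (eW w) y (eW w y * dz a (cf w) y) (eW w y * dzb a (cf w) y) :=
  (hd_sm h.sm hy).comp (Complex.hasDerivAt_exp _)

theorem hd_sig (h : MDom w S) {y : E3} (hy : y ∈ S) (a : E3) :
    Hd a (sig w) y (eW w y * conj (co 2 y) * aH w a y) (eW w y * co 2 y * aA w a y) :=
  (((hd_co a y 2).mul (hd_coc a y 2)).mul (hd_eW h hy a)).congr
    (by simp [aH, co]; ring) (by simp [aA, co]; ring)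

theorem hd_tau (h : MDom w S) {y : E3} (hy : y ∈ S) (a : E3) :
    Hd a (tau w) y (tau w y ^ 2 * (eW w y * conj (co 2 y) * aH w a y))
      (tau w y ^ 2 * (eW w y * co 2 y * aA w a y)) :=
  (hd_sig h hy a).inv1m (h.ne_sig hy)

theorem hd_aH (h : MDom w S) {y : E3} (hy : y ∈ S) (a c : E3) :
    Hd a (aH w c) y (a 2 * dz c (cf w) y + co 2 y * dz a (dz c (cf w)) y)
      (co 2 y * hh w c a y) :=
  ((hd_const (c 2)).add ((hd_co a y 2).mul (hd_sm (h.sm.dz' c) hy))).congr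
    (by simp [co]; ring) (by simp [co, hh, dz_dzb_comm h.sm hy])

theorem hd_aA (h : MDom w S) {y : E3} (hy : y ∈ S) (a d : E3) :
    Hd a (aA w d) y (conj (co 2 y) * hh w a d y)
      (conj (a 2) * dzb d (cf w) y + conj (co 2 y) * dzb a (dzb d (cf w)) y) :=
  ((hd_const (conj (d 2))).add ((hd_coc a y 2).mul (hd_sm (h.sm.dzb' d) hy))).congr
    (by simp [co, hh]) (by simp [co]; ring)

theorem contDiffOn_mpot (h : MDom w S) (C : ℝ) : ContDiffOn ℝ ∞ (mpot C w) S := by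
  have hn : ∀ i : Fin 3, ContDiff ℝ ∞ (fun y : E3 => normSq (y i)) := fun i => by
    simp only [Complex.normSq_eq_norm_sq]
    exact (contDiff_apply ℝ ℂ i).norm_sq ℝ
  intro y hy
  have hw := (h.smooth.contDiffAt (h.isOpen.mem_nhds hy)).exp
  exact ((contDiffAt_const.mul ((contDiffAt_const.sub ((hn 0).contDiffAt.add (hn 1).contDiffAt)).log
      (by linarith [h.ball y hy]))).sub
    ((contDiffAt_const.sub ((hn 2).contDiffAt.mul hw)).log
      (by linarith [h.fibre y hy]))).contDiffWithinAt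

theorem dzb_mpot (h : MDom w S) {y : E3} (hy : y ∈ S) (d : E3) :
    dzb d (cf (mpot C w)) y =
      (C : ℂ) * (rB y * lbB d y) + eW w y * co 2 y * tau w y * aA w d y := by
  have he : EqOn (cf (mpot C w))
      (fun x => (-C : ℂ) * Complex.log (1 - (co 0 x * conj (co 0 x) + co 1 x * conj (co 1 x))) +
        (-1 : ℂ) * Complex.log (1 - sig w x)) S := by
    intro x hx
    simp only [cf, mpot, sig_cast, ball_cast]
    rw [← ofReal_one, ← ofReal_sub, ← ofReal_sub, ← ofReal_log (by linarith [h.ball x hx]),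
      ← ofReal_log (by linarith [h.fibre x hx])]
    push_cast; ring
  rw [dzb_congr_on h.isOpen he hy]
  have hlog : ∀ z : ℂ, z.re < 1 → HasDerivAt (fun z : ℂ => Complex.log (1 - z)) (-(1 - z)⁻¹) z := by
    intro z hz
    have := ((hasDerivAt_id z).const_sub 1).clog (by left; simp [hz])
    refine this.congr_deriv ?_
    simp [neg_div]
  have h1 : (co 0 y * conj (co 0 y) + co 1 y * conj (co 1 y)).re < 1 := by
    rw [ball_cast, ofReal_re]; exact h.ball y hy
  have h2 : (sig w y).re < 1 := by rw [sig_cast, ofReal_re]; exact h.fibre y hy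
  have H := ((hd_const (-C : ℂ)).mul ((hd_ball d y).comp (hlog _ h1))).add
    ((hd_const (-1 : ℂ)).mul ((hd_sig h hy d).comp (hlog _ h2)))
  rw [H.zb]
  simp only [rB, tau]
  ring

theorem sig_mul_tau (h : MDom w S) {y : E3} (hy : y ∈ S) :
    sig w y * tau w y = tau w y - 1 := by
  have hn := h.ne_sig hy
  simp only [tau]
  field_simp
  ring

theorem hh_mpot (h : MDom w S) {y : E3} (hy : y ∈ S) (c d : E3) :
    hh (mpot C w) c d y = hM C w c d y := by
  rw [hh, dz_congr_on h.isOpen (fun x hx => dzb_mpot h hx d) hy]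
  have H := ((hd_const (C : ℂ)).mul ((hd_rB h hy c).mul (hd_lbB c d y))).add
    (((((hd_eW h hy c).mul (hd_co c y 2)).mul (hd_tau h hy c))).mul (hd_aA h hy c d))
  rw [H.z]
  have hs : sig w y = co 2 y * conj (co 2 y) * eW w y := rfl
  have e := sig_mul_tau h hy
  have hA : aH w c y = c 2 + co 2 y * dz c (cf w) y := rfl
  simp only [hM]
  linear_combination (eW w y * tau w y * aH w c y * aA w d y) * e +
    (-(eW w y * tau w y * tau w y * aH w c y * aA w d y) - tau w y * hh w c d y) * hs -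
    (eW w y * tau w y * aA w d y) * hA

theorem dzb_hM (h : MDom w S) {y : E3} (hy : y ∈ S) (b c d : E3) :
    dzb b (hM C w c d) y = kM C w b c d y := by
  have H := (((hd_const (C : ℂ)).mul (((hd_rB h hy b).mul (hd_const (ip c d))).add
      ((((hd_rB h hy b).mul (hd_rB h hy b)).mul (hd_lB b c y)).mul (hd_lbB b d y)))).add
    (((hd_sig h hy b).mul (hd_tau h hy b)).mul (hd_sm (h.sm.hh' c d) hy))).add
    (((hd_eW h hy b).mul ((hd_tau h hy b).mul (hd_tau h hy b))).mul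
      ((hd_aH h hy b c).mul (hd_aA h hy b d)))
  have H' : Hd b (hM C w c d) y _ _ := H
  rw [H'.zb]
  simp only [kM]
  linear_combination (eW w y * tau w y * co 2 y * aA w b y * hh w c d y) * sig_mul_tau h hy

end

/-! ### At the centre -/

open Model

/-- The centre of the chart, at height `t` in the fibre. -/
def pt (t : ℂ) : E3 := ![0, 0, t]

/-- The jet of `w` at the centre is the one recorded in the data. -/
structure WJet (w : E3 → ℝ) (d : Data) : Prop where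
  w0 : w (pt d.t) = 0
  d10 : ∀ a, dz a (cf w) (pt d.t) = 0
  d20 : ∀ a c, dz a (dz c (cf w)) (pt d.t) = 0
  d11 : ∀ a c, hh w a c (pt d.t) = d.th (hor a) (hor c)
  d21 : ∀ a c e, TT w a c e (pt d.t) = d.T3 (hor a) (hor c) (hor e)
  d22 : ∀ a b c e, XX w a b c e (pt d.t) = d.F4 (hor a) (hor b) (hor c) (hor e)

variable {w : E3 → ℝ} {S : Set E3} {d : Data}

theorem WJet.d01 (hw : WJet w d) (h : MDom w S) (hy : pt d.t ∈ S) (a : E3) :
    dzb a (cf w) (pt d.t) = 0 := by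
  have hc : (fun z => conj (cf w z)) = cf w := funext fun z => conj_ofReal _
  conv_lhs => rw [← hc]
  rw [dzb_conj (h.sm.diffAt hy), hw.d10, map_zero]

theorem WJet.d02 (hw : WJet w d) (h : MDom w S) (hy : pt d.t ∈ S) (a c : E3) :
    dzb a (dzb c (cf w)) (pt d.t) = 0 := by
  have hc : (fun z => conj (cf w z)) = cf w := funext fun z => conj_ofReal _
  have e : EqOn (dzb c (cf w)) (fun z => conj (dz c (cf w) z)) S := fun z hz => by
    show dzb c (cf w) z = conj (dz c (cf w) z)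
    rw [← dzb_conj (h.sm.diffAt hz), hc]
  rw [dzb_congr_on h.isOpen e hy, dzb_conj ((h.sm.dz' c).diffAt hy), hw.d20, map_zero]

theorem WJet.d12 (hw : WJet w d) (h : MDom w S) (hy : pt d.t ∈ S) (a c e : E3) :
    dzb a (hh w c e) (pt d.t) = conj (d.T3 (hor a) (hor e) (hor c)) := by
  rw [← hw.d21, dzb_congr_on h.isOpen (fun z hz => (conj_hh h.sm hz e c).symm) hy,
    dzb_conj ((h.sm.hh' e c).diffAt hy)]
  rfl

theorem WJet.d12' (hw : WJet w d) (h : MDom w S) (hy : pt d.t ∈ S) (a b e : E3) :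
    dz a (dzb b (dzb e (cf w))) (pt d.t) = conj (d.T3 (hor b) (hor e) (hor a)) := by
  rw [dz_dzb_comm (h.sm.dzb' e) hy]
  exact hw.d12 h hy b a e

theorem ip_eq (c e : E3) : ip c e = ∑ i, hor c i * conj (hor e i) := by
  simp [ip, hor, Fin.sum_univ_two]

theorem at_pt (hw : WJet w d) :
    rB (pt d.t) = 1 ∧ (∀ c, lB c (pt d.t) = 0) ∧ (∀ c, lbB c (pt d.t) = 0) ∧
      co 2 (pt d.t) = d.t ∧ eW w (pt d.t) = 1 ∧ sig w (pt d.t) = (d.s : ℂ) ∧
      tau w (pt d.t) = (((1 - d.s)⁻¹ : ℝ) : ℂ) := by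
  have e2 : co 2 (pt d.t) = d.t := rfl
  have eE : eW w (pt d.t) = 1 := by simp [eW, cf, hw.w0]
  have es : sig w (pt d.t) = (d.s : ℂ) := by simp [sig, e2, eE, mul_conj, Data.s]
  refine ⟨?_, fun c => ?_, fun c => ?_, e2, eE, es, ?_⟩
  · simp [rB, co, pt]
  · simp [lB, co, pt]
  · simp [lbB, co, pt]
  · simp [tau, es]

theorem hh_pt {C : ℝ} (hC : d.C = C) (hw : WJet w d) (h : MDom w S) (hy : pt d.t ∈ S) (c e : E3) :
    hh (mpot C w) c e (pt d.t) = d.herm c e := by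
  obtain ⟨h1, h2, h3, h4, h5, h6, h7⟩ := at_pt hw
  rw [hh_mpot h hy]
  simp only [hM, h1, h2, h3, h4, h5, h6, h7, aH, aA, hw.d10, hw.d01 h hy, hw.d11, ip_eq, Data.herm,
    Data.G, Data.th, Fin.sum_univ_two, Matrix.add_apply, Matrix.smul_apply, Matrix.one_apply, hC,
    Data.p, Data.m, smul_eq_mul]
  have hn : (1 : ℂ) - (d.s : ℂ) ≠ 0 := by rw [← h6]; exact h.ne_sig hy
  push_cast
  simp
  field_simp
  ring

theorem TT_pt {C : ℝ} (hw : WJet w d) (h : MDom w S) (hy : pt d.t ∈ S) (a c e : E3) :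
    TT (mpot C w) a c e (pt d.t) =
      (d.p : ℂ) * d.T3 (hor a) (hor c) (hor e) +
        (d.m : ℂ) * conj d.t * (a 2 * d.th (hor c) (hor e) + c 2 * d.th (hor a) (hor e)) +
        2 * conj d.t * (((1 - d.s)⁻¹ ^ 3 : ℝ) : ℂ) * (a 2 * c 2 * conj (e 2)) := by
  obtain ⟨h1, h2, h3, h4, h5, h6, h7⟩ := at_pt hw
  rw [TT, dz_congr_on h.isOpen (fun x hx => hh_mpot h hx c e) hy]
  have H := (((hd_const (C : ℂ)).mul (((hd_rB h hy a).mul (hd_const (ip c e))).add
      ((((hd_rB h hy a).mul (hd_rB h hy a)).mul (hd_lB a c (pt d.t))).mul (hd_lbB a e (pt d.t))))).add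
    (((hd_sig h hy a).mul (hd_tau h hy a)).mul (hd_sm (h.sm.hh' c e) hy))).add
    (((hd_eW h hy a).mul ((hd_tau h hy a).mul (hd_tau h hy a))).mul
      ((hd_aH h hy a c).mul (hd_aA h hy a e)))
  have H' : Hd a (hM C w c e) (pt d.t) _ _ := H
  rw [H'.z, show dz a (hh w c e) (pt d.t) = TT w a c e (pt d.t) from rfl]
  simp only [h1, h2, h3, h4, h5, h6, h7, aH, aA, hw.d10, hw.d01 h hy, hw.d11, hw.d21, hw.d20,
    Data.p, Data.m]
  push_cast
  have hs : (d.s : ℂ) = d.t * conj d.t := by simp [Data.s, mul_conj]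
  have hn : (1 : ℂ) - (d.t * conj d.t) ≠ 0 := by rw [← hs, ← h6]; exact h.ne_sig hy
  simp only [hs]
  field_simp
  ring

theorem XX_pt {C : ℝ} (hC : d.C = C) (hw : WJet w d) (h : MDom w S) (hy : pt d.t ∈ S)
    (a b c e : E3) : XX (mpot C w) a b c e (pt d.t) = d.X a b c e := by
  obtain ⟨h1, h2, h3, h4, h5, h6, h7⟩ := at_pt hw
  have E1 : EqOn (dzb b (hh (mpot C w) c e)) (kM C w b c e) S := fun x hx => by
    rw [dzb_congr_on h.isOpen (fun z hz => hh_mpot h hz c e) hx, dzb_hM h hx]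
  rw [XX, dz_congr_on h.isOpen E1 hy]
  have rr := hd_rB h hy a
  have ww : ∀ v : E3, Hd a (dzb v (cf w)) (pt d.t) (hh w a v (pt d.t)) (dzb a (dzb v (cf w)) (pt d.t)) := fun v =>
    hd_sm (h.sm.dzb' v) hy
  have tt := hd_tau h hy a
  have ee := hd_eW h hy a
  have z2 := hd_co a (pt d.t) 2
  have zc := hd_coc a (pt d.t) 2
  have H := (((((hd_const (C : ℂ)).mul (((((rr.mul rr).mul (hd_lbB a b (pt d.t))).mul
        (hd_const (ip c e))).add (((rr.mul rr).mul (hd_const (ip c b))).mul (hd_lbB a e (pt d.t)))).add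
      (((((hd_const 2).mul ((rr.mul rr).mul rr)).mul (hd_lbB a b (pt d.t))).mul (hd_lB a c (pt d.t))).mul
        (hd_lbB a e (pt d.t))))).add
    ((((ee.mul (tt.mul tt)).mul z2).mul (hd_aA h hy a b)).mul (hd_sm (h.sm.hh' c e) hy))).add
    (((hd_sig h hy a).mul tt).mul (hd_sm ((h.sm.hh' c e).dzb' b) hy))).add
    ((((ee.mul (tt.mul tt)).mul (ww b)).add
      (((((hd_const 2).mul (ee.mul ee)).mul ((tt.mul tt).mul tt)).mul z2).mul (hd_aA h hy a b))).mul
        ((hd_aH h hy a c).mul (hd_aA h hy a e)))).add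
    ((ee.mul (tt.mul tt)).mul ((((z2.mul (hd_sm (h.sm.hh' c b) hy))).mul (hd_aA h hy a e)).add
      ((hd_aH h hy a c).mul (((hd_const (conj (b 2))).mul (ww e)).add
        (zc.mul (hd_sm ((h.sm.dzb' e).dzb' b) hy))))))
  have H' : Hd a (kM C w b c e) (pt d.t) _ _ := H
  rw [H'.z, show dz a (hh w c e) (pt d.t) = TT w a c e (pt d.t) from rfl,
    show dz a (hh w c b) (pt d.t) = TT w a c b (pt d.t) from rfl,
    show dz a (dzb b (hh w c e)) (pt d.t) = XX w a b c e (pt d.t) from rfl]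
  simp only [h1, h2, h3, h4, h5, h6, h7, aH, aA, hw.d10, hw.d01 h hy, hw.d11, hw.d21, hw.d22,
    hw.d20, hw.d02 h hy, hw.d12 h hy, hw.d12' h hy, ip_eq, Data.X, ball4, Data.p, Data.m, hC]
  push_cast
  have hs : (d.s : ℂ) = d.t * conj d.t := by simp [Data.s, mul_conj]
  have hn : (1 : ℂ) - (d.t * conj d.t) ≠ 0 := by rw [← hs, ← h6]; exact h.ne_sig hy
  simp only [hs]
  field_simp
  ring

end Vale.Agent.P250.Disproof
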