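import Mathlib
import Vale.Agent.P250.Disproof.ModelJet

/-!
P250 disproof: metric and sectional curvature of the model potential at the centre, in the data.
-/

open scoped Topology ContDiff ComplexConjugate Matrix
open Complex Filter Set

noncomputable section

namespace Vale.Agent.P250.Disproof

open Model

section

variable {f : E3 → ℝ} {S : Set E3} {y : E3}

theorem conj_XX (h : Sm S (cf f)) (hy : y ∈ S) (a b c e : E3) :
    conj (XX f a b c e y) = XX f b a e c y := by
  have h1 : EqOn (fun z => conj (dzb b (hh f c e) z)) (dz b (hh f e c)) S := fun z hz => by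
    show conj (dzb b (hh f c e) z) = dz b (hh f e c) z
    rw [← dz_conj ((h.hh' c e).diffAt hz), dz_congr_on h.isOpen (fun w hw => conj_hh h hw c e) hz]
  have h2 := dzb_congr_on h.isOpen h1 hy a
  rw [dzb_conj (((h.hh' c e).dzb' b).diffAt hy)] at h2
  show conj (dz a (dzb b (hh f c e)) y) = dz b (dzb a (hh f e c)) y
  rw [h2, dz_dzb_comm (h.hh' e c) hy b a]

theorem XX_swap (h : Sm S (cf f)) (hy : y ∈ S) (a b c e : E3) :
    XX f a b c e y = XX f a e c b y := by
  have h1 : EqOn (dzb b (hh f c e)) (dzb e (hh f c b)) S := fun z hz => by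
    show dzb b (dz c (dzb e (cf f))) z = dzb e (dz c (dzb b (cf f))) z
    rw [← dz_dzb_comm (h.dzb' e) hz, ← dz_dzb_comm (h.dzb' b) hz,
      dz_congr_on h.isOpen (fun w hw => dzb_comm h hw b e) hz]
  exact dz_congr_on h.isOpen h1 hy a

end

variable {w : E3 → ℝ} {S : Set E3} {d : Data} {C : ℝ}

theorem ddc_pt (hC : d.C = C) (hw : WJet w d) (h : MDom w S) (hy : pt d.t ∈ S) (u v : E3) :
    ddc (mpot C w) (pt d.t) u v = (d.herm u v).re := by
  rw [ddc_apply h.isOpen (contDiffOn_mpot h C) hy, hh_pt hC hw h hy]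

theorem herm_conn (hG : IsUnit d.G.det) (u v e : E3) :
    d.herm (d.conn u v) e = ∑ j, d.low u v j * conj (hor e j) +
      (d.m : ℂ) * (2 * conj d.t / ((1 - d.s : ℝ) : ℂ) * (u 2) * (v 2)) * conj (e 2) := by
  set Z := d.low u v ᵥ* d.G⁻¹ with hZ
  have hh : hor (d.conn u v) = Z := by
    funext i; fin_cases i <;> rfl
  have hz : Z ᵥ* d.G = d.low u v := by
    rw [hZ, Matrix.vecMul_vecMul, Matrix.nonsing_inv_mul _ hG, Matrix.vecMul_one]
  have h2 : (d.conn u v) 2 = 2 * conj d.t / ((1 - d.s : ℝ) : ℂ) * (u 2) * (v 2) := rfl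
  rw [Data.herm, hh, h2]
  congr 1
  rw [Finset.sum_comm]
  refine Finset.sum_congr rfl fun j _ => ?_
  rw [← Finset.sum_mul, ← hz]
  rfl

theorem isUnit_det_of_pos (hpos : ∀ u : E3, u ≠ 0 → 0 < (d.herm u u).re) : IsUnit d.G.det := by
  rw [isUnit_iff_ne_zero]
  intro h0
  obtain ⟨a, ha, ha0⟩ := Matrix.exists_vecMul_eq_zero_iff.2 h0
  set u : E3 := ![a 0, a 1, 0]
  have hu : hor u = a := by funext i; fin_cases i <;> rfl
  have hne : u ≠ 0 := fun h' => ha (by rw [← hu, h']; funext i; fin_cases i <;> rfl)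
  have := hpos u hne
  have hz : d.herm u u = 0 := by
    rw [Data.herm, hu, Finset.sum_comm]
    have h2 : u 2 = 0 := rfl
    rw [h2]
    have : ∀ j, ∑ i, a i * d.G i j * conj (a j) = 0 := fun j => by
      rw [← Finset.sum_mul]
      have := congrFun ha0 j
      simp only [Matrix.vecMul, dotProduct, Pi.zero_apply] at this
      rw [this, zero_mul]
    simp [this]
  rw [hz] at this
  simp at this

theorem TT_pt_conn (hG : IsUnit d.G.det) (hw : WJet w d) (h : MDom w S) (hy : pt d.t ∈ S)
    (u v e : E3) : TT (mpot C w) u v e (pt d.t) = d.herm (d.conn u v) e := by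
  rw [TT_pt hw h hy, herm_conn hG]
  have hn : (1 : ℂ) - (d.s : ℂ) ≠ 0 := by
    rw [← (at_pt hw).2.2.2.2.2.1]; exact h.ne_sig hy
  simp only [Data.low, Data.T3, Data.th, Fin.sum_univ_two, Data.m]
  push_cast
  field_simp
  ring

/-- The curvature of the model at the centre is the formula in the data. -/
theorem sec_pt (hC : d.C = C) (hw : WJet w d) (h : MDom w S) (hy : pt d.t ∈ S)
    (hg : MetricOn (ddc (mpot C w)) S) (u v : E3) :
    ddc (mpot C w) (pt d.t) (riem (ddc (mpot C w)) (pt d.t) u v v) u = d.sec u v := by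
  have hf := contDiffOn_mpot h C
  have hsm := sm_cf h.isOpen hf
  have hpos : ∀ a : E3, a ≠ 0 → 0 < (d.herm a a).re := fun a ha => by
    rw [← ddc_pt hC hw h hy]; exact hg.pos _ hy a ha
  have hG := isUnit_det_of_pos hpos
  have hgam : ∀ a b : E3, gam (ddc (mpot C w)) (pt d.t) a b = d.conn a b := fun a b => by
    refine hg.eq_of_g hy fun e => ?_
    rw [g_gam_ddc hg hf hy, ddc_pt hC hw h hy, TT_pt_conn hG hw h hy]
  rw [sec_ddc hg hf hy, hgam, hgam, hgam, ddc_pt hC hw h hy, ddc_pt hC hw h hy,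
    ← conj_XX hsm hy u v u v, conj_re, XX_swap hsm hy u v v u, XX_pt hC hw h hy,
    XX_pt hC hw h hy]
  simp only [Data.sec, Data.Q, add_re, neg_re]
  ring

theorem area_pt (hC : d.C = C) (hw : WJet w d) (h : MDom w S) (hy : pt d.t ∈ S) (u v : E3) :
    area2 (ddc (mpot C w)) (pt d.t) u v = d.area u v := by
  simp only [area2, Data.area, ddc_pt hC hw h hy]

/-- Positivity of the Hermitian form of good data. -/
theorem herm_pos {κ B : ℝ} (hκ : 0 ≤ κ) (hd : d.Good κ B) (hC : 0 < d.C) (u : E3) (hu : u ≠ 0) :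
    0 < (d.herm u u).re := by
  have hs : d.s < 1 := hd.t_lt
  have hs0 : 0 ≤ d.s := normSq_nonneg _
  have hp : 0 ≤ d.p := div_nonneg hs0 (by linarith)
  have hm : 0 < d.m := by
    have : 0 < 1 - d.s := by linarith
    simp only [Data.m]; positivity
  have e : (d.herm u u).re = d.C * (normSq (u 0) + normSq (u 1)) +
      d.p * (d.th (hor u) (hor u)).re + d.m * normSq (u 2) := by
    have : d.herm u u = ((d.C * (normSq (u 0) + normSq (u 1)) + d.m * normSq (u 2) : ℝ) : ℂ) +
        (d.p : ℂ) * d.th (hor u) (hor u) := by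
      simp only [Data.herm, Data.th, Data.G, Fin.sum_univ_two, Matrix.add_apply, Matrix.smul_apply,
        Matrix.one_apply, smul_eq_mul, ofReal_add, ofReal_mul, ← mul_conj]
      simp [hor]
      ring
    rw [this]
    simp
    ring
  have hθ : 0 ≤ (d.th (hor u) (hor u)).re :=
    le_trans (by have := normSq_nonneg (hor u 0); have := normSq_nonneg (hor u 1); positivity)
      (hd.θ_lb (hor u))
  have hsome : 0 < normSq (u 0) + normSq (u 1) ∨ 0 < normSq (u 2) := by
    by_contra hcon
    obtain ⟨c1, c2⟩ := not_or.1 hcon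
    have h0 := normSq_nonneg (u 0); have h1 := normSq_nonneg (u 1); have h2 := normSq_nonneg (u 2)
    refine hu (funext fun i => ?_)
    fin_cases i <;> exact normSq_eq_zero.1 (by dsimp only [Fin.reduceFinMk]; linarith)
  rw [e]
  have h0 := normSq_nonneg (u 0); have h1 := normSq_nonneg (u 1); have h2 := normSq_nonneg (u 2)
  rcases hsome with h' | h'
  · have := mul_pos hC h'; have := mul_nonneg hp hθ; have := mul_nonneg hm.le h2; linarith
  · have := mul_nonneg hC.le (add_nonneg h0 h1); have := mul_nonneg hp hθ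
    have := mul_pos hm h'; linarith

end Vale.Agent.P250.Disproof
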