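import Mathlib
import Vale.Agent.P250.Disproof.ModelPoint
import Vale.Agent.P250.Disproof.Lower

/-!
P250 disproof: the weight in a normal chart, with the pluriharmonic part of the dips removed, and
its jet at the centre.
-/

open scoped Topology ContDiff ComplexConjugate
open Complex Filter Set

noncomputable section

namespace Vale.Agent.P250.Disproof

open Model

section

variable {V : Type*} [NormedAddCommGroup V] [NormedSpace ℂ V]

/-- `f_{c d̄}`. -/
def h2 (f : V → ℝ) (c d : V) : V → ℂ := dz c (dzb d (cf f))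

/-- `f_{a c d̄}`. -/
def T2 (f : V → ℝ) (a c d : V) : V → ℂ := dz a (h2 f c d)

/-- `f_{a b̄ c d̄}`. -/
def X2 (f : V → ℝ) (a b c d : V) : V → ℂ := dz a (dzb b (h2 f c d))

variable {S : Set V} {y : V} {f g : V → ℝ}

theorem Sm.h2' (h : Sm S (cf f)) (c d : V) : Sm S (h2 f c d) := (h.dzb' d).dz' c

theorem Sm.T2' (h : Sm S (cf f)) (a c d : V) : Sm S (T2 f a c d) := (h.h2' c d).dz' a

theorem conj_h2 (h : Sm S (cf f)) (hy : y ∈ S) (c d : V) : conj (h2 f c d y) = h2 f d c y := by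
  have hc : (fun z => conj (cf f z)) = cf f := funext fun z => conj_ofReal _
  have e1 : EqOn (fun z => conj (dzb d (cf f) z)) (dz d (cf f)) S := by
    intro z hz
    show conj (dzb d (cf f) z) = dz d (cf f) z
    rw [← dz_conj (h.diffAt hz), hc]
  have e2 := dzb_congr_on h.isOpen e1 hy c
  rw [dzb_conj ((h.dzb' d).diffAt hy)] at e2
  rw [h2, e2, h2, dz_dzb_comm h hy d c]

theorem conj_X2 (h : Sm S (cf f)) (hy : y ∈ S) (a b c e : V) :
    conj (X2 f a b c e y) = X2 f b a e c y := by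
  have h1 : EqOn (fun z => conj (dzb b (h2 f c e) z)) (dz b (h2 f e c)) S := fun z hz => by
    show conj (dzb b (h2 f c e) z) = dz b (h2 f e c) z
    rw [← dz_conj ((h.h2' c e).diffAt hz), dz_congr_on h.isOpen (fun w hw => conj_h2 h hw c e) hz]
  have h2' := dzb_congr_on h.isOpen h1 hy a
  rw [dzb_conj (((h.h2' c e).dzb' b).diffAt hy)] at h2'
  show conj (dz a (dzb b (h2 f c e)) y) = dz b (dzb a (h2 f e c)) y
  rw [h2', dz_dzb_comm (h.h2' e c) hy b a]

theorem X2_swap (h : Sm S (cf f)) (hy : y ∈ S) (a b c e : V) :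
    X2 f a b c e y = X2 f a e c b y := by
  have h1 : EqOn (dzb b (h2 f c e)) (dzb e (h2 f c b)) S := fun z hz => by
    show dzb b (dz c (dzb e (cf f))) z = dzb e (dz c (dzb b (cf f))) z
    rw [← dz_dzb_comm (h.dzb' e) hz, ← dz_dzb_comm (h.dzb' b) hz,
      dz_congr_on h.isOpen (fun w hw => dzb_comm h hw b e) hz]
  exact dz_congr_on h.isOpen h1 hy a

theorem X2_swap' (h : Sm S (cf f)) (hy : y ∈ S) (a b c e : V) :
    X2 f a b c e y = X2 f c b a e y := by
  have e1 := conj_X2 h hy b a e c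
  have e2 := conj_X2 h hy b c e a
  have e3 := X2_swap h hy b a e c
  rw [← e1, ← e2, e3]

/-- Real linear combinations. -/
theorem cf_add : cf (fun x => f x + g x) = fun x => cf f x + cf g x := by
  funext x; simp [cf]

theorem cf_smul (r : ℝ) : cf (fun x => r * f x) = fun x => (r : ℂ) * cf f x := by
  funext x; simp [cf]

theorem h2_lin (hf : Sm S (cf f)) (hg : Sm S (cf g)) (r s : ℝ) (c d : V) :
    EqOn (h2 (fun x => r * f x + s * g x) c d) (fun x => r * h2 f c d x + s * h2 g c d x) S := by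
  intro z hz
  have e : EqOn (dzb d (cf (fun x => r * f x + s * g x)))
      (fun x => (r : ℂ) * dzb d (cf f) x + (s : ℂ) * dzb d (cf g) x) S := by
    intro x hx
    rw [cf_add, cf_smul, cf_smul]
    rw [dzb_add ((hf.diffAt hx).const_mul _) ((hg.diffAt hx).const_mul _),
      dzb_const_mul _ (hf.diffAt hx), dzb_const_mul _ (hg.diffAt hx)]
  rw [h2, dz_congr_on hf.isOpen e hz, dz_add (((hf.dzb' d).diffAt hz).const_mul _)
    (((hg.dzb' d).diffAt hz).const_mul _), dz_const_mul _ ((hf.dzb' d).diffAt hz),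
    dz_const_mul _ ((hg.dzb' d).diffAt hz)]
  rfl

theorem T2_lin (hf : Sm S (cf f)) (hg : Sm S (cf g)) (r s : ℝ) (hy : y ∈ S) (a c d : V) :
    T2 (fun x => r * f x + s * g x) a c d y = r * T2 f a c d y + s * T2 g a c d y := by
  rw [T2, dz_congr_on hf.isOpen (h2_lin hf hg r s c d) hy,
    dz_add (((hf.h2' c d).diffAt hy).const_mul _) (((hg.h2' c d).diffAt hy).const_mul _),
    dz_const_mul _ ((hf.h2' c d).diffAt hy), dz_const_mul _ ((hg.h2' c d).diffAt hy)]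
  rfl

theorem X2_lin (hf : Sm S (cf f)) (hg : Sm S (cf g)) (r s : ℝ) (hy : y ∈ S) (a b c d : V) :
    X2 (fun x => r * f x + s * g x) a b c d y = r * X2 f a b c d y + s * X2 g a b c d y := by
  have e : EqOn (dzb b (h2 (fun x => r * f x + s * g x) c d))
      (fun x => (r : ℂ) * dzb b (h2 f c d) x + (s : ℂ) * dzb b (h2 g c d) x) S := by
    intro x hx
    rw [dzb_congr_on hf.isOpen (h2_lin hf hg r s c d) hx,
      dzb_add (((hf.h2' c d).diffAt hx).const_mul _) (((hg.h2' c d).diffAt hx).const_mul _),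
      dzb_const_mul _ ((hf.h2' c d).diffAt hx), dzb_const_mul _ ((hg.h2' c d).diffAt hx)]
  rw [X2, dz_congr_on hf.isOpen e hy,
    dz_add ((((hf.h2' c d).dzb' b).diffAt hy).const_mul _) ((((hg.h2' c d).dzb' b).diffAt hy).const_mul _),
    dz_const_mul _ (((hf.h2' c d).dzb' b).diffAt hy), dz_const_mul _ (((hg.h2' c d).dzb' b).diffAt hy)]
  rfl

theorem h2_re_self (hS : IsOpen S) (hf : ContDiffOn ℝ ∞ f S) (hy : y ∈ S) (a : V) :
    (h2 f a a y).re = levi f y a := by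
  have h := sm_cf hS hf
  have hd : ∀ z ∈ S, DifferentiableAt ℝ f z := fun z hz =>
    (hf.contDiffAt (hS.mem_nhds hz)).differentiableAt (by simp)
  have hD : DifferentiableAt ℝ (fderiv ℝ f) y :=
    ((hf.contDiffAt (hS.mem_nhds hy)).fderiv_right (m := ∞) (by simp)).differentiableAt (by simp)
  have e : ∀ a b : V, dd a (dd b (cf f)) y = (fderiv ℝ (fderiv ℝ f) y a b : ℂ) := by
    intro a b
    have h1 : ∀ z ∈ S, dd b (cf f) z = ofRealCLM (fderiv ℝ f z b) := by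
      intro z hz
      have := ofRealCLM.hasFDerivAt.comp z (hd z hz).hasFDerivAt
      rw [Function.comp_def] at this
      have h' : HasFDerivAt (cf f) _ z := this
      simp [dd, h'.fderiv]
    rw [dd_congr (eventuallyEq_of_mem (hS.mem_nhds hy) h1)]
    have h2 := ofRealCLM.hasFDerivAt.comp y (hD.hasFDerivAt.clm_apply (hasFDerivAt_const b y))
    rw [Function.comp_def] at h2
    simp only [dd, h2.fderiv]
    simp
  have e1 : h2 f a a y =
      (1 / 2 : ℂ) * (dd a (dzb a (cf f)) y - I * dd (I • a) (dzb a (cf f)) y) := rfl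
  rw [e1, dd_dzb h hy, dd_dzb h hy, e, e, e, e]
  simp [levi, hs]
  ring

/-! ### Bounds -/

theorem norm_iter_dz {φ : V → ℂ} (h : Sm S φ) (hy : y ∈ S) (k : ℕ) (a : V) (ha : ‖a‖ ≤ 1) :
    ‖iteratedFDeriv ℝ k (dz a φ) y‖ ≤ ‖iteratedFDeriv ℝ (k + 1) φ y‖ ∧
      ‖iteratedFDeriv ℝ k (dzb a φ) y‖ ≤ ‖iteratedFDeriv ℝ (k + 1) φ y‖ := by
  have hk : (k : WithTop ℕ∞) ≤ ∞ := WithTop.coe_le_coe.2 le_top
  have hdd : ∀ v : V, ‖v‖ ≤ 1 → ContDiffAt ℝ k (dd v φ) y ∧
      ‖iteratedFDeriv ℝ k (dd v φ) y‖ ≤ ‖iteratedFDeriv ℝ (k + 1) φ y‖ := by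
    intro v hv
    refine ⟨((h.dd' v).cda hy).of_le hk, ?_⟩
    have hF : ContDiffAt ℝ k (fderiv ℝ φ) y :=
      ((h.cda hy).fderiv_right (m := ∞) (by simp)).of_le hk
    refine le_trans (norm_iteratedFDeriv_clm_apply_const hF le_rfl) ?_
    rw [norm_iteratedFDeriv_fderiv]
    exact mul_le_of_le_one_left (norm_nonneg _) hv
  obtain ⟨c1, b1⟩ := hdd a ha
  obtain ⟨c2, b2⟩ := hdd (I • a) (by rw [norm_smul, norm_I, one_mul]; exact ha)
  have key : ∀ s : ℂ, ‖s‖ = 1 →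
      ‖iteratedFDeriv ℝ k (fun z => (1 / 2 : ℂ) • (dd a φ z + s • dd (I • a) φ z)) y‖ ≤
        ‖iteratedFDeriv ℝ (k + 1) φ y‖ := by
    intro s hs
    rw [iteratedFDeriv_const_smul_apply' (c1.add (c2.const_smul s)),
      fun_iteratedFDeriv_add_apply c1 (c2.const_smul s), iteratedFDeriv_const_smul_apply' c2,
      norm_smul]
    refine le_trans (mul_le_mul_of_nonneg_left (norm_add_le _ _) (norm_nonneg _)) ?_
    rw [norm_smul, hs, one_mul]
    norm_num
    linarith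
  constructor
  · have e : dz a φ = fun z => (1 / 2 : ℂ) • (dd a φ z + (-I) • dd (I • a) φ z) := by
      funext z; simp [dz, sub_eq_add_neg]
    rw [e]; exact key _ (by simp)
  · exact key I norm_I

theorem norm_iter_cf (k : ℕ) (hS : IsOpen S) (hf : ContDiffOn ℝ ∞ f S) (hy : y ∈ S) :
    ‖iteratedFDeriv ℝ k (cf f) y‖ ≤ ‖iteratedFDeriv ℝ k f y‖ := by
  have h := ofRealCLM.norm_iteratedFDeriv_comp_left (f := f) (x := y) (N := ∞)
    (hf.contDiffAt (hS.mem_nhds hy)) (n := k) (WithTop.coe_le_coe.2 le_top)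
  rw [Function.comp_def] at h
  unfold cf
  simpa only [one_mul, ofRealCLM_norm, ofRealCLM_apply] using h

theorem jets_bound (hS : IsOpen S) (hf : ContDiffOn ℝ ∞ f S) (hy : y ∈ S) {M : ℝ}
    (hM : ∀ m : ℕ, 1 ≤ m → m ≤ 4 → ‖iteratedFDeriv ℝ m f y‖ ≤ M) (a b c d : V)
    (ha : ‖a‖ ≤ 1) (hb : ‖b‖ ≤ 1) (hc : ‖c‖ ≤ 1) (hd : ‖d‖ ≤ 1) :
    ‖h2 f c d y‖ ≤ M ∧ ‖T2 f a c d y‖ ≤ M ∧ ‖X2 f a b c d y‖ ≤ M := by
  have h := sm_cf hS hf
  have h0 : ∀ φ : V → ℂ, ‖φ y‖ = ‖iteratedFDeriv ℝ 0 φ y‖ := fun φ => by simp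
  have hc' := (norm_iter_dz (h.dzb' d) hy · c hc)
  have hd' := (norm_iter_dz h hy · d hd)
  have hh : ∀ k, 1 ≤ k + 2 → k + 2 ≤ 4 → ‖iteratedFDeriv ℝ k (h2 f c d) y‖ ≤ M := fun k k1 k2 =>
    (((hc' k).1.trans (hd' (k + 1)).2).trans (norm_iter_cf (k + 2) hS hf hy)).trans (hM _ k1 k2)
  refine ⟨?_, ?_, ?_⟩
  · rw [h0]; exact hh 0 (by norm_num) (by norm_num)
  · rw [h0]
    exact (norm_iter_dz (h.h2' c d) hy 0 a ha).1.trans (hh 1 (by norm_num) (by norm_num))
  · rw [h0]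
    exact ((norm_iter_dz ((h.h2' c d).dzb' b) hy 0 a ha).1.trans
      (norm_iter_dz (h.h2' c d) hy 1 b hb).2).trans (hh 2 (by norm_num) (by norm_num))

end

/-! ### The functions on the ball of `ℂ²` -/

/-- The Euclidean ball of `ℂ²`. -/
def ball2 : Set B2 := {ξ | normSq ξ.1 + normSq ξ.2 < 1}

theorem isOpen_ball2 : IsOpen ball2 :=
  isOpen_lt ((continuous_normSq.comp continuous_fst).add (continuous_normSq.comp continuous_snd))
    continuous_const

theorem zero_mem_ball2 : (0 : B2) ∈ ball2 := by simp [ball2]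

/-- The basis of `ℂ²`. -/
def bs : Fin 2 → B2 := ![(1, 0), (0, 1)]

theorem norm_bs (i : Fin 2) : ‖bs i‖ ≤ 1 := by
  fin_cases i <;> simp [bs, Prod.norm_def]

/-- The potential of the ball. -/
def ballPot (ξ : B2) : ℝ := -Real.log (1 - (normSq ξ.1 + normSq ξ.2))

theorem contDiff_normSq : ContDiff ℝ ∞ (normSq : ℂ → ℝ) := by
  have : (normSq : ℂ → ℝ) = fun z => ‖z‖ ^ 2 := funext fun z => Complex.normSq_eq_norm_sq z
  rw [this]; exact contDiff_norm_sq ℝ

theorem contDiffOn_ballPot : ContDiffOn ℝ ∞ ballPot ball2 := by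
  intro ξ hξ
  have hξ' : normSq ξ.1 + normSq ξ.2 < 1 := hξ
  exact ((contDiffAt_const.sub ((contDiff_normSq.contDiffAt.comp ξ contDiffAt_fst).add
    (contDiff_normSq.contDiffAt.comp ξ contDiffAt_snd))).log (by simp; linarith)).neg.contDiffWithinAt

theorem hd_fst (a y : B2) : Hd a (fun x : B2 => x.1) y a.1 0 :=
  ⟨differentiableAt_fst, dz_lin (ContinuousLinearMap.fst ℂ ℂ ℂ) a,
    dzb_lin (ContinuousLinearMap.fst ℂ ℂ ℂ) a⟩

theorem hd_snd (a y : B2) : Hd a (fun x : B2 => x.2) y a.2 0 :=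
  ⟨differentiableAt_snd, dz_lin (ContinuousLinearMap.snd ℂ ℂ ℂ) a,
    dzb_lin (ContinuousLinearMap.snd ℂ ℂ ℂ) a⟩

theorem dzb_ballPot {y : B2} (hy : y ∈ ball2) (d : B2) : dzb d (cf ballPot) y =
    (y.1 * conj d.1 + y.2 * conj d.2) * (1 - (y.1 * conj y.1 + y.2 * conj y.2))⁻¹ := by
  have hy' : normSq y.1 + normSq y.2 < 1 := hy
  have hq' : ∀ y : B2, y.1 * conj y.1 + y.2 * conj y.2 = ((normSq y.1 + normSq y.2 : ℝ) : ℂ) :=
    fun y => by simp only [mul_conj, ofReal_add]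
  have hc : EqOn (cf ballPot)
      (fun x => (-1 : ℂ) * Complex.log (1 - (x.1 * conj x.1 + x.2 * conj x.2))) ball2 := by
    intro x hx
    have hx' : normSq x.1 + normSq x.2 < 1 := hx
    simp only [cf, ballPot, hq']
    rw [← ofReal_one, ← ofReal_sub, ← ofReal_log (by linarith)]
    push_cast; ring
  have hlog : HasDerivAt (fun z : ℂ => Complex.log (1 - z))
      (-(1 - (y.1 * conj y.1 + y.2 * conj y.2))⁻¹) (y.1 * conj y.1 + y.2 * conj y.2) := by
    have := ((hasDerivAt_id (y.1 * conj y.1 + y.2 * conj y.2)).const_sub 1).clog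
      (by left; rw [id, hq']; simp; linarith)
    refine this.congr_deriv ?_
    simp [neg_div]
  have hq : Hd d (fun x : B2 => x.1 * conj x.1 + x.2 * conj x.2) y
      (d.1 * conj y.1 + d.2 * conj y.2) (y.1 * conj d.1 + y.2 * conj d.2) :=
    (((hd_fst d y).mul (hd_fst d y).conj').add ((hd_snd d y).mul (hd_snd d y).conj')).congr
      (by simp) (by simp)
  rw [dzb_congr_on isOpen_ball2 hc hy, ((hd_const (-1 : ℂ)).mul (hq.comp hlog)).zb]
  ring

theorem hd_dzb_ballPot (c d : B2) : Hd c (dzb d (cf ballPot)) 0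
    (c.1 * conj d.1 + c.2 * conj d.2) 0 := by
  have H := (((hd_fst c 0).mul (hd_const (conj d.1))).add ((hd_snd c 0).mul (hd_const (conj d.2)))).mul
    ((((hd_fst c 0).mul (hd_fst c 0).conj').add ((hd_snd c 0).mul (hd_snd c 0).conj')).inv1m
      (by simp))
  have he : EqOn (dzb d (cf ballPot)) _ ball2 := fun y hy => dzb_ballPot hy d
  refine ⟨((sm_cf isOpen_ball2 contDiffOn_ballPot).dzb' d).diffAt zero_mem_ball2, ?_, ?_⟩
  · rw [dz_congr_on isOpen_ball2 he zero_mem_ball2, H.z]; simp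
  · rw [dzb_congr_on isOpen_ball2 he zero_mem_ball2, H.zb]; simp

theorem h2_ballPot (c d : B2) :
    h2 ballPot c d 0 = c.1 * conj d.1 + c.2 * conj d.2 := (hd_dzb_ballPot c d).z

/-- A holomorphic polynomial of degree two. -/
def poly2 (c₀ l₁ l₂ q₁ q₂ q₃ : ℂ) (ξ : B2) : ℂ :=
  c₀ + l₁ * ξ.1 + l₂ * ξ.2 + q₁ * (ξ.1 * ξ.1) + q₂ * (ξ.1 * ξ.2) + q₃ * (ξ.2 * ξ.2)

theorem hd_poly2 (c₀ l₁ l₂ q₁ q₂ q₃ : ℂ) (a y : B2) : Hd a (poly2 c₀ l₁ l₂ q₁ q₂ q₃) y
    (l₁ * a.1 + l₂ * a.2 + q₁ * (2 * a.1 * y.1) + q₂ * (a.1 * y.2 + y.1 * a.2) +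
      q₃ * (2 * a.2 * y.2)) 0 := by
  have H := (((((hd_const (a := a) (y := y) c₀).add ((hd_const l₁).mul (hd_fst a y))).add
    ((hd_const l₂).mul (hd_snd a y))).add
    ((hd_const q₁).mul ((hd_fst a y).mul (hd_fst a y)))).add
    ((hd_const q₂).mul ((hd_fst a y).mul (hd_snd a y)))).add
    ((hd_const q₃).mul ((hd_snd a y).mul (hd_snd a y)))
  have H' : Hd a (poly2 c₀ l₁ l₂ q₁ q₂ q₃) y _ _ := H
  exact H'.congr (by ring) (by ring)

/-- The pluriharmonic two-jet of `D` at `0`. -/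
def hol (D : B2 → ℝ) : B2 → ℂ :=
  poly2 (D 0) (2 * dz (bs 0) (cf D) 0) (2 * dz (bs 1) (cf D) 0)
    (dz (bs 0) (dz (bs 0) (cf D)) 0) (2 * dz (bs 0) (dz (bs 1) (cf D)) 0)
    (dz (bs 1) (dz (bs 1) (cf D)) 0)

/-- Its real part. -/
def polPot (D : B2 → ℝ) (ξ : B2) : ℝ := (hol D ξ).re

theorem cf_polPot (D : B2 → ℝ) :
    cf (polPot D) = fun x => (1 / 2 : ℂ) * (hol D x + conj (hol D x)) := by
  funext x
  simp only [cf, polPot, Complex.re_eq_add_conj]
  ring

theorem contDiff_polPot (D : B2 → ℝ) : ContDiff ℝ ∞ (polPot D) := by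
  have : ContDiff ℂ ∞ (hol D) := by unfold hol poly2; fun_prop
  exact reCLM.contDiff.comp (this.restrict_scalars ℝ)

theorem hd_polPot (D : B2 → ℝ) (a y : B2) : Hd a (cf (polPot D)) y
    (1 / 2 * dz a (hol D) y) (1 / 2 * conj (dz a (hol D) y)) := by
  rw [cf_polPot]
  have h : Hd a (hol D) y (dz a (hol D) y) 0 :=
    ⟨(hd_poly2 _ _ _ _ _ _ a y).diff, rfl, (hd_poly2 _ _ _ _ _ _ a y).zb⟩
  exact ((hd_const _).mul (h.add h.conj')).congr (by simp) (by simp)

theorem h2_polPot (D : B2 → ℝ) (c d y : B2) : h2 (polPot D) c d y = 0 := by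
  have e : dzb d (cf (polPot D)) = fun x => (1 / 2 : ℂ) * conj (dz d (hol D) x) :=
    funext fun x => (hd_polPot D d x).zb
  have h : Hd c (dz d (hol D)) y (dz c (dz d (hol D)) y) 0 := by
    have e2 : dz d (hol D) = _ := funext fun x => (hd_poly2 _ _ _ _ _ _ d x).z
    refine ⟨?_, rfl, ?_⟩
    · rw [e2]; fun_prop
    · rw [e2]
      exact ((((((hd_const _).mul (hd_const _)).add ((hd_const _).mul (hd_const _))).add
        ((hd_const _).mul (((hd_const _).mul (hd_const _)).mul (hd_fst c y)))).add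
        ((hd_const _).mul (((hd_const _).mul (hd_snd c y)).add
          ((hd_fst c y).mul (hd_const _))))).add
        ((hd_const _).mul (((hd_const _).mul (hd_const _)).mul (hd_snd c y)))).zb.trans (by simp)
  rw [h2, e, ((hd_const (1 / 2 : ℂ)).mul h.conj').z]
  simp

theorem eq_bs (a : B2) : a = a.1 • bs 0 + a.2 • bs 1 := by
  apply Prod.ext <;> simp [bs]

theorem polPot_zero (D : B2 → ℝ) : polPot D 0 = D 0 := by simp [polPot, hol, poly2]

theorem dz_polPot (D : B2 → ℝ) (a : B2) :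
    dz a (cf (polPot D)) 0 = dz a (cf D) 0 := by
  rw [(hd_polPot D a 0).z, hol, (hd_poly2 _ _ _ _ _ _ a 0).z]
  conv_rhs => rw [eq_bs a, dz_add_dir, dz_smul_dir, dz_smul_dir]
  simp
  ring

theorem dz_dz_polPot {S : Set B2} {D : B2 → ℝ} (hD : Sm S (cf D)) (h0 : (0 : B2) ∈ S) (a c : B2) :
    dz a (dz c (cf (polPot D))) 0 = dz a (dz c (cf D)) 0 := by
  have e : dz c (cf (polPot D)) = fun y => (1 / 2 : ℂ) *
      ((2 * dz (bs 0) (cf D) 0) * c.1 + (2 * dz (bs 1) (cf D) 0) * c.2 +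
        (dz (bs 0) (dz (bs 0) (cf D)) 0) * ((2 * c.1) * y.1) +
        (2 * dz (bs 0) (dz (bs 1) (cf D)) 0) * (c.1 * y.2 + y.1 * c.2) +
        (dz (bs 1) (dz (bs 1) (cf D)) 0) * ((2 * c.2) * y.2)) :=
    funext fun y => by rw [(hd_polPot D c y).z, hol, (hd_poly2 _ _ _ _ _ _ c y).z]
  rw [e, ((hd_const _).mul ((((((hd_const _).mul (hd_const _)).add
      ((hd_const _).mul (hd_const _))).add
    ((hd_const _).mul (((hd_const _).mul (hd_const _)).mul (hd_fst a 0)))).add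
    ((hd_const _).mul (((hd_const _).mul (hd_snd a 0)).add ((hd_fst a 0).mul (hd_const _))))).add
    ((hd_const _).mul (((hd_const _).mul (hd_const _)).mul (hd_snd a 0))))).z]
  have hlin : ∀ (c' : B2), dz a (dz c' (cf D)) 0 =
      c'.1 * dz a (dz (bs 0) (cf D)) 0 + c'.2 * dz a (dz (bs 1) (cf D)) 0 := by
    intro c'
    have e' : dz c' (cf D) =
        fun y => c'.1 * dz (bs 0) (cf D) y + c'.2 * dz (bs 1) (cf D) y := funext fun y => by
      conv_lhs => rw [eq_bs c', dz_add_dir, dz_smul_dir, dz_smul_dir]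
    rw [e', dz_add (((hD.dz' _).diffAt h0).const_mul _) (((hD.dz' _).diffAt h0).const_mul _),
      dz_const_mul _ ((hD.dz' _).diffAt h0), dz_const_mul _ ((hD.dz' _).diffAt h0)]
  rw [hlin c]
  conv_rhs => rw [eq_bs a, dz_add_dir, dz_smul_dir, dz_smul_dir, dz_add_dir, dz_smul_dir, dz_smul_dir]
  rw [dz_comm hD h0 (bs 1) (bs 0)]
  simp
  ring

end Vale.Agent.P250.Disproof
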