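import Vale.Agent.P250.Disproof.Layer

/-!
# P250 disproof: moving a point to a fixed box, and the variation of the coarse layers
-/

open Complex Filter Set
open scoped Topology ContDiff

noncomputable section

namespace Vale.Agent.P250.Disproof

theorem P_add_four (x : B2) (l : ℤ) : P (x.1, x.2 + 4 * (l : ℂ)) = P x := by
  unfold P
  congr 1
  rw [Complex.exp_eq_exp_iff_exists_int]
  exact ⟨l, by push_cast; ring⟩

theorem shift_shift (a b : ℂ) (s σ : ℝ) (v : B2) :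
    shift a s (shift b σ v) =
      shift (b + a) (σ + s - 2 * ((starRingEnd ℂ) a * b).im) v := by
  refine Prod.ext ?_ ?_
  · simp [shift]; ring
  · apply Complex.ext <;> simp [shift, normSq_apply] <;> ring

theorem shift_real (a : ℂ) (s t : ℝ) (v : B2) :
    shift a (s + t) v = ((shift a s v).1, (shift a s v).2 + (t : ℂ)) := by
  simp [shift]; ring

theorem dil_shift (t : ℝ) (a : ℂ) (s : ℝ) (v : B2) :
    dil t (shift a s v) = shift (t * a) (t ^ 2 * s) (dil t v) := by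
  refine Prod.ext ?_ ?_
  · simp [dil, shift]; ring
  · simp [dil, shift, map_mul, normSq_ofReal]; ring

theorem dil_dil (t u : ℝ) (v : B2) : dil t (dil u v) = dil (t * u) v := by
  simp [dil, mul_pow, mul_assoc]

/-- Any translation acts on `P` as a small one. -/
theorem exists_small_shift (a : ℂ) (s : ℝ) :
    ∃ (b : ℂ) (σ : ℝ), ‖b‖ ≤ 1 ∧ |σ| ≤ 2 ∧ ∀ v, P (shift a s v) = P (shift b σ v) := by
  obtain ⟨m, n, h1, h2⟩ := exists_reduce a
  set L : ℂ := (m : ℂ) + n * I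
  set t : ℝ := 2 * m * n + s - 2 * ((starRingEnd ℂ) L * a).im with ht
  set l : ℤ := round (t / 4)
  refine ⟨a + L, t - 4 * l, ?_, ?_, fun v => ?_⟩
  · exact (Complex.norm_le_abs_re_add_abs_im _).trans (by linarith)
  · have := abs_sub_round (t / 4)
    rw [show t - 4 * (l : ℝ) = 4 * (t / 4 - l) by ring, abs_mul, abs_of_pos (by norm_num : (0:ℝ) < 4)]
    linarith
  · rw [← P_shift_lattice m n (shift a s v), shift_shift,
      show s + 2 * (m : ℝ) * n - 2 * ((starRingEnd ℂ) L * a).im = t - 4 * (l : ℝ) + 4 * (l : ℝ) by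
        rw [ht]; ring,
      shift_real]
    rw [show (((4 * (l : ℝ) : ℝ)) : ℂ) = 4 * (l : ℂ) by push_cast; ring, P_add_four]

/-- Every point is the image of a point of the box under a translation fixing `P`. -/
theorem exists_normalise (Z : B2) :
    ∃ (a : ℂ) (s : ℝ) (x : B2), shift a s x = Z ∧ (∀ v, P (shift a s v) = P v) ∧
      ‖x.1‖ ≤ 1 ∧ |x.2.re| ≤ 2 ∧ rho x = rho Z := by
  obtain ⟨m, n, h1, h2⟩ := exists_reduce Z.1
  set a : ℂ := -((m : ℂ) + n * I) with ha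
  set w : ℂ := Z.2 - 2 * I * (starRingEnd ℂ) a * (Z.1 - a) - I * (normSq a : ℝ) - (2 * m * n : ℝ)
  set l : ℤ := round (w.re / 4)
  have hx : shift a (2 * m * n + 4 * l) (Z.1 - a, w - 4 * (l : ℂ)) = Z := by
    refine Prod.ext ?_ ?_
    · simp [shift]
    · simp [shift, w]; ring
  refine ⟨a, 2 * m * n + 4 * l, (Z.1 - a, w - 4 * (l : ℂ)), hx, fun v => ?_, ?_, ?_, ?_⟩
  · rw [shift_real, show (((4 * (l : ℝ) : ℝ)) : ℂ) = 4 * (l : ℂ) by push_cast; ring, P_add_four]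
    have := P_shift_lattice (-m) (-n) v
    push_cast at this
    rw [show a = -(m : ℂ) + -(n : ℂ) * I by rw [ha]; ring]
    convert this using 3
    ring
  · rw [show (Z.1 - a, w - 4 * (l : ℂ)).1 = Z.1 + ((m : ℂ) + n * I) by simp [ha]; ring]
    exact (Complex.norm_le_abs_re_add_abs_im _).trans (by linarith)
  · have := abs_sub_round (w.re / 4)
    rw [show (Z.1 - a, w - 4 * (l : ℂ)).2.re = 4 * (w.re / 4 - (l : ℝ)) by simp; ring, abs_mul,
      abs_of_pos (by norm_num : (0:ℝ) < 4)]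
    linarith
  · conv_rhs => rw [← hx, rho_shift]

/-- The box in which one step of the recursion takes place. -/
def bigBox : Set B2 := {y | ‖y.1‖ ≤ 3 ∧ ‖y.2‖ ≤ 20}

theorem bigBox_norm {y : B2} (hy : y ∈ bigBox) : ‖y‖ ≤ 20 :=
  max_le (hy.1.trans (by norm_num)) hy.2

theorem exists_lip :
    ∃ L : ℝ, 0 ≤ L ∧ ∀ (b : ℂ) (σ : ℝ) (v v' : B2), ‖b‖ ≤ 1 → |σ| ≤ 2 → ‖v‖ ≤ 20 → ‖v'‖ ≤ 20 →
      ‖P (shift b σ v) - P (shift b σ v')‖ ≤ L * ‖v - v'‖ := by
  have hθ : ContDiff ℂ 1 theta := differentiable_theta.contDiff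
  have hP : ContDiff ℂ 1 P := by unfold P; fun_prop
  have hC : ContDiff ℝ 1 P := hP.restrict_scalars ℝ
  obtain ⟨K, hK⟩ := LocallyLipschitzOn.exists_lipschitzOnWith_of_compact
    (isCompact_closedBall (0 : B2) 80) hC.locallyLipschitz.locallyLipschitzOn
  refine ⟨K * 3, by positivity, fun b σ v v' hb hσ hv hv' => ?_⟩
  have hmem : ∀ u : B2, ‖u‖ ≤ 20 → shift b σ u ∈ Metric.closedBall (0 : B2) 80 := fun u hu => by
    rw [mem_closedBall_zero_iff]
    have h1 : ‖u.1‖ ≤ 20 := (norm_fst_le u).trans hu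
    have h2 : ‖u.2‖ ≤ 20 := (norm_snd_le u).trans hu
    refine max_le ?_ ?_
    · calc ‖u.1 + b‖ ≤ ‖u.1‖ + ‖b‖ := norm_add_le _ _
        _ ≤ 80 := by linarith
    · have e : ‖(normSq b : ℝ)‖ ≤ 1 := by
        rw [Real.norm_eq_abs, abs_of_nonneg (normSq_nonneg _), normSq_eq_norm_sq]
        nlinarith [norm_nonneg b]
      calc ‖u.2 + 2 * I * (starRingEnd ℂ) b * u.1 + I * (normSq b : ℝ) + σ‖
          ≤ ‖u.2‖ + ‖2 * I * (starRingEnd ℂ) b * u.1‖ + ‖I * ((normSq b : ℝ) : ℂ)‖ + ‖(σ : ℂ)‖ :=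
            norm_add₄_le
        _ ≤ 80 := by
          simp only [norm_mul, norm_ofNat, Complex.norm_I, RCLike.norm_conj, Complex.norm_real,
            Real.norm_eq_abs] at e ⊢
          nlinarith [norm_nonneg b, norm_nonneg u.1]
  have h := hK.norm_sub_le (hmem v hv) (hmem v' hv')
  refine h.trans ?_
  rw [mul_assoc]
  gcongr
  have e1 : ‖(v - v').1‖ ≤ ‖v - v'‖ := norm_fst_le _
  have e2 : ‖(v - v').2‖ ≤ ‖v - v'‖ := norm_snd_le _
  refine max_le ?_ ?_
  · calc ‖(shift b σ v - shift b σ v').1‖ = ‖(v - v').1‖ := by simp [shift]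
      _ ≤ 3 * ‖v - v'‖ := by linarith [norm_nonneg (v - v')]
  · calc ‖(shift b σ v - shift b σ v').2‖ = ‖(v - v').2 + 2 * I * (starRingEnd ℂ) b * (v - v').1‖ := by
          congr 1; simp [shift]; ring
      _ ≤ ‖(v - v').2‖ + 2 * ‖b‖ * ‖(v - v').1‖ := by
          refine (norm_add_le _ _).trans (le_of_eq ?_)
          simp [RCLike.norm_conj]
      _ ≤ 3 * ‖v - v'‖ := by nlinarith [norm_nonneg b, norm_nonneg (v - v').1]

variable {h q : ℝ}

/-- A layer `t` times coarser varies little over the box. -/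
theorem layer_variation {L : ℝ}
    (hL : ∀ (b : ℂ) (σ : ℝ) (v v' : B2), ‖b‖ ≤ 1 → |σ| ≤ 2 → ‖v‖ ≤ 20 → ‖v'‖ ≤ 20 →
      ‖P (shift b σ v) - P (shift b σ v')‖ ≤ L * ‖v - v'‖) (hL0 : 0 ≤ L)
    (hh : 0 < h) {t : ℝ} (ht0 : 0 ≤ t) (ht1 : t ≤ 1) (a : ℂ) (s : ℝ) {y y' : B2}
    (hy : y ∈ bigBox) (hy' : y' ∈ bigBox) :
    |dip h (P (dil t (shift a s y))) - dip h (P (dil t (shift a s y')))| ≤ 80 * L / h * t := by
  obtain ⟨b, σ, hb, hσ, hP⟩ := exists_small_shift (t * a) (t ^ 2 * s)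
  rw [dil_shift, dil_shift, hP, hP]
  have hsmall : ∀ u : B2, ‖dil t u‖ ≤ t * ‖u‖ := fun u => by
    refine max_le ?_ ?_
    · simp only [dil, norm_mul, Complex.norm_real, Real.norm_eq_abs, abs_of_nonneg ht0]
      exact mul_le_mul_of_nonneg_left (norm_fst_le u) ht0
    · simp only [dil, norm_mul, norm_pow, Complex.norm_real, Real.norm_eq_abs, abs_of_nonneg ht0]
      exact mul_le_mul (by nlinarith) (norm_snd_le u) (norm_nonneg _) ht0
  have hu : ∀ u ∈ bigBox, ‖dil t u‖ ≤ 20 := fun u hu =>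
    (hsmall u).trans (by nlinarith [bigBox_norm hu, norm_nonneg u])
  have hd : ‖dil t y - dil t y'‖ ≤ t * 40 := by
    rw [show dil t y - dil t y' = dil t (y - y') by simp [dil, mul_sub]]
    refine (hsmall _).trans (mul_le_mul_of_nonneg_left ?_ ht0)
    linarith [norm_sub_le y y', bigBox_norm hy, bigBox_norm hy']
  refine (abs_dip_sub_le hh _ _).trans ?_
  calc 2 / h * ‖P (shift b σ (dil t y)) - P (shift b σ (dil t y'))‖
      ≤ 2 / h * (L * (t * 40)) := by
        gcongr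
        exact (hL b σ _ _ hb hσ (hu y hy) (hu y' hy')).trans (mul_le_mul_of_nonneg_left hd hL0)
    _ = 80 * L / h * t := by ring

end Vale.Agent.P250.Disproof
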