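import Mathlib
import Vale.Agent.P250.Disproof.ChartJet
import Vale.Agent.P250.Disproof.Moves

/-!
P250 disproof: the holomorphic chart of the disc bundle at a point, in which the potential is the
model potential up to a pluriharmonic function.
-/

open scoped Topology ContDiff ComplexConjugate
open Complex Filter Set

noncomputable section

namespace Vale.Agent.P250.Disproof

open Model

variable {p : Params} {x ξ : B2}

/-! ### The chart of the base -/

theorem norm_snd_lt (hξ : ξ ∈ ball2) : ‖ξ.2‖ < 1 := by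
  have h : normSq ξ.1 + normSq ξ.2 < 1 := hξ
  have h1 := normSq_nonneg ξ.1
  rw [Complex.normSq_eq_norm_sq ξ.2] at h
  nlinarith [norm_nonneg ξ.2]

theorem re_one_add_pos (hξ : ξ ∈ ball2) : 0 < (1 + ξ.2).re := by
  have := (abs_le.1 (Complex.abs_re_le_norm ξ.2)).1
  have := norm_snd_lt hξ
  simp only [add_re, one_re]
  linarith

theorem one_add_ne (hξ : ξ ∈ ball2) : (1 : ℂ) + ξ.2 ≠ 0 := fun h => by
  have := re_one_add_pos hξ
  rw [h] at this
  simp at this

theorem rho_cayley (hξ : ξ ∈ ball2) :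
    rho (cayley ξ) = (1 - (normSq ξ.1 + normSq ξ.2)) / normSq (1 + ξ.2) := by
  have hne : normSq (1 + ξ.2) ≠ 0 := by
    rw [Ne, normSq_eq_zero]; exact one_add_ne hξ
  simp only [rho, cayley, normSq_div, Complex.div_im]
  simp only [mul_re, mul_im, sub_re, sub_im, add_re, add_im, one_re, one_im, I_re, I_im,
    normSq_apply] at hne ⊢
  field_simp
  ring

theorem rho_nchart (hx : x ∈ siegel) (hξ : ξ ∈ ball2) : rho (nchart x ξ) =
    rho x * ((1 - (normSq ξ.1 + normSq ξ.2)) / normSq (1 + ξ.2)) := by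
  rw [nchart, rho_shift, rho_dil, rho_cayley hξ, Real.sq_sqrt (le_of_lt hx)]

theorem nchart_mem (hx : x ∈ siegel) (hξ : ξ ∈ ball2) : nchart x ξ ∈ siegel := by
  show 0 < rho (nchart x ξ)
  rw [rho_nchart hx hξ]
  have h : normSq ξ.1 + normSq ξ.2 < 1 := hξ
  have hx' : 0 < rho x := hx
  exact mul_pos hx' (div_pos (by linarith) (normSq_pos.2 (one_add_ne hξ)))

theorem nchart_zero (hx : x ∈ siegel) : nchart x 0 = x := by
  have h := (eventually_nchart_ninv hx).eq_of_nhds
  rwa [ninv_self hx] at h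

theorem contDiffAt_nchart (hξ : ξ ∈ ball2) {n : WithTop ℕ∞} : ContDiffAt ℂ n (nchart x) ξ := by
  have hne := one_add_ne hξ
  have hc : ContDiffAt ℂ n cayley ξ := by
    unfold cayley
    exact (contDiffAt_fst.div (contDiffAt_const.add contDiffAt_snd) hne).prodMk
      ((contDiffAt_const.mul (contDiffAt_const.sub contDiffAt_snd)).div
        (contDiffAt_const.add contDiffAt_snd) hne)
  have hd : ContDiff ℂ n (fun v => shift x.1 x.2.re (dil (Real.sqrt (rho x)) v)) := by
    unfold dil shift; fun_prop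
  exact hd.contDiffAt.comp ξ hc

theorem I_add_cayley (hξ : ξ ∈ ball2) : I + (cayley ξ).2 = 2 * I / (1 + ξ.2) := by
  have := one_add_ne hξ
  simp only [cayley]
  field_simp
  ring

theorem shift_neg_nchart (hx : x ∈ siegel) :
    dil (Real.sqrt (rho x))⁻¹ (shift (-x.1) (-x.2.re) (nchart x ξ)) = cayley ξ := by
  have hs : (Real.sqrt (rho x)) ≠ 0 := (Real.sqrt_pos.2 (hx : 0 < rho x)).ne'
  have e := shift_shift_neg (-x.1) (-x.2.re) (dil (Real.sqrt (rho x)) (cayley ξ))
  rw [neg_neg, neg_neg] at e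
  rw [nchart, e, dil_dil, inv_mul_cancel₀ hs]
  simp [dil]

theorem ninv_nchart (hx : x ∈ siegel) (hξ : ξ ∈ ball2) : ninv x (nchart x ξ) = ξ := by
  have hne := one_add_ne hξ
  rw [ninv, shift_neg_nchart hx, cayleyInv, I_add_cayley hξ]
  simp only [cayley]
  apply Prod.ext <;> field_simp <;> ring

/-! ### The weight in the chart -/

theorem contDiffOn_dipsAt {h q : ℝ} (hJ : Jets h q) (hx : x ∈ siegel) :
    ContDiffOn ℝ ∞ (dipsAt h q x) ball2 := fun _ hξ =>
  ((contDiffAt_dips hJ (nchart_mem hx hξ)).comp _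
    ((contDiffAt_nchart hξ).restrict_scalars ℝ)).contDiffWithinAt

/-- The dips without their pluriharmonic two-jet. -/
def redDips (p : Params) (x ξ : B2) : ℝ :=
  1 * dipsAt p.h p.q x ξ + (-1) * polPot (dipsAt p.h p.q x) ξ

/-- The weight in the chart, without pluriharmonic part. -/
def wB (p : Params) (x ξ : B2) : ℝ := p.K * p.eps * ballPot ξ + p.K * redDips p x ξ

/-- The weight in the chart as a function on `ℂ³`. -/
def wE (p : Params) (x : B2) (y : E3) : ℝ := wB p x (base y)

/-- The holomorphic gauge. -/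
def gauge (p : Params) (x ξ : B2) : ℂ :=
  p.K * (hol (dipsAt p.h p.q x) ξ + p.eps * (-Real.log (rho x) + 2 * Complex.log (1 + ξ.2)))

/-- The holomorphic correction of the potential. -/
def corr (p : Params) (x ξ : B2) : ℂ :=
  p.C * (-Real.log (rho x) + 2 * Complex.log (1 + ξ.2))

theorem log_rho_nchart (hx : x ∈ siegel) (hξ : ξ ∈ ball2) :
    Real.log (rho (nchart x ξ)) = Real.log (rho x) - ballPot ξ - 2 * (Complex.log (1 + ξ.2)).re := by
  have h : normSq ξ.1 + normSq ξ.2 < 1 := hξ
  have h1 : rho x ≠ 0 := ne_of_gt hx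
  have h2 : normSq (1 + ξ.2) ≠ 0 := fun h0 => one_add_ne hξ (normSq_eq_zero.1 h0)
  have h3 : (1 - (normSq ξ.1 + normSq ξ.2)) ≠ 0 := by linarith
  rw [rho_nchart hx hξ, Real.log_mul h1 (div_ne_zero h3 h2), Real.log_div h3 h2, ballPot,
    Complex.normSq_eq_norm_sq (1 + ξ.2), Real.log_pow, Complex.log_re]
  push_cast
  ring

theorem weight_nchart (hx : x ∈ siegel) (hξ : ξ ∈ ball2) :
    weight p (nchart x ξ) = wB p x ξ + (gauge p x ξ).re := by
  simp only [weight, log_rho_nchart hx hξ, wB, redDips, gauge, polPot, dipsAt]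
  simp [mul_re]
  ring

/-- The chart of the disc bundle at the points over `x`. -/
def phi (p : Params) (x : B2) (y : E3) : E3 :=
  ![(nchart x (base y)).1, (nchart x (base y)).2, y 2 * cexp (-gauge p x (base y) / 2)]

/-- Its inverse. -/
def psi (p : Params) (x : B2) (z : E3) : E3 :=
  ![(ninv x (base z)).1, (ninv x (base z)).2, z 2 * cexp (gauge p x (ninv x (base z)) / 2)]

/-- The domain of the chart. -/
def chartDom (p : Params) (x : B2) : Set E3 :=
  {y | base y ∈ ball2 ∧ normSq (y 2) * Real.exp (wE p x y) < 1}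

theorem base_phi (y : E3) : base (phi p x y) = nchart x (base y) := rfl

theorem fib_phi (hx : x ∈ siegel) {y : E3} (hy : base y ∈ ball2) :
    fib p (phi p x y) = normSq (y 2) * Real.exp (wE p x y) := by
  have e2 : phi p x y 2 = y 2 * cexp (-gauge p x (base y) / 2) := rfl
  have e3 : normSq (cexp (-gauge p x (base y) / 2)) = Real.exp (-(gauge p x (base y)).re) := by
    rw [Complex.normSq_eq_norm_sq, Complex.norm_exp, ← Real.exp_nat_mul]
    congr 1
    simp [Complex.div_re, Complex.normSq_ofNat]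
    ring
  rw [fib, base_phi, weight_nchart hx hy, e2, map_mul, e3, mul_assoc, ← Real.exp_add, wE]
  congr 2
  ring

theorem phi_mem (hx : x ∈ siegel) {y : E3} (hy : y ∈ chartDom p x) : phi p x y ∈ dom p :=
  ⟨nchart_mem hx hy.1, by rw [fib_phi hx hy.1]; exact hy.2⟩

theorem contDiff_base {n : WithTop ℕ∞} : ContDiff ℂ n base :=
  (contDiff_apply ℂ ℂ 0).prodMk (contDiff_apply ℂ ℂ 1)

theorem contDiffAt_gauge (hξ : ξ ∈ ball2) {n : WithTop ℕ∞} : ContDiffAt ℂ n (gauge p x) ξ := by
  have h1 : ContDiff ℂ n (hol (dipsAt p.h p.q x)) := by unfold hol poly2; fun_prop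
  have h2 : ContDiffAt ℂ n (fun v : B2 => Complex.log (1 + v.2)) ξ :=
    (Complex.contDiffAt_log (Or.inl (re_one_add_pos hξ))).comp ξ (f := fun v : B2 => 1 + v.2)
      (contDiffAt_const.add contDiffAt_snd)
  exact contDiffAt_const.mul (h1.contDiffAt.add (contDiffAt_const.mul
    (contDiffAt_const.add (contDiffAt_const.mul h2))))

theorem contDiffAt_phi {y : E3} (hy : base y ∈ ball2) {n : WithTop ℕ∞} :
    ContDiffAt ℂ n (phi p x) y := by
  have h1 : ContDiffAt ℂ n (fun z => nchart x (base z)) y :=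
    (contDiffAt_nchart hy).comp y contDiff_base.contDiffAt
  have h2 : ContDiffAt ℂ n (fun z => gauge p x (base z)) y :=
    (contDiffAt_gauge hy).comp y contDiff_base.contDiffAt
  refine contDiffAt_pi.2 fun i => ?_
  fin_cases i
  · exact h1.fst
  · exact h1.snd
  · exact (contDiff_apply ℂ ℂ (2 : Fin 3)).contDiffAt.mul (h2.neg.div_const 2).cexp

theorem psi_phi (hx : x ∈ siegel) {y : E3} (hy : base y ∈ ball2) : psi p x (phi p x y) = y := by
  funext i
  simp only [psi, base_phi, ninv_nchart hx hy]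
  fin_cases i
  · rfl
  · rfl
  · show y 2 * cexp (-gauge p x (base y) / 2) * cexp (gauge p x (base y) / 2) = y 2
    rw [mul_assoc, ← Complex.exp_add, neg_div, neg_add_cancel, Complex.exp_zero, mul_one]

theorem differentiableAt_psi (hx : x ∈ siegel) {y : E3} (hy : base y ∈ ball2) :
    DifferentiableAt ℂ (psi p x) (phi p x y) := by
  have hne : I + (cayley (base y)).2 ≠ 0 := by
    rw [I_add_cayley hy]
    exact div_ne_zero (by simp) (one_add_ne hy)
  have hd : DifferentiableAt ℂ
      (fun v => dil (Real.sqrt (rho x))⁻¹ (shift (-x.1) (-x.2.re) v)) (nchart x (base y)) := by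
    unfold dil shift; fun_prop
  have hc : DifferentiableAt ℂ cayleyInv (cayley (base y)) := by
    unfold cayleyInv
    fun_prop (disch := exact hne)
  have hi : DifferentiableAt ℂ (ninv x) (nchart x (base y)) :=
    DifferentiableAt.comp (g := cayleyInv) (nchart x (base y))
      (by rw [shift_neg_nchart hx]; exact hc) hd
  have h1 : DifferentiableAt ℂ (fun z => ninv x (base z)) (phi p x y) :=
    hi.comp (g := ninv x) (phi p x y) (contDiff_base (n := 1)).contDiffAt.differentiableAt_one
  have h2 : DifferentiableAt ℂ (fun z => gauge p x (ninv x (base z))) (phi p x y) :=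
    DifferentiableAt.comp (g := gauge p x) (phi p x y)
      (by rw [base_phi, ninv_nchart hx hy]
          exact (contDiffAt_gauge (n := 1) hy).differentiableAt_one) h1
  refine differentiableAt_pi.2 fun i => ?_
  fin_cases i
  · exact h1.fst
  · exact h1.snd
  · exact (differentiableAt_apply (2 : Fin 3) (phi p x y)).mul (DifferentiableAt.cexp
      (f := fun z => gauge p x (ninv x (base z)) / 2) (by fun_prop))

theorem isOpen_base_ball : IsOpen {y : E3 | base y ∈ ball2} :=
  isOpen_ball2.preimage (contDiff_base (n := 0)).continuous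

theorem contDiffOn_wB (hJ : Jets p.h p.q) (hx : x ∈ siegel) : ContDiffOn ℝ ∞ (wB p x) ball2 :=
  (contDiffOn_const.mul contDiffOn_ballPot).add (contDiffOn_const.mul
    ((contDiffOn_const.mul (contDiffOn_dipsAt hJ hx)).add
      (contDiffOn_const.mul (contDiff_polPot _).contDiffOn)))

theorem contDiffAt_wE (hJ : Jets p.h p.q) (hx : x ∈ siegel) {y : E3} (hy : base y ∈ ball2) :
    ContDiffAt ℝ ∞ (wE p x) y :=
  ((contDiffOn_wB hJ hx).contDiffAt (isOpen_ball2.mem_nhds hy)).comp y
    (contDiff_base.restrict_scalars ℝ).contDiffAt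

theorem isOpen_chartDom (hJ : Jets p.h p.q) (hx : x ∈ siegel) : IsOpen (chartDom p x) := by
  have hc : ContinuousOn (fun y : E3 => normSq (y 2) * Real.exp (wE p x y))
      {y | base y ∈ ball2} := fun y hy =>
    (((continuous_normSq.comp (continuous_apply 2)).continuousAt).mul
      (Real.continuous_exp.continuousAt.comp (contDiffAt_wE hJ hx hy).continuousAt)).continuousWithinAt
  exact hc.isOpen_inter_preimage isOpen_base_ball isOpen_Iio

theorem mdom (hJ : Jets p.h p.q) (hx : x ∈ siegel) : MDom (wE p x) (chartDom p x) :=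
  ⟨isOpen_chartDom hJ hx, fun _ hy => (contDiffAt_wE hJ hx hy.1).contDiffWithinAt,
    fun _ hy => hy.1, fun _ hy => hy.2⟩

theorem changeOn (hJ : Jets p.h p.q) (hx : x ∈ siegel) :
    ChangeOn (phi p x) (chartDom p x) (dom p) := by
  refine ⟨isOpen_chartDom hJ hx, fun y hy =>
    ((contDiffAt_phi hy.1).restrict_scalars ℝ).contDiffWithinAt, fun y hy => phi_mem hx hy,
    fun y hy => ?_⟩
  have h1 : HasFDerivAt (phi p x) (fderiv ℝ (phi p x) y) y :=
    (((contDiffAt_phi hy.1).restrict_scalars ℝ).differentiableAt_one).hasFDerivAt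
  have h2 : HasFDerivAt (psi p x) (fderiv ℝ (psi p x) (phi p x y)) (phi p x y) :=
    ((differentiableAt_psi hx hy.1).restrictScalars ℝ).hasFDerivAt
  have h3 : HasFDerivAt (psi p x ∘ phi p x) (ContinuousLinearMap.id ℝ E3) y :=
    (hasFDerivAt_id y).congr_of_eventuallyEq
      (eventuallyEq_of_mem ((isOpen_chartDom hJ hx).mem_nhds hy) fun z hz => psi_phi hx hz.1)
  have e := (h2.comp y h1).unique h3
  have hinj : Function.Injective (fderiv ℝ (phi p x) y) := fun a b hab => by
    have ha := DFunLike.congr_fun e a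
    have hb := DFunLike.congr_fun e b
    simp only [ContinuousLinearMap.comp_apply, ContinuousLinearMap.id_apply] at ha hb
    rw [← ha, ← hb, hab]
  exact ⟨hinj, LinearMap.injective_iff_surjective.1
    (show Function.Injective (fderiv ℝ (phi p x) y).toLinearMap from hinj)⟩

theorem pot_phi (hx : x ∈ siegel) {y : E3} (hy : y ∈ chartDom p x) :
    pot p (phi p x y) = mpot p.C (wE p x) y + (corr p x (base y)).re := by
  simp only [pot, fib_phi hx hy.1, base_phi, log_rho_nchart hx hy.1]
  simp only [mpot, corr, ballPot, base]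
  simp [mul_re]
  ring

theorem levi_re (H : E3 → ℂ) {y : E3} (hH : ContDiffAt ℂ 2 H y) (u : E3) :
    levi (fun z => (H z).re) y u = 0 := by
  have h := levi_comp (φ := fun w : ℂ => w.re) (f := H) reCLM.contDiff.contDiffAt hH u
  rw [Function.comp_def] at h
  rw [h, levi]
  have : ∀ a b : ℂ, hs (⇑reCLM) (H y) a b = 0 := fun a b => hs_clm _ _ _ _
  show (hs (⇑reCLM) (H y) _ _ + hs (⇑reCLM) (H y) _ _) / 4 = 0
  rw [this, this]
  norm_num

theorem ddc_self (f : E3 → ℝ) (y u : E3) : ddc f y u u = levi f y u := by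
  have hm : mulI u = I • u := rfl
  simp [ddc, levi, hs, hm]
  ring

theorem metric_phi_diag (hJ : Jets p.h p.q) (hx : x ∈ siegel) {y : E3} (hy : y ∈ chartDom p x)
    (u : E3) : pull (phi p x) (metric p) y u u = ddc (mpot p.C (wE p x)) y u u := by
  have hU := isOpen_chartDom hJ hx
  have two : ∀ {f : E3 → ℝ} {z : E3}, ContDiffAt ℝ ∞ f z → ContDiffAt ℝ 2 f z := fun h =>
    h.of_le (WithTop.coe_le_coe.2 le_top)
  have hm : ContDiffAt ℝ 2 (mpot p.C (wE p x)) y :=
    two ((contDiffOn_mpot (mdom hJ hx) p.C).contDiffAt (hU.mem_nhds hy))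
  have h2 : ContDiffAt ℂ 2 (fun v : B2 => Complex.log (1 + v.2)) (base y) :=
    (Complex.contDiffAt_log (Or.inl (re_one_add_pos hy.1))).comp _ (f := fun v : B2 => 1 + v.2)
      (contDiffAt_const.add contDiffAt_snd)
  have hcorr : ContDiffAt ℂ 2 (fun z => corr p x (base z)) y :=
    (contDiffAt_const.mul (contDiffAt_const.add (contDiffAt_const.mul h2))).comp y
      (g := corr p x) contDiff_base.contDiffAt
  have hre : ContDiffAt ℝ 2 (fun z => (corr p x (base z)).re) y :=
    reCLM.contDiff.contDiffAt.comp y (f := fun z => corr p x (base z)) (hcorr.restrict_scalars ℝ)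
  have hphi : ContDiffAt ℂ 2 (phi p x) y := contDiffAt_phi hy.1
  have hreal : fderiv ℝ (phi p x) y u = fderiv ℂ (phi p x) y u := by
    rw [((hphi.differentiableAt (by norm_num)).hasFDerivAt.restrictScalars ℝ).fderiv]
    rfl
  have e : (pot p ∘ phi p x) =ᶠ[𝓝 y]
      fun z => mpot p.C (wE p x) z + (corr p x (base z)).re :=
    eventuallyEq_of_mem (hU.mem_nhds hy) fun z hz => pot_phi hx hz
  have hl := levi_comp (two (contDiffAt_pot hJ (phi_mem hx hy))) hphi u
  rw [levi_congr e, levi_add hm hre, levi_re _ hcorr, add_zero] at hl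
  rw [pull_apply, metric_apply_self, ddc_self, hreal, hl]

theorem pull_symm (hJ : Jets p.h p.q) (hx : x ∈ siegel) {y : E3} (hy : y ∈ chartDom p x)
    (u v : E3) : pull (phi p x) (metric p) y u v = pull (phi p x) (metric p) y v u := by
  have hS := isOpen_dom hJ
  have hpot : ContDiffOn ℝ ∞ (pot p) (dom p) := fun z hz => (contDiffAt_pot hJ hz).contDiffWithinAt
  have hm := phi_mem hx hy
  rw [pull_apply, pull_apply, metric_eq_ddc, ddc_apply hS hpot hm, ddc_apply hS hpot hm,
    ← conj_hh (sm_cf hS hpot) hm, conj_re]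

theorem ddc_symm {f : E3 → ℝ} {S : Set E3} {y : E3} (hS : IsOpen S) (hf : ContDiffOn ℝ ∞ f S)
    (hy : y ∈ S) (u v : E3) : ddc f y u v = ddc f y v u := by
  rw [ddc_apply hS hf hy, ddc_apply hS hf hy, ← conj_hh (sm_cf hS hf) hy, conj_re]

theorem bilin_ext {B₁ B₂ : E3 →L[ℝ] E3 →L[ℝ] ℝ} (h : ∀ u, B₁ u u = B₂ u u)
    (h1 : ∀ u v, B₁ u v = B₁ v u) (h2 : ∀ u v, B₂ u v = B₂ v u) : B₁ = B₂ := by
  refine ContinuousLinearMap.ext fun u => ContinuousLinearMap.ext fun v => ?_
  have e := h (u + v)
  simp only [map_add, add_apply] at e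
  linarith [h u, h v, h1 u v, h2 u v]

/-- The metric in the chart is that of the model. -/
theorem pull_metric (hJ : Jets p.h p.q) (hx : x ∈ siegel) {y : E3} (hy : y ∈ chartDom p x) :
    pull (phi p x) (metric p) y = ddc (mpot p.C (wE p x)) y :=
  bilin_ext (metric_phi_diag hJ hx hy) (pull_symm hJ hx hy)
    (ddc_symm (isOpen_chartDom hJ hx) (contDiffOn_mpot (mdom hJ hx) p.C) hy)

end Vale.Agent.P250.Disproof
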