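import Vale.Agent.P250.Disproof.Defs
import Vale.Agent.P250.Disproof.Lower

/-!
# P250 disproof: the metric is complete
-/

open Filter Complex Set
open scoped Topology ContDiff

noncomputable section

namespace Vale.Agent.P250.Disproof

theorem abs_le_mul_sqrt {x M A : ℝ} (hM : 0 ≤ M) (hA : 0 ≤ A) (h : x ^ 2 ≤ M ^ 2 * A) :
    |x| ≤ M * Real.sqrt A := by
  refine abs_le_of_sq_le_sq ?_ (mul_nonneg hM (Real.sqrt_nonneg _))
  rw [mul_pow, Real.sq_sqrt hA]; exact h

theorem norm_le_mul_sqrt {z : ℂ} {M A : ℝ} (hM : 0 ≤ M) (hA : 0 ≤ A)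
    (h : normSq z ≤ M ^ 2 * A) : ‖z‖ ≤ M * Real.sqrt A := by
  rw [← abs_norm]
  exact abs_le_mul_sqrt hM hA (by rwa [← normSq_eq_norm_sq])

/-- A curve whose speed is dominated by an integrable nonnegative function has a limit. -/
theorem exists_limit {F : Type*} [NormedAddCommGroup F] [NormedSpace ℝ F] [CompleteSpace F]
    {γ γ' : ℝ → F} {σ : ℝ → ℝ} {a b M L : ℝ} (hab : a < b) (hM : 0 ≤ M)
    (hγ : ∀ t ∈ Ico a b, HasDerivWithinAt γ (γ' t) (Ico a b) t)
    (hσ : ContinuousOn σ (Ico a b)) (hσ0 : ∀ t ∈ Ico a b, 0 ≤ σ t)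
    (hd : ∀ t ∈ Ico a b, ‖γ' t‖ ≤ M * σ t)
    (hL : ∀ t ∈ Ico a b, ∫ s in a..t, σ s ≤ L) :
    ∃ y, Tendsto γ (𝓝[<] b) (𝓝 y) := by
  set Φ : ℝ → ℝ := fun t => ∫ s in a..t, σ s
  have key : ∀ s t, a ≤ s → s ≤ t → t < b → ‖γ t - γ s‖ ≤ M * (Φ t - Φ s) ∧ Φ s ≤ Φ t := by
    intro s t has hst htb
    have hsub : Icc a t ⊆ Ico a b := Icc_subset_Ico_right htb
    set σe : ℝ → ℝ := IccExtend (has.trans hst) ((Icc a t).domRestrict σ)
    have hσe : Continuous σe := (continuousOn_iff_continuous_domRestrict.1 (hσ.mono hsub)).Icc_extend'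
    have heq : ∀ x ∈ Icc a t, σe x = σ x := fun x hx => IccExtend_of_mem _ _ hx
    have hΦ : ∀ x ∈ Icc a t, Φ x = ∫ r in a..x, σe r := fun x hx => by
      refine intervalIntegral.integral_congr fun r hr => ?_
      rw [uIcc_of_le hx.1] at hr
      exact (heq r ⟨hr.1, hr.2.trans hx.2⟩).symm
    have hder : ∀ x, HasDerivAt (fun x => ∫ r in a..x, σe r) (σe x) x := fun x =>
      (hσe.integral_hasStrictDerivAt a x).hasDerivAt
    have hmono : MonotoneOn (fun x => ∫ r in a..x, σe r) (Icc a t) :=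
      monotoneOn_of_hasDerivWithinAt_nonneg (f' := σe) (convex_Icc a t)
        (fun x _ => (hder x).continuousAt.continuousWithinAt)
        (fun x _ => (hder x).hasDerivWithinAt)
        (fun x hx => by
          rw [heq x (interior_subset hx)]; exact hσ0 x (hsub (interior_subset hx)))
    refine ⟨?_, ?_⟩
    · have := image_norm_le_of_norm_deriv_right_le_deriv_boundary'
        (f := fun x => γ x - γ s) (f' := γ') (a := s) (b := t)
        (B := fun x => M * ((∫ r in a..x, σe r) - ∫ r in a..s, σe r))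
        (B' := fun x => M * σe x) ?_ ?_ (by simp) ?_ ?_ ?_ (right_mem_Icc.2 hst)
      · rw [hΦ t (right_mem_Icc.2 (has.trans hst)), hΦ s ⟨has, hst⟩]; exact this
      · exact fun x hx => ((hγ x (hsub ⟨has.trans hx.1, hx.2⟩)).continuousWithinAt.mono
          fun r hr => hsub ⟨has.trans hr.1, hr.2⟩).sub continuousWithinAt_const
      · intro x hx
        refine ((hγ x ⟨has.trans hx.1, hx.2.trans htb⟩).mono_of_mem_nhdsWithin ?_).sub_const _
        exact mem_of_superset (Ico_mem_nhdsGE (hx.2.trans htb))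
          fun r hr => ⟨(has.trans hx.1).trans hr.1, hr.2⟩
      · exact fun x _ => ((hder x).continuousAt.sub continuousAt_const).const_mul M
          |>.continuousWithinAt
      · exact fun x _ => (((hder x).sub_const _).const_mul M).hasDerivWithinAt
      · intro x hx
        rw [heq x ⟨has.trans hx.1, hx.2.le⟩]
        exact hd x ⟨has.trans hx.1, hx.2.trans htb⟩
    · rw [hΦ t (right_mem_Icc.2 (has.trans hst)), hΦ s ⟨has, hst⟩]
      exact hmono ⟨has, hst⟩ (right_mem_Icc.2 (has.trans hst)) hst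
  set S := sSup (Φ '' Ico a b)
  have hbdd : BddAbove (Φ '' Ico a b) := ⟨L, forall_mem_image.2 hL⟩
  have hne : (Φ '' Ico a b).Nonempty := ⟨Φ a, mem_image_of_mem Φ ⟨le_rfl, hab⟩⟩
  refine cauchy_map_iff_exists_tendsto.1 (Metric.cauchy_iff.2 ⟨inferInstance, fun ε hε => ?_⟩)
  obtain ⟨_, ⟨t0, ht0, rfl⟩, ht0'⟩ :=
    exists_lt_of_lt_csSup hne (show S - ε / (M + 1) < S by
      have : (0 : ℝ) < ε / (M + 1) := by positivity
      linarith)
  refine ⟨γ '' Ioo t0 b, image_mem_map (Ioo_mem_nhdsLT ht0.2), ?_⟩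
  rintro _ ⟨x, hx, rfl⟩ _ ⟨y, hy, rfl⟩
  have main : ∀ x ∈ Ioo t0 b, ∀ y ∈ Ioo t0 b, x ≤ y → dist (γ x) (γ y) < ε := by
    intro x hx y hy hxy
    have hxa : a ≤ x := ht0.1.trans hx.1.le
    obtain ⟨k1, -⟩ := key x y hxa hxy hy.2
    obtain ⟨-, k2⟩ := key t0 x ht0.1 hx.1.le hx.2
    have k3 : Φ y ≤ S := le_csSup hbdd (mem_image_of_mem Φ ⟨hxa.trans hxy, hy.2⟩)
    rw [dist_eq_norm, norm_sub_rev]
    have h4 : Φ y - Φ x ≤ ε / (M + 1) := by linarith
    calc ‖γ y - γ x‖ ≤ M * (ε / (M + 1)) := k1.trans (mul_le_mul_of_nonneg_left h4 hM)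
      _ < ε := by
        rw [← mul_div_assoc, div_lt_iff₀ (by positivity)]
        nlinarith
  rcases le_total x y with h | h
  · exact main x hx y hy h
  · rw [dist_comm]; exact main y hy x hx h

variable {p : Params}

theorem metric_nonneg (hJ : Jets p.h p.q) {y : E3} (hy : y ∈ dom p) (u : E3) :
    0 ≤ metric p y u u :=
  le_trans (mul_nonneg p.C_pos.le (div_nonneg (normSq_nonneg _) (le_of_lt hy.1)))
    (metric_ge hJ hy u).1

theorem continuousAt_hess (hJ : Jets p.h p.q) {y : E3} (hy : y ∈ dom p) :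
    ContinuousAt (fun y => fderiv ℝ (fderiv ℝ (pot p)) y) y :=
  (((contDiffAt_pot hJ hy).fderiv_right (m := 1) (WithTop.coe_le_coe.2 le_top)).fderiv_right
    (m := 0) (by norm_num)).continuousAt

theorem continuousOn_metric_curve (hJ : Jets p.h p.q) {c u : ℝ → E3} {s : Set ℝ}
    (hc : ContinuousOn c s) (hcs : MapsTo c s (dom p)) (hu : ContinuousOn u s) :
    ContinuousOn (fun t => metric p (c t) (u t) (u t)) s := by
  have hH : ContinuousOn (fun t => fderiv ℝ (fderiv ℝ (pot p)) (c t)) s := fun t ht =>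
    (continuousAt_hess hJ (hcs ht)).comp_continuousWithinAt (hc t ht)
  simp only [metric_apply_self, levi, hs]
  exact (((hH.clm_apply hu).clm_apply hu).add
    ((hH.clm_apply (hu.const_smul I)).clm_apply (hu.const_smul I))).div_const _

theorem norm_snd_le (x v : B2) :
    ‖v.2‖ ≤ |fderiv ℝ rho x v| + |fderiv ℝ rho x (I • v)| + 4 * (‖x.1‖ * ‖v.1‖) := by
  refine (Complex.norm_le_abs_re_add_abs_im _).trans ?_
  have e1 : v.2.im = fderiv ℝ rho x v + 2 * (v.1 * (starRingEnd ℂ) x.1).re := by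
    rw [fderiv_rho]; simp; ring
  have e2 : v.2.re = fderiv ℝ rho x (I • v) - 2 * (v.1 * (starRingEnd ℂ) x.1).im := by
    rw [fderiv_rho]; simp; ring
  have h1 := Complex.abs_re_le_norm (v.1 * (starRingEnd ℂ) x.1)
  have h2 := Complex.abs_im_le_norm (v.1 * (starRingEnd ℂ) x.1)
  rw [norm_mul, RCLike.norm_conj] at h1 h2
  rw [e1, e2]
  refine (add_le_add (abs_sub _ _) (abs_add_le _ _)).trans ?_
  rw [abs_mul, abs_mul, abs_two]
  linarith

/-- Completeness. -/
theorem completeOn_metric (hJ : Jets p.h p.q) : CompleteOn (metric p) (dom p) := by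
  intro c b hb hc hmaps hlen
  obtain ⟨L, hL⟩ := hlen
  set u : ℝ → E3 := fun t => derivWithin c (Ico 0 b) t with hu_def
  set σ : ℝ → ℝ := fun t => Real.sqrt (metric p (c t) (u t) (u t)) with hσ_def
  have hcu : ContinuousOn u (Ico 0 b) :=
    hc.continuousOn_derivWithin (uniqueDiffOn_Ico 0 b) le_rfl
  have hder : ∀ t ∈ Ico 0 b, HasDerivWithinAt c (u t) (Ico 0 b) t := fun t ht =>
    ((hc.differentiableOn (by norm_num)) t ht).hasDerivWithinAt
  have hσc : ContinuousOn σ (Ico 0 b) :=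
    (continuousOn_metric_curve hJ hc.continuousOn hmaps hcu).sqrt
  have hσ0 : ∀ t, 0 ≤ σ t := fun t => Real.sqrt_nonneg _
  have hm : ∀ t ∈ Ico 0 b, 0 ≤ metric p (c t) (u t) (u t) := fun t ht =>
    metric_nonneg hJ (hmaps ht) _
  have hC := p.C_pos
  have hbase : ∀ t ∈ Ico 0 b, HasDerivWithinAt (fun t => base (c t)) (base (u t)) (Ico 0 b) t :=
    fun t ht => (baseL.restrictScalars ℝ).hasFDerivAt.comp_hasDerivWithinAt t (hder t ht)
  obtain ⟨l1, hl1⟩ := exists_limit (γ := fun t => Real.log (rho (base (c t))))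
    (γ' := fun t => fderiv ℝ rho (base (c t)) (base (u t)) / rho (base (c t)))
    (M := 2 / Real.sqrt p.C) hb (by positivity)
    (fun t ht => by
      have h := ((contDiff_rho (n := 1)).differentiable (by norm_num) (base (c t))).hasFDerivAt
      refine (h.comp_hasDerivWithinAt t (hbase t ht)).log ?_
      exact ne_of_gt (hmaps ht).1)
    hσc (fun t _ => hσ0 t) (fun t ht => by
      rw [Real.norm_eq_abs]
      refine abs_le_mul_sqrt (by positivity) (hm t ht) ?_
      have h := (metric_ge hJ (hmaps ht) (u t)).2.1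
      have hr : 0 < rho (base (c t)) := (hmaps ht).1
      rw [div_le_iff₀ (by positivity)] at h
      rw [div_pow, div_pow, Real.sq_sqrt hC.le, div_le_iff₀ (by positivity), div_mul_eq_mul_div,
        div_mul_eq_mul_div, le_div_iff₀ hC]
      nlinarith [sq_nonneg (fderiv ℝ rho (base (c t)) (I • base (u t)))]) hL
  obtain ⟨l2, hl2⟩ := exists_limit (γ := fun t => Real.log (1 - fib p (c t)))
    (γ' := fun t => -fderiv ℝ (fib p) (c t) (u t) / (1 - fib p (c t)))
    (M := 2) hb (by norm_num)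
    (fun t ht => by
      have h := ((contDiffAt_fib hJ (hmaps ht).1).differentiableAt (by simp)).hasFDerivAt
      refine ((h.comp_hasDerivWithinAt t (hder t ht)).const_sub 1).log ?_
      have := (hmaps ht).2
      simp only [Function.comp]
      linarith)
    hσc (fun t _ => hσ0 t) (fun t ht => by
      rw [Real.norm_eq_abs]
      refine abs_le_mul_sqrt (by norm_num) (hm t ht) ?_
      have h := (metric_ge hJ (hmaps ht) (u t)).2.2.1
      have hr : 0 < 1 - fib p (c t) := by linarith [(hmaps ht).2]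
      rw [div_le_iff₀ (by positivity)] at h
      rw [div_pow, neg_sq, div_le_iff₀ (by positivity)]
      nlinarith) hL
  have hIco : ∀ᶠ t in 𝓝[<] b, t ∈ Ico 0 b :=
    mem_of_superset (Ioo_mem_nhdsLT hb) Ioo_subset_Ico_self
  have hrho : Tendsto (fun t => rho (base (c t))) (𝓝[<] b) (𝓝 (Real.exp l1)) := by
    refine ((Real.continuous_exp.tendsto l1).comp hl1).congr' ?_
    filter_upwards [hIco] with t ht
    exact Real.exp_log (hmaps ht).1
  have hfib : Tendsto (fun t => fib p (c t)) (𝓝[<] b) (𝓝 (1 - Real.exp l2)) := by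
    refine (tendsto_const_nhds.sub ((Real.continuous_exp.tendsto l2).comp hl2)).congr' ?_
    filter_upwards [hIco] with t ht
    simp only [Function.comp]
    rw [Real.exp_log (by linarith [(hmaps ht).2])]
    ring
  have restart : ∀ {P : ℝ → Prop}, (∀ᶠ t in 𝓝[<] b, P t) → ∃ t0, 0 ≤ t0 ∧ t0 < b ∧
      ∀ t ∈ Ico t0 b, P t ∧ t ∈ Ico 0 b := by
    intro P hP
    obtain ⟨l, hl, hsub⟩ :=
      (mem_nhdsLT_iff_exists_Ioo_subset' hb).1 (hP.and hIco)
    have hlb : l < b := hl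
    have hmid : max l 0 < (max l 0 + b) / 2 := by linarith [max_lt hlb hb]
    refine ⟨(max l 0 + b) / 2, by linarith [le_max_right l 0, hmid], by linarith [max_lt hlb hb],
      fun t ht => hsub ⟨by linarith [ht.1, le_max_left l 0], ht.2⟩⟩
  have hL' : ∀ t0, 0 ≤ t0 → t0 < b → ∀ t ∈ Ico t0 b, ∫ s in t0..t, σ s ≤ L := by
    intro t0 h0 h1 t ht
    have i1 : IntervalIntegrable σ MeasureTheory.volume 0 t0 :=
      (hσc.mono (Icc_subset_Ico_right h1)).intervalIntegrable_of_Icc h0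
    have i2 : IntervalIntegrable σ MeasureTheory.volume t0 t :=
      (hσc.mono fun r hr => ⟨h0.trans hr.1, hr.2.trans_lt ht.2⟩).intervalIntegrable_of_Icc ht.1
    have hsplit := intervalIntegral.integral_add_adjacent_intervals i1 i2
    have hnn : 0 ≤ ∫ s in (0 : ℝ)..t0, σ s :=
      intervalIntegral.integral_nonneg h0 fun r _ => hσ0 r
    have := hL t ⟨h0.trans ht.1, ht.2⟩
    simp only [hσ_def, hu_def] at hsplit hnn ⊢
    linarith
  have hco : ∀ (i : Fin 3) {t0 : ℝ}, 0 ≤ t0 → ∀ t ∈ Ico t0 b,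
      HasDerivWithinAt (fun t => c t i) (u t i) (Ico t0 b) t := fun i t0 h0 t ht =>
    (hasDerivWithinAt_pi.1 ((hder t ⟨h0.trans ht.1, ht.2⟩).mono (Ico_subset_Ico_left h0)) i)
  set R : ℝ := Real.exp l1 + 1
  have hR : 0 < R := by positivity
  obtain ⟨t0, ht0, ht0b, h0⟩ :=
    restart (hrho.eventually_le_const (show Real.exp l1 < R by linarith [hR]))
  set M0 := Real.sqrt (R / p.C)
  have hu0 : ∀ t ∈ Ico t0 b, ‖u t 0‖ ≤ M0 * σ t := by
    intro t ht
    refine norm_le_mul_sqrt (Real.sqrt_nonneg _) (hm t (h0 t ht).2) ?_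
    have h := (metric_ge hJ (hmaps (h0 t ht).2) (u t)).1
    have hr : 0 < rho (base (c t)) := (hmaps (h0 t ht).2).1
    rw [← mul_div_assoc, div_le_iff₀ hr] at h
    rw [Real.sq_sqrt (by positivity), div_mul_eq_mul_div, le_div_iff₀ hC]
    nlinarith [(h0 t ht).1, mul_le_mul_of_nonneg_left (h0 t ht).1 (hm t (h0 t ht).2)]
  obtain ⟨y0, hy0⟩ := exists_limit ht0b (Real.sqrt_nonneg _) (hco 0 ht0)
    (hσc.mono (Ico_subset_Ico_left ht0)) (fun t _ => hσ0 t) hu0 (hL' t0 ht0 ht0b)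
  obtain ⟨t1, ht1, ht1b, h1⟩ := restart
    ((hrho.eventually_le_const (show Real.exp l1 < R by linarith [hR])).and
      (hy0.norm.eventually_le_const (show ‖y0‖ < ‖y0‖ + 1 by linarith)))
  set M1 := 4 * R / Real.sqrt p.C + 4 * ((‖y0‖ + 1) * M0)
  have hM0 : 0 ≤ M0 := Real.sqrt_nonneg _
  have hM1 : 0 ≤ M1 := by positivity
  have hu01 : ∀ t ∈ Ico t1 b, ‖u t 0‖ ≤ M0 * σ t ∧ ‖u t 1‖ ≤ M1 * σ t := by
    intro t ht
    obtain ⟨⟨hρ, hz⟩, htI⟩ := h1 t ht
    have hr : 0 < rho (base (c t)) := (hmaps htI).1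
    have hu : ‖u t 0‖ ≤ M0 * σ t := by
      refine norm_le_mul_sqrt hM0 (hm t htI) ?_
      have h := (metric_ge hJ (hmaps htI) (u t)).1
      rw [← mul_div_assoc, div_le_iff₀ hr] at h
      rw [Real.sq_sqrt (by positivity), div_mul_eq_mul_div, le_div_iff₀ hC]
      nlinarith [mul_le_mul_of_nonneg_left hρ (hm t htI)]
    refine ⟨hu, ?_⟩
    have h := (metric_ge hJ (hmaps htI) (u t)).2.1
    rw [div_le_iff₀ (by positivity)] at h
    have hbound : ∀ X : ℝ, p.C * X ^ 2 ≤ metric p (c t) (u t) (u t) * (4 * rho (base (c t)) ^ 2) →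
        |X| ≤ 2 * R / Real.sqrt p.C * σ t := by
      intro X hX
      refine abs_le_mul_sqrt (by positivity) (hm t htI) ?_
      rw [div_pow, Real.sq_sqrt hC.le, div_mul_eq_mul_div, le_div_iff₀ hC]
      nlinarith [mul_le_mul_of_nonneg_left (pow_le_pow_left₀ hr.le hρ 2) (hm t htI)]
    have h2 := hbound _ (le_trans (mul_le_mul_of_nonneg_left
      (le_add_of_nonneg_right (sq_nonneg (fderiv ℝ rho (base (c t)) (I • base (u t))))) hC.le) h)
    have h3 := hbound _ (le_trans (mul_le_mul_of_nonneg_left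
      (le_add_of_nonneg_left (sq_nonneg (fderiv ℝ rho (base (c t)) (base (u t))))) hC.le) h)
    have h4 := norm_snd_le (base (c t)) (base (u t))
    have h5 : ‖c t 0‖ * ‖u t 0‖ ≤ (‖y0‖ + 1) * (M0 * σ t) :=
      mul_le_mul hz hu (norm_nonneg _) (by positivity)
    simp only [base] at h2 h3 h4
    calc ‖u t 1‖ ≤ _ := h4
      _ ≤ M1 * σ t := by
        simp only [M1, add_mul]
        have : 4 * R / Real.sqrt p.C * σ t = 2 * (2 * R / Real.sqrt p.C * σ t) := by ring
        nlinarith [this, h2, h3, h5]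
  obtain ⟨y1, hy1⟩ := exists_limit ht1b hM1 (hco 1 ht1)
    (hσc.mono (Ico_subset_Ico_left ht1)) (fun t _ => hσ0 t) (fun t ht => (hu01 t ht).2)
    (hL' t1 ht1 ht1b)
  set x : B2 := (y0, y1)
  have hx : Tendsto (fun t => base (c t)) (𝓝[<] b) (𝓝 x) := hy0.prodMk_nhds hy1
  have hxρ : rho x = Real.exp l1 :=
    tendsto_nhds_unique (((contDiff_rho (n := 0)).continuous.tendsto x).comp hx) hrho
  have hxS : x ∈ siegel := show 0 < rho x by rw [hxρ]; exact Real.exp_pos _
  have hW := ((contDiffAt_weight hJ hxS).continuousAt.tendsto.comp hx).eventually_const_le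
    (show weight p x - 1 < weight p x by linarith)
  have hDW := (((contDiffAt_weight hJ hxS).fderiv_right (m := 0)
    (WithTop.coe_le_coe.2 le_top)).continuousAt.norm.tendsto.comp hx).eventually_le_const
    (show ‖fderiv ℝ (weight p) x‖ < ‖fderiv ℝ (weight p) x‖ + 1 by linarith)
  obtain ⟨t2, ht2, ht2b, h2⟩ := restart
    (((eventually_nhdsWithin_of_eventually_nhds (eventually_ge_nhds ht1b)) :
      ∀ᶠ t in 𝓝[<] b, t1 ≤ t).and (hW.and hDW))
  set G := ‖fderiv ℝ (weight p) x‖ + 1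
  set Q := Real.exp (-(weight p x - 1) / 2)
  set M2 := Q + Q * (G * (M0 + M1))
  have hu2 : ∀ t ∈ Ico t2 b, ‖u t 2‖ ≤ M2 * σ t := by
    intro t ht
    obtain ⟨⟨htt, hw, hd⟩, htI⟩ := h2 t ht
    simp only [Function.comp] at hw hd
    obtain ⟨ha, ha'⟩ := hu01 t ⟨htt, ht.2⟩
    have hG : 0 ≤ G := by positivity
    have hQ : 0 ≤ Q := (Real.exp_pos _).le
    have hQ2 : Q ^ 2 * Real.exp (weight p (base (c t))) ≥ 1 := by
      rw [ge_iff_le, ← Real.exp_nat_mul, ← Real.exp_add]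
      exact Real.one_le_exp (by push_cast; linarith)
    have hbu : ‖base (u t)‖ ≤ (M0 + M1) * σ t := by
      rw [Prod.norm_def, add_mul]
      refine max_le ?_ ?_ <;> simp only [base] <;>
        nlinarith [mul_nonneg hM0 (hσ0 t), mul_nonneg hM1 (hσ0 t)]
    set κ : ℂ := ⟨fderiv ℝ (weight p) (base (c t)) (base (u t)) / 2,
          -(fderiv ℝ (weight p) (base (c t)) (I • base (u t)) / 2)⟩
    have hκ : ‖κ‖ ≤ G * ((M0 + M1) * σ t) := by
      refine (Complex.norm_le_abs_re_add_abs_im κ).trans ?_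
      have e1 := (fderiv ℝ (weight p) (base (c t))).le_opNorm (base (u t))
      have e2 := (fderiv ℝ (weight p) (base (c t))).le_opNorm (I • base (u t))
      rw [norm_smul, norm_I, one_mul] at e2
      rw [Real.norm_eq_abs] at e1 e2
      have e3 : ‖fderiv ℝ (weight p) (base (c t))‖ * ‖base (u t)‖ ≤ G * ((M0 + M1) * σ t) :=
        mul_le_mul hd hbu (norm_nonneg _) hG
      simp only [κ, abs_neg, abs_div, abs_two]
      linarith
    have hy : ‖c t 2‖ ≤ Q := by
      rw [← abs_norm]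
      refine abs_le_of_sq_le_sq ?_ hQ
      have hf : normSq (c t 2) * Real.exp (weight p (base (c t))) ≤ 1 := (hmaps htI).2.le
      rw [← normSq_eq_norm_sq]
      nlinarith [normSq_nonneg (c t 2), sq_nonneg Q]
    have hsum : ‖u t 2 + c t 2 * κ‖ ≤ Q * σ t := by
      refine norm_le_mul_sqrt hQ (hm t htI) ?_
      have h := (metric_ge hJ (hmaps htI) (u t)).2.2.2
      nlinarith [normSq_nonneg (u t 2 + c t 2 * κ), sq_nonneg Q]
    calc ‖u t 2‖ = ‖(u t 2 + c t 2 * κ) - c t 2 * κ‖ := by ring_nf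
      _ ≤ ‖u t 2 + c t 2 * κ‖ + ‖c t 2‖ * ‖κ‖ := by
        rw [← norm_mul]; exact norm_sub_le _ _
      _ ≤ Q * σ t + Q * (G * ((M0 + M1) * σ t)) :=
        add_le_add hsum (mul_le_mul hy hκ (norm_nonneg _) hQ)
      _ = M2 * σ t := by simp only [M2]; ring
  obtain ⟨y2, hy2⟩ := exists_limit ht2b (by positivity) (hco 2 ht2)
    (hσc.mono (Ico_subset_Ico_left ht2)) (fun t _ => hσ0 t) hu2 (hL' t2 ht2 ht2b)
  have hlim : Tendsto c (𝓝[<] b) (𝓝 ![y0, y1, y2]) := by
    refine tendsto_pi_nhds.2 fun i => ?_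
    fin_cases i
    · exact hy0
    · exact hy1
    · exact hy2
  have hb' : base ![y0, y1, y2] = x := rfl
  refine ⟨![y0, y1, y2], ⟨?_, ?_⟩, hlim⟩
  · rw [hb', hxρ]; exact Real.exp_pos _
  · have hcont : ContinuousAt (fib p) ![y0, y1, y2] :=
      (contDiffAt_fib hJ (by rw [hb']; exact hxS)).continuousAt
    rw [tendsto_nhds_unique (hcont.tendsto.comp hlim) hfib]
    linarith [Real.exp_pos l2]

end Vale.Agent.P250.Disproof
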