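import Vale.Agent.P250.Disproof.Moves

/-!
# P250 disproof: the curve `P = lvl` over the square, and the horizontal discs
-/

open Complex Filter Set Metric
open scoped Topology

noncomputable section

namespace Vale.Agent.P250.Disproof

/-- The second coordinate of the level curve. -/
def height (z : ℂ) : ℂ :=
  2 / (I * Real.pi) * ((Real.log lvl : ℝ) - Real.pi * z ^ 2 / 2 - Complex.log (theta z))

/-- The level curve. -/
def curve (z : ℂ) : B2 := (z, height z)

/-- The closed square. -/
def sqr : Set ℂ := {z | |z.re| ≤ 9 / 20 ∧ |z.im| ≤ 9 / 20}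

theorem theta_ne {z : ℂ} (hy : |z.im| ≤ 9 / 20) : theta z ≠ 0 := fun e => by
  have := theta_re_pos hy; simp [e] at this

theorem differentiableAt_curve {z : ℂ} (hy : |z.im| ≤ 9 / 20) :
    DifferentiableAt ℂ curve z := by
  unfold curve height
  refine differentiableAt_id.prodMk (DifferentiableAt.const_mul ?_ _)
  exact ((differentiableAt_const _).sub (by fun_prop)).sub
    ((differentiable_theta z).clog (Or.inl (theta_re_pos hy)))

theorem P_curve {z : ℂ} (hy : |z.im| ≤ 9 / 20) : P (curve z) = lvl := by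
  unfold P curve height
  simp only
  rw [show I * (Real.pi : ℂ) *
      (2 / (I * Real.pi) * ((Real.log lvl : ℝ) - Real.pi * z ^ 2 / 2 - Complex.log (theta z))) / 2 +
      Real.pi * z ^ 2 / 2 = (Real.log lvl : ℝ) - Complex.log (theta z) by
    field_simp; ring]
  rw [Complex.exp_sub, ← Complex.ofReal_exp, Real.exp_log (by unfold lvl; norm_num),
    Complex.exp_log (theta_ne hy), div_mul_cancel₀ _ (theta_ne hy)]

theorem beta_pos {z : ℂ} (hy : |z.im| ≤ 9 / 20) : 0 < beta z :=
  mul_pos (norm_pos_iff.2 (theta_ne hy)) (Real.exp_pos _)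

theorem rho_curve {z : ℂ} (hy : |z.im| ≤ 9 / 20) :
    rho (curve z) = 2 / Real.pi * Real.log (beta z / lvl) := by
  rw [Real.log_div (beta_pos hy).ne' (by unfold lvl; norm_num), beta,
    Real.log_mul (norm_ne_zero_iff.2 (theta_ne hy)) (Real.exp_pos _).ne', Real.log_exp]
  have e : height z = -(I * (((2 / Real.pi : ℝ) : ℂ) *
      ((Real.log lvl : ℝ) - Real.pi * z ^ 2 / 2 - Complex.log (theta z)))) := by
    unfold height; push_cast; field_simp; rw [I_sq]; ring
  simp [rho, curve, e, normSq_apply, Complex.log_re, pow_two]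
  field_simp
  ring

theorem curve_box {z : ℂ} (hz : z ∈ sqr) :
    ‖(curve z).1‖ ≤ 9 / 10 ∧ |(curve z).2.re| ≤ 3 ∧ rho (curve z) ≤ 5 / 4 := by
  obtain ⟨hx, hy⟩ := hz
  refine ⟨(Complex.norm_le_abs_re_add_abs_im _).trans (by simp [curve]; linarith), ?_, ?_⟩
  · have e : (height z).re =
        2 / Real.pi * (-(Real.pi * (2 * z.re * z.im) / 2) - (theta z).arg) := by
      have e : height z = -(I * (((2 / Real.pi : ℝ) : ℂ) *
          ((Real.log lvl : ℝ) - Real.pi * z ^ 2 / 2 - Complex.log (theta z)))) := by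
        unfold height; push_cast; field_simp; rw [I_sq]; ring
      simp [e, pow_two, Complex.log_im]
      ring
    show |(height z).re| ≤ 3
    rw [e, abs_mul, abs_of_pos (by positivity : (0:ℝ) < 2 / Real.pi), div_mul_eq_mul_div,
      div_le_iff₀ Real.pi_pos]
    have ha := Complex.abs_arg_le_pi (theta z)
    have hxy : |z.re * z.im| ≤ 81 / 400 := by
      rw [abs_mul]; nlinarith [abs_nonneg z.re, abs_nonneg z.im]
    have := abs_le.1 hxy
    have := abs_le.1 ha
    have hp := Real.pi_pos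
    have : |-(Real.pi * (2 * z.re * z.im) / 2) - (theta z).arg| ≤ Real.pi * (81 / 400) + Real.pi := by
      rw [abs_le]; constructor <;> nlinarith
    nlinarith
  · rw [rho_curve hy]
    have h1 := Real.log_le_sub_one_of_pos
      (div_pos (beta_pos hy) (by unfold lvl; norm_num : (0:ℝ) < lvl))
    have h2 := beta_le_three (z := z) (hy.trans (by norm_num))
    have h3 : beta z / lvl - 1 ≤ 39 / 20 := by
      rw [sub_le_iff_le_add, div_le_iff₀ (by unfold lvl; norm_num)]; unfold lvl; linarith
    rw [div_mul_eq_mul_div, div_le_iff₀ Real.pi_pos]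
    nlinarith [Real.pi_gt_d4]

theorem rho_curve_zero : 0 < rho (curve 0) := by
  rw [rho_curve (by norm_num)]
  have := beta_zero
  have hl : (0 : ℝ) < lvl := by unfold lvl; norm_num
  exact mul_pos (by positivity) (Real.log_pos ((one_lt_div hl).2 this))

/-- The horizontal line through `y`. -/
def horiz (y : B2) (t : ℂ) : B2 := (y.1 + t, y.2 + 2 * I * (starRingEnd ℂ) y.1 * t)

theorem rho_horiz (y : B2) (t : ℂ) : rho (horiz y t) = rho y - ‖t‖ ^ 2 := by
  simp [rho, horiz, ← normSq_eq_norm_sq, normSq_apply]; ring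

theorem horiz_box {y : B2} {t : ℂ} (hy1 : ‖y.1‖ ≤ 3 / 2) (hy2 : ‖y.2‖ ≤ 14) (ht : ‖t‖ ≤ 3 / 2) :
    horiz y t ∈ bigBox := by
  constructor
  · exact (norm_add_le _ _).trans (by linarith)
  · refine (norm_add_le _ _).trans ?_
    simp only [norm_mul, norm_ofNat, Complex.norm_I, RCLike.norm_conj]
    nlinarith [norm_nonneg y.1, norm_nonneg t]

variable {f : B2 → ℂ} {δ M : ℝ}

/-- Maximum modulus on a horizontal disc. -/
theorem le_of_horiz (hf : DifferentiableOn ℂ f siegel) (hδ : 0 < δ) {y : B2} (hy : δ ≤ rho y)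
    (hy1 : ‖y.1‖ ≤ 3 / 2) (hy2 : ‖y.2‖ ≤ 14) (hy3 : rho y ≤ 2)
    (hM : ∀ u ∈ bigBox, rho u = δ → ‖f u‖ ≤ M) : ‖f y‖ ≤ M := by
  rcases hy.eq_or_lt with e | hlt
  · refine hM y ⟨hy1.trans (by norm_num), hy2.trans (by norm_num)⟩ e.symm
  set r := Real.sqrt (rho y - δ) with hr
  have hr0 : 0 < r := Real.sqrt_pos.2 (by linarith)
  have hr2 : r ^ 2 = rho y - δ := Real.sq_sqrt (by linarith)
  have hr1 : r ≤ 3 / 2 := by nlinarith
  have hin : ∀ t ∈ closedBall (0 : ℂ) r, horiz y t ∈ siegel := fun t ht => by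
    rw [mem_closedBall_zero_iff] at ht
    show 0 < rho (horiz y t)
    rw [rho_horiz]; nlinarith [norm_nonneg t]
  have hd : DifferentiableOn ℂ (fun t => f (horiz y t)) (closedBall (0 : ℂ) r) :=
    hf.comp (by unfold horiz; fun_prop) hin
  have := Complex.norm_le_of_forall_mem_frontier_norm_le isBounded_ball
    (hd.diffContOnCl_ball subset_rfl) (C := M) (fun t ht => ?_) (z := 0)
    (subset_closure (mem_ball_self hr0))
  · simpa [horiz] using this
  · rw [frontier_ball _ hr0.ne', mem_sphere_zero_iff_norm] at ht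
    refine hM _ (horiz_box hy1 hy2 (by linarith)) ?_
    rw [rho_horiz, ht, hr2]; ring

/-- Maximum modulus on the level curve. -/
theorem le_at_curve_zero (hf : DifferentiableOn ℂ f siegel) (hδ : 0 < δ) (hδ' : δ < rho (curve 0))
    (hM : ∀ u ∈ bigBox, rho u = δ → P u = lvl → ‖f u‖ ≤ M) : ‖f (curve 0)‖ ≤ M := by
  set Ω : Set ℂ := {z | |z.re| < 9 / 20 ∧ |z.im| < 9 / 20 ∧ δ < rho (curve z)}
  have hcont : ContinuousOn (fun z => rho (curve z)) sqr := fun z hz => by
    have h1 : ContinuousAt rho (curve z) := by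
      unfold rho normSq; simp only [MonoidWithZeroHom.coe_mk, ZeroHom.coe_mk]; fun_prop
    exact (h1.comp (differentiableAt_curve hz.2).continuousAt).continuousWithinAt
  have hre : Continuous fun z : ℂ => |z.re| := Complex.continuous_re.abs
  have him : Continuous fun z : ℂ => |z.im| := Complex.continuous_im.abs
  have hsq : IsClosed sqr :=
    (isClosed_le hre continuous_const).inter (isClosed_le him continuous_const)
  have hsub : closure Ω ⊆ sqr ∩ {z | δ ≤ rho (curve z)} := by
    refine closure_minimal (fun z hz => ⟨⟨hz.1.le, hz.2.1.le⟩, hz.2.2.le⟩) ?_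
    exact hcont.preimage_isClosed_of_isClosed hsq isClosed_Ici
  have hopen : IsOpen Ω := by
    have ho : IsOpen {z : ℂ | |z.re| < 9 / 20 ∧ |z.im| < 9 / 20} :=
      (isOpen_lt hre continuous_const).inter (isOpen_lt him continuous_const)
    have hS : {z : ℂ | |z.re| < 9 / 20 ∧ |z.im| < 9 / 20} ⊆ sqr := fun z hz => ⟨hz.1.le, hz.2.le⟩
    have h := (hcont.mono hS).isOpen_inter_preimage ho (isOpen_Ioi (a := δ))
    have e : Ω = {z : ℂ | |z.re| < 9 / 20 ∧ |z.im| < 9 / 20} ∩
        (fun z => rho (curve z)) ⁻¹' Ioi δ := by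
      ext z; simp [Ω, and_assoc]
    rw [e]; exact h
  have hb : Bornology.IsBounded Ω := by
    refine (isBounded_closedBall (x := (0 : ℂ)) (r := 1)).subset fun z hz => ?_
    rw [mem_closedBall_zero_iff]
    exact (Complex.norm_le_abs_re_add_abs_im _).trans (by linarith [hz.1, hz.2.1])
  have hin : ∀ z ∈ closure Ω, curve z ∈ siegel := fun z hz =>
    lt_of_lt_of_le hδ (hsub hz).2
  have hd : DifferentiableOn ℂ (fun z => f (curve z)) (closure Ω) :=
    hf.comp (fun z hz => (differentiableAt_curve (hsub hz).1.2).differentiableWithinAt) hin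
  have h0 : (0 : ℂ) ∈ Ω := ⟨by simp, by simp, hδ'⟩
  refine Complex.norm_le_of_forall_mem_frontier_norm_le hb hd.diffContOnCl (C := M) (fun z hz => ?_)
    (subset_closure h0)
  rw [frontier, hopen.interior_eq] at hz
  obtain ⟨hz1, hz2⟩ := hsub hz.1
  have hedge : |z.re| < 9 / 20 ∧ |z.im| < 9 / 20 := by
    by_contra hne
    have he : |z.re| = 9 / 20 ∨ |z.im| = 9 / 20 := by
      rcases not_and_or.1 hne with h | h
      · exact Or.inl (le_antisymm hz1.1 (not_lt.1 h))
      · exact Or.inr (le_antisymm hz1.2 (not_lt.1 h))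
    have h1 := beta_edge hz1.1 hz1.2 he
    have h2 : rho (curve z) < 0 := by
      rw [rho_curve hz1.2]
      refine mul_neg_of_pos_of_neg (by positivity) (Real.log_neg ?_ ?_)
      · exact div_pos (beta_pos hz1.2) (by unfold lvl; norm_num)
      · rw [div_lt_one (by unfold lvl; norm_num)]; exact h1
    have hz2' : δ ≤ rho (curve z) := hz2
    linarith
  have heq : rho (curve z) = δ :=
    le_antisymm (not_lt.1 fun h => hz.2 ⟨hedge.1, hedge.2, h⟩) hz2
  obtain ⟨b1, b2, b3⟩ := curve_box hz1
  refine hM _ ⟨b1.trans (by norm_num), ?_⟩ heq (P_curve hz1.2)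
  refine (Complex.norm_le_abs_re_add_abs_im _).trans ?_
  have e : (curve z).2.im = rho (curve z) + normSq (curve z).1 := by simp [rho]
  have : normSq (curve z).1 ≤ 1 := by
    rw [normSq_eq_norm_sq]; nlinarith [norm_nonneg (curve z).1]
  have him0 : 0 ≤ (curve z).2.im := by rw [e]; linarith [normSq_nonneg (curve z).1]
  rw [abs_of_nonneg him0, e]
  linarith

end Vale.Agent.P250.Disproof
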