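import Mathlib

/-!
# P250 disproof: solutions of an autonomous equation on an open set live forever once they
cannot leave in finite time
-/

open Set Filter Metric
open scoped Topology NNReal ContDiff

noncomputable section

namespace Vale.Agent.P250.Disproof

set_option linter.unusedSectionVars false

variable {V : Type*} [NormedAddCommGroup V] [NormedSpace ℝ V] [FiniteDimensional ℝ V]

/-- A solution in `U` on `[0, b)`. -/
def SolOn (F : V → V) (U : Set V) (b : ℝ) (z : ℝ → V) : Prop :=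
  ∀ t ∈ Ico 0 b, z t ∈ U ∧ HasDerivWithinAt z (F (z t)) (Ico 0 b) t

theorem SolOn.mono {F : V → V} {U : Set V} {b b' : ℝ} {z : ℝ → V} (h : SolOn F U b z)
    (hb : b' ≤ b) : SolOn F U b' z := fun t ht =>
  have hs : Ico 0 b' ⊆ Ico 0 b := Ico_subset_Ico_right hb
  ⟨(h t (hs ht)).1, (h t (hs ht)).2.mono hs⟩

theorem SolOn.right {F : V → V} {U : Set V} {b : ℝ} {z : ℝ → V} (h : SolOn F U b z) {t : ℝ}
    (ht : t ∈ Ico 0 b) : HasDerivWithinAt z (F (z t)) (Ici t) t :=
  (h t ht).2.mono_of_mem_nhdsWithin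
    (mem_of_superset (Ico_mem_nhdsGE ht.2) fun _ hr => ⟨ht.1.trans hr.1, hr.2⟩)

/-- Solutions starting near `w` exist on an interval of fixed length. -/
theorem exists_uniform {F : V → V} {U : Set V} (hU : IsOpen U) (hF : ContDiffOn ℝ 1 F U) {w : V}
    (hw : w ∈ U) : ∃ ε > 0, ∃ r > 0, ∀ q ∈ ball w r, ∀ t₀ : ℝ, ∃ α : ℝ → V, α t₀ = q ∧
      ∀ t ∈ Ioo (t₀ - ε) (t₀ + ε), α t ∈ U ∧ HasDerivAt α (F (α t)) t := by
  obtain ⟨R, hR, hRU⟩ := Metric.isOpen_iff.1 hU w hw
  have := FiniteDimensional.proper ℝ V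
  set b : ContDiffBump w := ⟨R / 2, 3 * R / 4, by linarith, by linarith⟩
  set G : V → V := fun z => b z • F z
  have hG : ContDiff ℝ 1 G := by
    rw [contDiff_iff_contDiffAt]
    intro z
    by_cases hz : z ∈ tsupport b
    · refine b.contDiff.contDiffAt.smul (hF.contDiffAt (hU.mem_nhds (hRU ?_)))
      rw [b.tsupport_eq] at hz
      exact closedBall_subset_ball (show 3 * R / 4 < R by linarith) hz
    · refine (contDiffAt_const (c := (0 : V))).congr_of_eventuallyEq ?_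
      filter_upwards [(isClosed_tsupport _).isOpen_compl.mem_nhds hz] with y hy
      simp [G, image_eq_zero_of_notMem_tsupport hy]
  have hGs : HasCompactSupport G := b.hasCompactSupport.smul_right
  obtain ⟨K, hK⟩ := hG.lipschitzWith_of_hasCompactSupport hGs one_ne_zero
  obtain ⟨L, hL⟩ := hG.continuous.bounded_above_of_compact_support hGs
  set M : ℝ := max L 0 + 1
  have hM : 0 < M := by positivity
  refine ⟨R / (4 * M), by positivity, R / 4, by positivity, fun q hq t₀ => ?_⟩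
  set ε := R / (4 * M)
  have hε : 0 < ε := by positivity
  have hi : t₀ ∈ Icc (t₀ - ε) (t₀ + ε) := ⟨by linarith, by linarith⟩
  obtain ⟨α, hα0, hα⟩ := IsPicardLindelof.exists_eq_forall_mem_Icc_hasDerivWithinAt₀
    (f := fun _ => G) (t₀ := ⟨t₀, hi⟩) (x₀ := q) (a := M.toNNReal * ε.toNNReal) (L := M.toNNReal)
    (K := K) (IsPicardLindelof.of_time_independent
      (fun x _ => (hL x).trans ((show L ≤ M by simp only [M]; linarith [le_max_left L 0]).trans
        (Real.le_coe_toNNReal M))) hK.lipschitzOnWith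
      (by simp [Real.coe_toNNReal _ hε.le]))
  refine ⟨α, hα0, fun t ht => ?_⟩
  have hbound := (convex_Icc (t₀ - ε) (t₀ + ε)).norm_image_sub_le_of_norm_hasDerivWithin_le
    (C := M) hα (fun x _ => (hL _).trans (by simp only [M]; linarith [le_max_left L 0])) hi
    (Ioo_subset_Icc_self ht)
  have hd : ‖α t - w‖ ≤ R / 2 := by
    have h1 : ‖α t - α t₀‖ ≤ R / 4 := by
      refine hbound.trans ?_
      have : ‖t - t₀‖ ≤ ε := by
        rw [Real.norm_eq_abs, abs_le]; constructor <;> linarith [ht.1, ht.2]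
      refine (mul_le_mul_of_nonneg_left this hM.le).trans (le_of_eq ?_)
      simp only [ε]; field_simp
    rw [mem_ball, dist_eq_norm] at hq
    rw [hα0] at h1
    have := norm_add_le (α t - q) (q - w)
    rw [sub_add_sub_cancel] at this
    linarith
  have h1 : b (α t) = 1 := b.one_of_mem_closedBall (by rwa [mem_closedBall, dist_eq_norm])
  refine ⟨hRU (by rw [mem_ball, dist_eq_norm]; linarith), ?_⟩
  have := (hα t (Ioo_subset_Icc_self ht)).hasDerivAt (Icc_mem_nhds ht.1 ht.2)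
  simpa [G, h1] using this

theorem sol_unique {F : V → V} {U : Set V} (hU : IsOpen U) (hF : ContDiffOn ℝ 1 F U) {b : ℝ}
    {z w : ℝ → V} (hz : SolOn F U b z) (hw : SolOn F U b w) (h0 : z 0 = w 0) :
    EqOn z w (Ico 0 b) := by
  intro T hT
  rcases hT.1.eq_or_lt with rfl | hT0
  · exact h0
  have hsub : Icc 0 T ⊆ Ico 0 b := Icc_subset_Ico_right hT.2
  have hc1 : ContinuousOn z (Icc 0 T) := fun t ht => ((hz t (hsub ht)).2.mono hsub).continuousWithinAt
  have hc2 : ContinuousOn w (Icc 0 T) := fun t ht => ((hw t (hsub ht)).2.mono hsub).continuousWithinAt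
  set s := z '' Icc 0 T ∪ w '' Icc 0 T with hs
  have hsc : IsCompact s :=
    (isCompact_Icc.image_of_continuousOn hc1).union (isCompact_Icc.image_of_continuousOn hc2)
  have hsU : s ⊆ U := by
    rintro x (⟨t, ht, rfl⟩ | ⟨t, ht, rfl⟩)
    · exact (hz t (hsub ht)).1
    · exact (hw t (hsub ht)).1
  have hloc : LocallyLipschitzOn s F := fun x hx => by
    obtain ⟨K, t, ht, hK⟩ := (hF.contDiffAt (hU.mem_nhds (hsU hx))).exists_lipschitzOnWith
    exact ⟨K, t, mem_nhdsWithin_of_mem_nhds ht, hK⟩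
  obtain ⟨K, hK⟩ := hloc.exists_lipschitzOnWith_of_compact hsc
  exact ODE_solution_unique_of_mem_Icc_right (v := fun _ => F) (s := fun _ => s) (fun _ _ => hK)
    hc1 (fun t ht => hz.right (hsub (Ico_subset_Icc_self ht)))
    (fun t ht => Or.inl (mem_image_of_mem z (Ico_subset_Icc_self ht))) hc2
    (fun t ht => hw.right (hsub (Ico_subset_Icc_self ht)))
    (fun t ht => Or.inr (mem_image_of_mem w (Ico_subset_Icc_self ht))) h0 (right_mem_Icc.2 hT0.le)

/-- If every solution on a bounded interval has a limit inside `U`, solutions live forever. -/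
theorem exists_forever {F : V → V} {U : Set V} (hU : IsOpen U) (hF : ContDiffOn ℝ 1 F U)
    (hlim : ∀ (b : ℝ) (z : ℝ → V), 0 < b → SolOn F U b z → ∃ w ∈ U, Tendsto z (𝓝[<] b) (𝓝 w))
    {p : V} (hp : p ∈ U) :
    ∃ z : ℝ → V, z 0 = p ∧ ∀ t, 0 ≤ t → z t ∈ U ∧ HasDerivWithinAt z (F (z t)) (Ici 0) t := by
  set S : Set ℝ := {b | 0 < b ∧ ∃ z, z 0 = p ∧ SolOn F U b z}
  have hS : S.Nonempty := by
    obtain ⟨ε, hε, r, hr, h⟩ := exists_uniform hU hF hp
    obtain ⟨α, hα0, hα⟩ := h p (mem_ball_self hr) 0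
    refine ⟨ε, hε, α, hα0, fun t ht => ?_⟩
    obtain ⟨h1, h2⟩ := hα t ⟨by linarith [ht.1], by linarith [ht.2]⟩
    exact ⟨h1, h2.hasDerivWithinAt⟩
  have hall : ∀ T, ∃ b ∈ S, T < b := by
    by_contra hcon
    push Not at hcon
    obtain ⟨T, hT⟩ := hcon
    have hbdd : BddAbove S := ⟨T, hT⟩
    set B := sSup S
    obtain ⟨b₀, hb₀⟩ := hS
    have hB : 0 < B := hb₀.1.trans_le (le_csSup hbdd hb₀)
    have hex : ∀ t : ℝ, ∃ z : ℝ → V, t < B → z 0 = p ∧ ∃ b, t < b ∧ SolOn F U b z := fun t => by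
      by_cases ht : t < B
      · obtain ⟨b, ⟨-, z, hz0, hz⟩, htb⟩ := exists_lt_of_lt_csSup ⟨b₀, hb₀⟩ ht
        exact ⟨z, fun _ => ⟨hz0, b, htb, hz⟩⟩
      · exact ⟨fun _ => p, fun h => absurd h ht⟩
    choose zf hzf using hex
    set z : ℝ → V := fun t => zf t t
    have hz0 : z 0 = p := (hzf 0 hB).1
    have hzsol : SolOn F U B z := by
      intro t ht
      set m := (t + B) / 2
      have htm : t < m := by simp only [m]; linarith [ht.2]
      have hmB : m < B := by simp only [m]; linarith [ht.2]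
      obtain ⟨hm0, bm, hbm, hm⟩ := hzf m hmB
      have heq : ∀ s ∈ Ico 0 m, z s = zf m s := by
        intro s hs
        obtain ⟨hs0, bs, hbs, hsol⟩ := hzf s (hs.2.trans hmB)
        exact sol_unique hU hF (hsol.mono (min_le_left bs bm)) (hm.mono (min_le_right bs bm))
          (hs0.trans hm0.symm) ⟨hs.1, lt_min hbs (hs.2.trans hbm)⟩
      have htm' : t ∈ Ico 0 bm := ⟨ht.1, htm.trans hbm⟩
      have hmem : Ico 0 m ∈ 𝓝[Ico 0 B] t :=
        mem_nhdsWithin.2 ⟨Iio m, isOpen_Iio, htm, fun s hs => ⟨hs.2.1, hs.1⟩⟩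
      refine ⟨by rw [heq t ⟨ht.1, htm⟩]; exact (hm t htm').1, ?_⟩
      rw [heq t ⟨ht.1, htm⟩]
      exact (((hm t htm').2.mono (Ico_subset_Ico_right hbm.le)).mono_of_mem_nhdsWithin hmem
        ).congr_of_eventuallyEq (eventually_of_mem hmem heq) (heq t ⟨ht.1, htm⟩)
    obtain ⟨w, hw, hlimw⟩ := hlim B z hB hzsol
    obtain ⟨ε, hε, r, hr, h⟩ := exists_uniform hU hF hw
    obtain ⟨t₀, ⟨ht₀, ht₀'⟩, ht₀r⟩ :=
      ((eventually_mem_set.2 (Ioo_mem_nhdsLT (max_lt (show B - ε / 2 < B by linarith) hB))).and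
        (hlimw.eventually (ball_mem_nhds w hr))).exists
    obtain ⟨α, hα0, hα⟩ := h (z t₀) ht₀r t₀
    have ht₀0 : 0 ≤ t₀ := (le_max_right _ _).trans ht₀.le
    have ht₀ε : B - ε / 2 < t₀ := (le_max_left _ _).trans_lt ht₀
    set β : ℝ → V := fun t => if t < t₀ then z t else α t
    have hshift : ∀ s ∈ Ico 0 (B - t₀), z (t₀ + s) = α (t₀ + s) := by
      refine sol_unique hU hF (b := B - t₀) (z := fun s => z (t₀ + s)) (w := fun s => α (t₀ + s))
        ?_ ?_ (by simp [hα0])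
      · intro s hs
        have hts : t₀ + s ∈ Ico 0 B := ⟨by linarith [hs.1], by linarith [hs.2]⟩
        refine ⟨(hzsol _ hts).1, ?_⟩
        have hd : HasDerivWithinAt (fun r => t₀ + r) 1 (Ico 0 (B - t₀)) s :=
          ((hasDerivAt_id s).const_add t₀).hasDerivWithinAt
        simpa [Function.comp_def] using (hzsol _ hts).2.scomp s hd
          fun r hr => (⟨by linarith [hr.1], by linarith [hr.2]⟩ : t₀ + r ∈ Ico 0 B)
      · intro s hs
        obtain ⟨h1, h2⟩ := hα (t₀ + s) ⟨by linarith [hs.1], by linarith [hs.2]⟩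
        exact ⟨h1, (h2.comp_const_add t₀ s).hasDerivWithinAt⟩
    have hagree : ∀ s ∈ Ico t₀ B, z s = α s := fun s hs => by
      simpa using hshift (s - t₀) ⟨by linarith [hs.1], by linarith [hs.2]⟩
    have hlt : B < t₀ + ε := by linarith
    refine absurd (le_csSup hbdd (⟨hB.trans hlt, β, ?_, ?_⟩ : t₀ + ε ∈ S)) (not_le.2 hlt)
    · simp only [β]
      split_ifs with h'
      · exact hz0
      · obtain rfl : t₀ = 0 := le_antisymm (not_lt.1 h') ht₀0
        exact hα0.trans hz0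
    · intro t ht
      by_cases htB : t < B
      · have heq : ∀ s ∈ Ico 0 B, β s = z s := fun s hs => by
          simp only [β]
          split_ifs with h'
          · rfl
          · exact (hagree s ⟨not_lt.1 h', hs.2⟩).symm
        have htI : t ∈ Ico 0 B := ⟨ht.1, htB⟩
        have hmem : Ico 0 B ∈ 𝓝[Ico 0 (t₀ + ε)] t :=
          mem_nhdsWithin.2 ⟨Iio B, isOpen_Iio, htB, fun s hs => ⟨hs.2.1, hs.1⟩⟩
        rw [heq t htI]
        exact ⟨(hzsol t htI).1, ((hzsol t htI).2.mono_of_mem_nhdsWithin hmem).congr_of_eventuallyEq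
          (eventually_of_mem hmem heq) (heq t htI)⟩
      · have ht' : t₀ < t := ht₀'.trans_le (not_lt.1 htB)
        obtain ⟨h1, h2⟩ := hα t ⟨by linarith, ht.2⟩
        have heq : β =ᶠ[𝓝 t] α := by
          filter_upwards [isOpen_Ioi.mem_nhds ht'] with s hs
          exact if_neg (not_lt.2 hs.le)
        rw [heq.eq_of_nhds]
        exact ⟨h1, (h2.congr_of_eventuallyEq heq).hasDerivWithinAt⟩
  have hall' : ∀ T : ℝ, ∃ z : ℝ → V, z 0 = p ∧ ∃ b, T < b ∧ SolOn F U b z := fun T => by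
    obtain ⟨b, ⟨-, z, h1, h2⟩, h3⟩ := hall T
    exact ⟨z, h1, b, h3, h2⟩
  choose zf hzf0 bf hbf hzf using hall'
  refine ⟨fun t => zf t t, hzf0 0, fun t ht => ?_⟩
  have heq : ∀ s ∈ Ico 0 (t + 1), zf s s = zf (t + 1) s := fun s hs =>
    sol_unique hU hF ((hzf s).mono (min_le_left _ (bf (t + 1))))
      ((hzf (t + 1)).mono (min_le_right (bf s) _)) ((hzf0 s).trans (hzf0 (t + 1)).symm)
      ⟨hs.1, lt_min (hbf s) (hs.2.trans (hbf (t + 1)))⟩
  have htI : t ∈ Ico 0 (t + 1) := ⟨ht, by linarith⟩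
  have hmem : Ico 0 (t + 1) ∈ 𝓝[Ici 0] t :=
    mem_nhdsWithin.2 ⟨Iio (t + 1), isOpen_Iio, htI.2, fun s hs => ⟨hs.2, hs.1⟩⟩
  obtain ⟨h1, h2⟩ := ((hzf (t + 1)).mono (hbf (t + 1)).le) t htI
  beta_reduce
  rw [heq t htI]
  exact ⟨h1, (h2.mono_of_mem_nhdsWithin hmem).congr_of_eventuallyEq
    (eventually_of_mem hmem heq) (heq t htI)⟩

end Vale.Agent.P250.Disproof
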