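import Vale.Agent.P250.Disproof.Defs
import Vale.Agent.P250.Disproof.Complete
import Vale.Agent.P250.Disproof.Extend

/-!
# P250 disproof: finite-length completeness gives geodesic completeness
-/

open Set Filter Metric
open scoped Topology ContDiff

noncomputable section

namespace Vale.Agent.P250.Disproof

-- the trilinear maps need a deeper instance search
set_option maxSynthPendingDepth 10

/-- Every geodesic of `g` in `D` extends to the whole line. -/
def GeodesicallyComplete (g : Field) (D : Set E3) : Prop :=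
  ∀ x ∈ D, ∀ v : E3, ∃ γ u : ℝ → E3, γ 0 = x ∧ u 0 = v ∧
    ∀ t, γ t ∈ D ∧ HasDerivAt γ (u t) t ∧ HasDerivAt u (-gam g (γ t) (u t) (u t)) t

/-- The geodesic spray. -/
def spray (g : Field) (z : E3 × E3) : E3 × E3 := (z.2, -gam g z.1 z.2 z.2)

theorem exists_equiv {B : E3 →L[ℝ] E3 →L[ℝ] ℝ} (hB : ∀ u, u ≠ 0 → 0 < B u u) :
    ∃ e : E3 ≃L[ℝ] (E3 →L[ℝ] ℝ), (e : E3 →L[ℝ] (E3 →L[ℝ] ℝ)) = B := by
  have hinj : Function.Injective (B : E3 →ₗ[ℝ] (E3 →L[ℝ] ℝ)) := by
    rw [← LinearMap.ker_eq_bot]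
    refine LinearMap.ker_eq_bot'.2 fun u hu => ?_
    by_contra h
    have h1 := hB u h
    rw [show B u = 0 from hu] at h1
    simp at h1
  have hfin : Module.finrank ℝ E3 = Module.finrank ℝ (E3 →L[ℝ] ℝ) := by
    rw [(LinearMap.toContinuousLinearMap (𝕜 := ℝ) (E := E3) (F' := ℝ)).symm.finrank_eq,
      Module.finrank_linearMap, Module.finrank_self, mul_one]
  refine ⟨((B : E3 →ₗ[ℝ] (E3 →L[ℝ] ℝ)).linearEquivOfInjective hinj hfin).toContinuousLinearEquiv, ?_⟩
  ext u : 1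
  rfl

variable {g : Field} {D : Set E3}

theorem apply_gam (hk : IsKaehlerOn g D) {x : E3} (hx : x ∈ D) (u v : E3) :
    g x (gam g x u v) = (1 / 2 : ℝ) • chris g x u v := by
  obtain ⟨e, he⟩ := exists_equiv (hk.pos x hx)
  rw [gam, map_smul, ← he, ContinuousLinearMap.inverse_equiv]
  simp

theorem contDiffOn_spray (hD : IsOpen D) (hk : IsKaehlerOn g D) :
    ContDiffOn ℝ 1 (spray g) (D ×ˢ (univ : Set E3)) := by
  have hS : ContDiffOn ℝ 1 (fun z : E3 × E3 => chris g z.1 z.2 z.2) (D ×ˢ (univ : Set E3)) := by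
    have hd : ContDiffOn ℝ 1 (fun z : E3 × E3 => fderiv ℝ g z.1) (D ×ˢ (univ : Set E3)) :=
      (hk.smooth.fderiv_of_isOpen hD (m := 1) (WithTop.coe_le_coe.2 le_top)).comp
        contDiffOn_fst fun z hz => hz.1
    refine contDiffOn_clm_apply.2 fun w => ?_
    simp only [chris, add_apply, sub_apply, ContinuousLinearMap.flip_apply]
    exact ((((hd.clm_apply contDiffOn_snd).clm_apply contDiffOn_snd).clm_apply contDiffOn_const).add
      (((hd.clm_apply contDiffOn_snd).clm_apply contDiffOn_snd).clm_apply contDiffOn_const)).sub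
        (((hd.clm_apply contDiffOn_const).clm_apply contDiffOn_snd).clm_apply contDiffOn_snd)
  intro z hz
  have hch : ContDiffAt ℝ 1 (fun z : E3 × E3 => chris g z.1 z.2 z.2) z :=
    hS.contDiffAt ((hD.prod isOpen_univ).mem_nhds hz)
  obtain ⟨hx, -⟩ := hz
  have h2 : ContDiffAt ℝ 2 g z.1 :=
    (hk.smooth.contDiffAt (hD.mem_nhds hx)).of_le (WithTop.coe_le_coe.2 le_top)
  have hA : ContDiffAt ℝ 1 (fun z : E3 × E3 => g z.1) z :=
    (h2.of_le (by norm_num)).comp z contDiffAt_fst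
  obtain ⟨e, he⟩ := exists_equiv (hk.pos z.1 hx)
  have hinv : ContDiffAt ℝ 1 (fun z : E3 × E3 => (g z.1).inverse) z :=
    ContDiffAt.comp z (ContinuousLinearMap.IsInvertible.contDiffAt_map_inverse ⟨e, he⟩) hA
  exact (contDiffAt_snd.prodMk ((hinv.clm_apply hch).const_smul (1 / 2 : ℝ)).neg).contDiffWithinAt

theorem exists_lower (hD : IsOpen D) (hk : IsKaehlerOn g D) {y : E3} (hy : y ∈ D) :
    ∃ m > 0, ∀ᶠ x in 𝓝 y, ∀ u, m * ‖u‖ ^ 2 ≤ g x u u := by
  have hK : IsCompact (sphere (0 : E3) 1) := isCompact_sphere _ _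
  have hne : (sphere (0 : E3) 1).Nonempty := NormedSpace.sphere_nonempty.2 zero_le_one
  have hcont : ContinuousOn (fun u => g y u u) (sphere (0 : E3) 1) :=
    (((g y).continuous).clm_apply continuous_id).continuousOn
  obtain ⟨u₀, hu₀, hmin⟩ := hK.exists_isMinOn hne hcont
  have hu₀0 : u₀ ≠ 0 := fun h => by simp [h] at hu₀
  have hpos := hk.pos y hy u₀ hu₀0
  refine ⟨g y u₀ u₀ / 2, by positivity, ?_⟩
  have hev : ∀ᶠ x in 𝓝 y, ∀ u ∈ sphere (0 : E3) 1, g y u₀ u₀ / 2 < g x u u := by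
    refine hK.eventually_forall_of_forall_eventually fun u hu => ?_
    have hc : ContinuousAt (fun q : E3 × E3 => g q.1 q.2 q.2) (y, u) := by
      have h1 : ContinuousAt (fun q : E3 × E3 => g q.1) (y, u) :=
        (hk.smooth.continuousOn.continuousAt (hD.mem_nhds hy)).comp_of_eq continuousAt_fst rfl
      exact (h1.clm_apply continuousAt_snd).clm_apply continuousAt_snd
    refine hc.eventually (lt_mem_nhds ?_)
    have : g y u₀ u₀ ≤ g y u u := hmin hu
    show g y u₀ u₀ / 2 < g y u u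
    linarith
  filter_upwards [hev] with x hx u
  rcases eq_or_ne u 0 with rfl | hu
  · simp
  have hn : 0 < ‖u‖ := norm_pos_iff.2 hu
  have := hx (‖u‖⁻¹ • u) (by simp [norm_smul, hn.ne'])
  simp only [map_smul, smul_apply, smul_eq_mul] at this
  have e : g x u u = ‖u‖ ^ 2 * (‖u‖⁻¹ * (‖u‖⁻¹ * g x u u)) := by field_simp
  rw [e, mul_comm]
  exact mul_le_mul_of_nonneg_left this.le (by positivity)

/-- The energy of a solution is constant. -/
theorem hasDerivWithinAt_energy (hD : IsOpen D) (hk : IsKaehlerOn g D) {c u : ℝ → E3} {s : Set ℝ}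
    {t : ℝ} (hx : c t ∈ D) (hc : HasDerivWithinAt c (u t) s t)
    (hu : HasDerivWithinAt u (-gam g (c t) (u t) (u t)) s t) :
    HasDerivWithinAt (fun t => g (c t) (u t) (u t)) 0 s t := by
  have h1 : HasFDerivAt g (fderiv ℝ g (c t)) (c t) :=
    ((hk.smooth.contDiffAt (hD.mem_nhds hx)).differentiableAt (by simp)).hasFDerivAt
  have h2 : HasDerivWithinAt (fun t => g (c t)) (fderiv ℝ g (c t) (u t)) s t :=
    h1.comp_hasDerivWithinAt t hc
  have h3 : HasDerivWithinAt (fun t => g (c t) (u t))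
      (fderiv ℝ g (c t) (u t) (u t) + g (c t) (-gam g (c t) (u t) (u t))) s t := h2.clm_apply hu
  have h4 := h3.clm_apply hu
  refine h4.congr_deriv ?_
  rw [add_apply, hk.symm (c t) hx (u t) (-gam g (c t) (u t) (u t)), map_neg, neg_apply,
    apply_gam hk hx]
  simp [chris]
  ring

theorem spray_limit (hD : IsOpen D) (hk : IsKaehlerOn g D) (hc : CompleteOn g D) (b : ℝ)
    (z : ℝ → E3 × E3) (hb : 0 < b) (hz : SolOn (spray g) (D ×ˢ (univ : Set E3)) b z) :
    ∃ w ∈ D ×ˢ (univ : Set E3), Tendsto z (𝓝[<] b) (𝓝 w) := by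
  set c : ℝ → E3 := fun t => (z t).1
  set u : ℝ → E3 := fun t => (z t).2
  have hmem : ∀ t ∈ Ico 0 b, c t ∈ D := fun t ht => (hz t ht).1.1
  have hdc : ∀ t ∈ Ico 0 b, HasDerivWithinAt c (u t) (Ico 0 b) t := fun t ht => (hz t ht).2.fst
  have hdu : ∀ t ∈ Ico 0 b, HasDerivWithinAt u (-gam g (c t) (u t) (u t)) (Ico 0 b) t :=
    fun t ht => (hz t ht).2.snd
  have hderiv : ∀ t ∈ Ico 0 b, derivWithin c (Ico 0 b) t = u t := fun t ht =>
    (hdc t ht).derivWithin (uniqueDiffOn_Ico 0 b t ht)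
  have hcC : ContDiffOn ℝ 1 c (Ico 0 b) := by
    rw [show (1 : WithTop ℕ∞) = 0 + 1 from rfl,
      contDiffOn_succ_iff_derivWithin (uniqueDiffOn_Ico 0 b)]
    refine ⟨fun t ht => (hdc t ht).differentiableWithinAt, by simp, ?_⟩
    rw [contDiffOn_zero]
    exact (ContinuousOn.congr (fun t ht => (hdu t ht).continuousWithinAt) hderiv)
  set e : ℝ → ℝ := fun t => g (c t) (u t) (u t)
  have he : ∀ t ∈ Ico 0 b, HasDerivWithinAt e 0 (Ico 0 b) t := by
    intro t ht
    have hx := hmem t ht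
    exact hasDerivWithinAt_energy hD hk hx (hdc t ht) (hdu t ht)
  have hconst : ∀ t ∈ Ico 0 b, e t = e 0 := by
    intro t ht
    have := (convex_Ico (0 : ℝ) b).norm_image_sub_le_of_norm_hasDerivWithin_le (C := 0) he
      (fun _ _ => by simp) ⟨le_rfl, hb⟩ ht
    rw [zero_mul, norm_le_zero_iff, sub_eq_zero] at this
    exact this
  have hlen : ∀ t ∈ Ico 0 b, ∫ s in (0 : ℝ)..t,
      Real.sqrt (g (c s) (derivWithin c (Ico 0 b) s) (derivWithin c (Ico 0 b) s)) ≤
        b * Real.sqrt (e 0) := by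
    intro t ht
    rw [intervalIntegral.integral_congr (g := fun _ => Real.sqrt (e 0)) fun s hs => ?_]
    · simp only [intervalIntegral.integral_const, smul_eq_mul, sub_zero]
      exact mul_le_mul_of_nonneg_right ht.2.le (Real.sqrt_nonneg _)
    · rw [uIcc_of_le ht.1] at hs
      have hs' : s ∈ Ico 0 b := ⟨hs.1, hs.2.trans_lt ht.2⟩
      show Real.sqrt (g (c s) (derivWithin c (Ico 0 b) s) (derivWithin c (Ico 0 b) s)) = _
      rw [hderiv s hs', ← hconst s hs']
  obtain ⟨y, hy, hlim⟩ := hc c b hb hcC hmem ⟨_, hlen⟩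
  obtain ⟨m, hm, hev⟩ := exists_lower hD hk hy
  obtain ⟨δ, hδ, hδD⟩ := Metric.isOpen_iff.1 hD y hy
  set M := Real.sqrt (e 0 / m)
  have hs : IsCompact (closedBall y (δ / 2) ×ˢ closedBall (0 : E3) M) :=
    (isCompact_closedBall _ _).prod (isCompact_closedBall _ _)
  obtain ⟨N, hN⟩ := hs.exists_bound_of_continuousOn (f := spray g)
    ((contDiffOn_spray hD hk).continuousOn.mono
      (prod_mono ((closedBall_subset_ball (by linarith)).trans hδD) (subset_univ _)))
  have hIco : ∀ᶠ t in 𝓝[<] b, t ∈ Ico 0 b :=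
    mem_of_superset (Ioo_mem_nhdsLT hb) Ioo_subset_Ico_self
  have hbound : ∀ᶠ t in 𝓝[<] b, ‖-gam g (c t) (u t) (u t)‖ ≤ max N 0 ∧ t ∈ Ico 0 b := by
    filter_upwards [hIco, hlim.eventually hev,
      hlim.eventually (closedBall_mem_nhds y (show 0 < δ / 2 by linarith))] with t ht hlow hball
    refine ⟨?_, ht⟩
    have hu : u t ∈ closedBall (0 : E3) M := by
      rw [mem_closedBall_zero_iff]
      refine Real.le_sqrt_of_sq_le ?_
      rw [le_div_iff₀ hm]
      have h5 : m * ‖u t‖ ^ 2 ≤ e t := hlow (u t)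
      rw [hconst t ht] at h5
      linarith
    exact ((_root_.norm_snd_le (spray g (c t, u t))).trans (hN _ ⟨hball, hu⟩)).trans (le_max_left _ _)
  obtain ⟨l, hl, hsub⟩ := (mem_nhdsLT_iff_exists_Ioo_subset' hb).1 hbound
  have hlb : l < b := hl
  set t₀ := (max l 0 + b) / 2 with ht₀_def
  have hmax : max l 0 < t₀ := by rw [ht₀_def]; linarith [max_lt hlb hb]
  have ht₀b : t₀ < b := by rw [ht₀_def]; linarith [max_lt hlb hb]
  have ht₀0 : 0 ≤ t₀ := (le_max_right _ _).trans hmax.le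
  obtain ⟨w, hw⟩ := exists_limit (γ := u) (γ' := fun t => -gam g (c t) (u t) (u t))
    (σ := fun _ => (1 : ℝ)) (L := b) ht₀b (le_max_right N 0)
    (fun t ht => (hdu t ⟨ht₀0.trans ht.1, ht.2⟩).mono (Ico_subset_Ico_left ht₀0))
    continuousOn_const (fun _ _ => zero_le_one)
    (fun t ht => by
      rw [mul_one]
      exact (hsub ⟨((le_max_left l 0).trans_lt hmax).trans_le ht.1, ht.2⟩).1)
    (fun t ht => by simp; linarith [ht.2])
  exact ⟨(y, w), ⟨hy, trivial⟩, hlim.prodMk_nhds hw⟩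

/-- Geodesic completeness. -/
theorem geodesicallyComplete (hD : IsOpen D) (hk : IsKaehlerOn g D) (hc : CompleteOn g D) :
    GeodesicallyComplete g D := by
  intro x hx v
  have hU := hD.prod (isOpen_univ (X := E3))
  obtain ⟨zp, hp0, hp⟩ := exists_forever hU (contDiffOn_spray hD hk)
    (spray_limit hD hk hc) (show (x, v) ∈ D ×ˢ (univ : Set E3) from ⟨hx, trivial⟩)
  obtain ⟨zm, hm0, hm⟩ := exists_forever hU (contDiffOn_spray hD hk)
    (spray_limit hD hk hc) (show (x, -v) ∈ D ×ˢ (univ : Set E3) from ⟨hx, trivial⟩)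
  set z : ℝ → E3 × E3 := fun t => if 0 ≤ t then zp t else ((zm (-t)).1, -(zm (-t)).2) with hz_def
  have hneg : ∀ t ≤ 0, z t = ((zm (-t)).1, -(zm (-t)).2) := by
    intro t ht
    simp only [hz_def]
    split_ifs with h
    · obtain rfl : t = 0 := le_antisymm ht h
      simp [hp0, hm0]
    · rfl
  have hpos : ∀ t, 0 ≤ t → z t = zp t := fun t ht => if_pos ht
  have hbil : ∀ (y a : E3), gam g y (-a) (-a) = gam g y a a := fun y a => by
    have : chris g y (-a) (-a) = chris g y a a := by ext w; simp [chris, sub_eq_add_neg]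
    rw [gam, gam, this]
  have hl : ∀ t ≤ 0, (z t).1 ∈ D ∧ HasDerivWithinAt z (spray g (z t)) (Iic 0) t := by
    intro t ht
    obtain ⟨hD', hd⟩ := hm (-t) (neg_nonneg.2 ht)
    rw [hneg t ht]
    refine ⟨hD'.1, HasDerivWithinAt.congr ?_ (fun s hs => hneg s hs) (hneg t ht)⟩
    have hn : HasDerivWithinAt (fun s : ℝ => -s) (-1) (Iic 0) t :=
      (hasDerivAt_neg t).hasDerivWithinAt
    have hd' : HasDerivWithinAt (fun s => zm (-s)) ((-1 : ℝ) • spray g (zm (-t))) (Iic 0) t :=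
      hd.scomp t hn fun s hs => mem_Ici.2 (neg_nonneg.2 hs)
    have h1 : HasDerivWithinAt (fun s => (zm (-s)).1) ((-1 : ℝ) • spray g (zm (-t))).1 (Iic 0) t :=
      hd'.fst
    have h2 : HasDerivWithinAt (fun s => (zm (-s)).2) ((-1 : ℝ) • spray g (zm (-t))).2 (Iic 0) t :=
      hd'.snd
    refine (h1.prodMk h2.neg).congr_deriv ?_
    simp [spray, hbil]
  have hr : ∀ t, 0 ≤ t → (z t).1 ∈ D ∧ HasDerivWithinAt z (spray g (z t)) (Ici 0) t := by
    intro t ht
    obtain ⟨hD', hd⟩ := hp t ht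
    rw [hpos t ht]
    exact ⟨hD'.1, hd.congr (fun s hs => hpos s hs) (hpos t ht)⟩
  have hall : ∀ t, (z t).1 ∈ D ∧ HasDerivAt z (spray g (z t)) t := by
    intro t
    rcases lt_trichotomy t 0 with h | h | h
    · exact ⟨(hl t h.le).1, (hl t h.le).2.hasDerivAt (Iic_mem_nhds h)⟩
    · subst h
      have := (hl 0 le_rfl).2.union (hr 0 le_rfl).2
      rw [Iic_union_Ici, hasDerivWithinAt_univ] at this
      exact ⟨(hl 0 le_rfl).1, this⟩
    · exact ⟨(hr t h.le).1, (hr t h.le).2.hasDerivAt (Ici_mem_nhds h)⟩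
  refine ⟨fun t => (z t).1, fun t => (z t).2, ?_, ?_, fun t => ⟨(hall t).1, ?_, ?_⟩⟩
  · simp [hpos 0 le_rfl, hp0]
  · simp [hpos 0 le_rfl, hp0]
  · exact (hall t).2.hasFDerivAt.fst.hasDerivAt.congr_deriv (by simp [spray])
  · exact (hall t).2.hasFDerivAt.snd.hasDerivAt.congr_deriv (by simp [spray])

end Vale.Agent.P250.Disproof
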