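import Vale.Agent.P250.Disproof.Layer
import Vale.Agent.P250.Disproof.Hess

/-!
# P250 disproof, part 2: the dips have bounded jets in every normal chart

In a normal chart a layer is `dip h ∘ F`, where `F` is holomorphic and varies on a fixed ball by at
most a constant times `min σ σ⁻¹`; here `σ` grows geometrically with the layer.
-/

open Complex Filter Set Metric
open scoped Topology ContDiff

noncomputable section

namespace Vale.Agent.P250.Disproof

/-! ### One layer as a holomorphic function on the ball -/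

/-- A layer of `P` read in a normal chart. -/
def layerFun (a : ℂ) (s σ : ℝ) (ξ : B2) : ℂ := P (shift a s (dil σ (cayley ξ)))

theorem dil_shift_dil (t r : ℝ) (a : ℂ) (s : ℝ) (y : B2) :
    dil t (shift a s (dil r y)) = shift ((t : ℂ) * a) (t ^ 2 * s) (dil (t * r) y) := by
  refine Prod.ext ?_ ?_ <;>
    simp only [shift, dil, map_mul, conj_ofReal, normSq_ofReal, ofReal_mul, ofReal_pow] <;> ring

theorem layer_nchart (h q : ℝ) (k : ℕ) (x ξ : B2) :
    layer h q k (nchart x ξ) = dip h (layerFun ((q ^ k : ℝ) * x.1) ((q ^ k) ^ 2 * x.2.re)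
      (q ^ k * Real.sqrt (rho x)) ξ) := by
  simp only [layer, layerFun, nchart, dil_shift_dil]

theorem contDiff_P {n : WithTop ℕ∞} : ContDiff ℂ n P := by
  have h1 : ContDiff ℂ n theta := differentiable_theta.contDiff
  unfold P
  fun_prop

theorem one_add_ne_zero {ξ : B2} (hξ : ‖ξ‖ < 1 / 4) : 1 + ξ.2 ≠ 0 := fun h => by
  have h2 : ‖ξ.2‖ = 1 := by rw [eq_neg_of_add_eq_zero_right h, norm_neg, norm_one]
  linarith [norm_snd_le ξ]

theorem three_quarters_le {ξ : B2} (hξ : ‖ξ‖ < 1 / 4) : 3 / 4 ≤ ‖1 + ξ.2‖ := by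
  have := norm_sub_le_norm_add (1 : ℂ) ξ.2
  rw [norm_one] at this
  linarith [norm_snd_le ξ]

theorem contDiffOn_layerFun (a : ℂ) (s σ : ℝ) {n : WithTop ℕ∞} :
    ContDiffOn ℂ n (layerFun a s σ) (ball 0 (1 / 4)) := by
  intro ξ hξ
  rw [mem_ball_zero_iff] at hξ
  have hne := one_add_ne_zero hξ
  have hc : ContDiffAt ℂ n cayley ξ := by
    unfold cayley
    have h0 : ContDiffAt ℂ n (fun y : B2 => 1 + y.2) ξ := by fun_prop
    have h1 : ContDiffAt ℂ n (fun y : B2 => y.1) ξ := by fun_prop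
    have h2 : ContDiffAt ℂ n (fun y : B2 => I * (1 - y.2)) ξ := by fun_prop
    exact (h1.div h0 hne).prodMk (h2.div h0 hne)
  have hl : ContDiff ℂ n (fun y => shift a s (dil σ y)) := by unfold shift dil; fun_prop
  exact ((contDiff_P.comp hl).contDiffAt.comp ξ hc).contDiffWithinAt

theorem norm_cayley_sub {ξ : B2} (hξ : ‖ξ‖ < 1 / 4) : ‖cayley ξ - (0, I)‖ ≤ 3 * ‖ξ‖ := by
  have hne := one_add_ne_zero hξ
  have hd := three_quarters_le hξ
  have e : cayley ξ - (0, I) = (ξ.1 / (1 + ξ.2), -(2 * I * ξ.2) / (1 + ξ.2)) := by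
    refine Prod.ext (by simp [cayley]) ?_
    simp only [cayley, Prod.snd_sub]
    field_simp
    ring
  rw [e, norm_prod_le_iff]
  constructor <;> simp only [norm_div, norm_neg, norm_mul, Complex.norm_two, norm_I, mul_one] <;>
    rw [div_le_iff₀ (by linarith)] <;>
    nlinarith [norm_fst_le ξ, norm_snd_le ξ, norm_nonneg ξ,
      mul_le_mul_of_nonneg_left hd (norm_nonneg ξ)]

theorem half_le_rho_cayley {ξ : B2} (hξ : ‖ξ‖ < 1 / 4) : 1 / 2 ≤ rho (cayley ξ) := by
  have hne := one_add_ne_zero hξ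
  have hd := three_quarters_le hξ
  have h1 : ‖1 + ξ.2‖ ≤ 5 / 4 := by
    have := norm_add_le (1 : ℂ) ξ.2
    rw [norm_one] at this
    linarith [norm_snd_le ξ]
  have hN : 0 < normSq (1 + ξ.2) := normSq_pos.2 hne
  have e : rho (cayley ξ) = (1 - normSq ξ.2 - normSq ξ.1) / normSq (1 + ξ.2) := by
    simp only [rho, cayley, normSq_div, div_im, I_re, I_im, mul_re, mul_im, sub_re, sub_im, one_re,
      one_im, add_re, add_im]
    simp only [normSq_apply]
    field_simp
    ring
  rw [e, le_div_iff₀ hN, normSq_eq_norm_sq, normSq_eq_norm_sq, normSq_eq_norm_sq]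
  nlinarith [norm_nonneg (1 + ξ.2), norm_nonneg ξ.1, norm_nonneg ξ.2, norm_fst_le ξ,
    norm_snd_le ξ, norm_nonneg ξ]

theorem norm_layerFun_le_three {a : ℂ} {s σ : ℝ} {ξ : B2} (hξ : ‖ξ‖ < 1 / 4) :
    ‖layerFun a s σ ξ‖ ≤ 3 := by
  refine norm_P_le_three ?_
  rw [rho_shift, rho_dil]
  nlinarith [half_le_rho_cayley hξ, sq_nonneg σ]

/-! ### The variation of one layer -/

theorem shift_shift (b a : ℂ) (t s : ℝ) (y : B2) :
    shift b t (shift a s y) = shift (a + b) (s + t - 2 * ((starRingEnd ℂ) b * a).im) y := by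
  refine Prod.ext (by simp [shift]; ring) ?_
  apply Complex.ext <;> simp [shift, normSq_apply] <;> ring

theorem periodic_P_shift (a : ℂ) :
    Function.Periodic (fun s : ℝ => fun y => P (shift a s y)) 4 := fun s => by
  funext y
  have h := P_shift_real (shift a s y)
  rw [shift_shift] at h
  simpa using h

theorem exists_reduced (a : ℂ) (s : ℝ) : ∃ (b : ℂ) (t : ℝ), ‖b‖ ≤ 1 ∧ |t| ≤ 4 ∧
    ∀ y, P (shift a s y) = P (shift b t y) := by
  obtain ⟨m, n, hm, hn⟩ := exists_reduce a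
  set g : ℂ := (m : ℂ) + n * I
  obtain ⟨t, ht, he⟩ := (periodic_P_shift (a + g)).exists_mem_Ico₀ (by norm_num)
    (s + 2 * m * n - 2 * ((starRingEnd ℂ) g * a).im)
  refine ⟨a + g, t, ?_, by rw [abs_le]; constructor <;> linarith [ht.1, ht.2], fun y => ?_⟩
  · exact (norm_le_abs_re_add_abs_im _).trans (by linarith)
  · have h := P_shift_lattice m n (shift a s y)
    rw [shift_shift] at h
    rw [← h]
    exact congrFun he y

theorem norm_shift_sub {b : ℂ} (hb : ‖b‖ ≤ 1) (t : ℝ) (y z : B2) :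
    ‖shift b t y - shift b t z‖ ≤ 3 * ‖y - z‖ := by
  have h1 := norm_fst_le (y - z)
  have h2 := norm_snd_le (y - z)
  simp only [Prod.fst_sub, Prod.snd_sub] at h1 h2
  rw [norm_prod_le_iff]
  refine ⟨?_, ?_⟩
  · simp [shift]; linarith [norm_nonneg (y - z)]
  · have e : (shift b t y - shift b t z).2 =
        (y.2 - z.2) + 2 * I * (starRingEnd ℂ) b * (y.1 - z.1) := by simp [shift]; ring
    rw [e]
    refine (norm_add_le _ _).trans ?_
    rw [norm_mul, norm_mul, norm_mul, Complex.norm_two, norm_I, Complex.norm_conj]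
    nlinarith [norm_nonneg (y.1 - z.1), norm_nonneg b]

theorem norm_shift_le {b : ℂ} (hb : ‖b‖ ≤ 1) {t : ℝ} (ht : |t| ≤ 4) (y : B2) :
    ‖shift b t y‖ ≤ 3 * ‖y‖ + 5 := by
  have h0 : shift b t 0 = (b, I * (normSq b : ℝ) + t) := by simp [shift]
  have h1 : ‖shift b t 0‖ ≤ 5 := by
    rw [h0, norm_prod_le_iff]
    refine ⟨by show ‖b‖ ≤ 5; linarith, (norm_add_le _ _).trans ?_⟩
    rw [norm_mul, norm_I, Complex.norm_real, Complex.norm_real, Real.norm_eq_abs, Real.norm_eq_abs,
      abs_of_nonneg (normSq_nonneg _), normSq_eq_norm_sq]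
    nlinarith [norm_nonneg b]
  have h2 := norm_shift_sub hb t y 0
  rw [sub_zero] at h2
  have := norm_le_norm_add_norm_sub' (shift b t y) (shift b t 0)
  linarith

theorem norm_dil_sub {σ : ℝ} (h0 : 0 ≤ σ) (h1 : σ ≤ 1) (y z : B2) :
    ‖dil σ y - dil σ z‖ ≤ σ * ‖y - z‖ := by
  have hf := norm_fst_le (y - z)
  have hs := norm_snd_le (y - z)
  simp only [Prod.fst_sub, Prod.snd_sub] at hf hs
  rw [norm_prod_le_iff]
  simp only [dil, Prod.fst_sub, Prod.snd_sub, ← mul_sub, norm_mul, norm_pow, Complex.norm_real,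
    Real.norm_eq_abs, abs_of_nonneg h0]
  refine ⟨mul_le_mul_of_nonneg_left hf h0, ?_⟩
  exact mul_le_mul (by nlinarith) hs (norm_nonneg _) h0

/-- The size of layer `σ`. -/
def size (σ : ℝ) : ℝ := min σ σ⁻¹

theorem size_pos {σ : ℝ} (hσ : 0 < σ) : 0 < size σ := lt_min hσ (inv_pos.2 hσ)

theorem size_le_one {σ : ℝ} : size σ ≤ 1 := by
  rcases le_total σ 1 with h | h
  · exact (min_le_left _ _).trans h
  · exact (min_le_right _ _).trans (inv_le_one_of_one_le₀ h)

theorem exists_variation : ∃ M : ℝ, 0 < M ∧ ∀ (a : ℂ) (s σ : ℝ), 0 < σ →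
    ∀ ξ ∈ ball (0 : B2) (1 / 4), ‖layerFun a s σ ξ - layerFun a s σ 0‖ ≤ M * size σ := by
  have hP : ContDiff ℝ 1 P := contDiff_P.restrict_scalars ℝ
  obtain ⟨L, hL⟩ := hP.contDiffOn.exists_lipschitzOnWith (s := closedBall (0 : B2) 11) (by norm_num)
    (convex_closedBall _ _) (isCompact_closedBall _ _)
  refine ⟨(L : ℝ) * 9 + 8, by positivity, fun a s σ hσ ξ hξ => ?_⟩
  rw [mem_ball_zero_iff] at hξ
  have hc0 : cayley 0 = ((0, I) : B2) := by simp [cayley]
  rcases le_total σ 1 with h1 | h1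
  · obtain ⟨b, t, hb, ht, he⟩ := exists_reduced a s
    have hsz : size σ = σ := min_eq_left (h1.trans (one_le_inv_iff₀.2 ⟨hσ, h1⟩))
    have hI : ‖((0, I) : B2)‖ = 1 := by simp [Prod.norm_def]
    have hmem : ∀ y : B2, ‖y‖ ≤ 2 → shift b t (dil σ y) ∈ closedBall (0 : B2) 11 := fun y hy => by
      rw [mem_closedBall_zero_iff]
      have := norm_dil_sub hσ.le h1 y 0
      rw [show dil σ 0 = 0 by simp [dil], sub_zero, sub_zero] at this
      have := norm_shift_le hb ht (dil σ y)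
      nlinarith [norm_nonneg y, norm_nonneg (dil σ y)]
    have hy : ‖cayley ξ‖ ≤ 2 := by
      have := norm_le_norm_add_norm_sub' (cayley ξ) ((0, I) : B2)
      linarith [norm_cayley_sub hξ]
    have h := hL.norm_sub_le (hmem _ hy) (hmem _ (show ‖cayley 0‖ ≤ 2 by rw [hc0, hI]; norm_num))
    rw [layerFun, layerFun, he, he]
    refine h.trans ?_
    have h3 := (norm_shift_sub hb t (dil σ (cayley ξ)) (dil σ (cayley 0))).trans
      (mul_le_mul_of_nonneg_left (norm_dil_sub hσ.le h1 _ _) (by norm_num : (0:ℝ) ≤ 3))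
    rw [hsz]
    have h4 : ‖cayley ξ - cayley 0‖ ≤ 3 := by rw [hc0]; linarith [norm_cayley_sub hξ]
    nlinarith [mul_le_mul_of_nonneg_left h3 L.coe_nonneg,
      mul_le_mul_of_nonneg_left h4 (mul_nonneg L.coe_nonneg hσ.le)]
  · have hsz : size σ = σ⁻¹ := min_eq_right ((inv_le_one_of_one_le₀ h1).trans h1)
    have hb : ∀ ζ : B2, ‖ζ‖ < 1 / 4 → ‖layerFun a s σ ζ‖ ≤ 4 * σ⁻¹ := fun ζ hζ => by
      have hr := half_le_rho_cayley hζ
      have hpos : 0 < σ ^ 2 * rho (cayley ζ) := by positivity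
      refine (norm_P_le_inv (by rwa [rho_shift, rho_dil])).trans ?_
      rw [rho_shift, rho_dil, ← div_eq_mul_inv, div_le_div_iff₀ hpos hσ]
      nlinarith [mul_le_mul_of_nonneg_left hr (sq_nonneg σ)]
    have h0 := hb 0 (by norm_num)
    rw [hsz]
    refine (norm_sub_le _ _).trans ?_
    nlinarith [hb ξ hξ, mul_nonneg L.coe_nonneg (inv_nonneg.2 hσ.le)]

/-! ### Cauchy estimates -/

/-- The radii for the Cauchy estimates. -/
def rad (n : ℕ) : ℝ := 1 / 8 + 1 / (8 * ((n : ℝ) + 1))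

theorem rad_succ_lt (n : ℕ) : rad (n + 1) < rad n := by
  unfold rad
  push_cast
  gcongr
  linarith

theorem eighth_lt_rad (n : ℕ) : 1 / 8 < rad n := lt_add_of_pos_right _ (by positivity)

theorem rad_le (n : ℕ) : rad n ≤ 1 / 4 := by
  have : 1 / (8 * ((n : ℝ) + 1)) ≤ 1 / 8 := by gcongr; linarith [Nat.cast_nonneg (α := ℝ) n]
  unfold rad
  linarith

/-- All derivatives of a bounded holomorphic function on the ball, on a smaller ball. -/
theorem cauchy_bound (n : ℕ) : ∃ c : ℝ, 0 ≤ c ∧ ∀ (g : B2 → ℂ) (M : ℝ), 0 ≤ M →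
    ContDiffOn ℂ ∞ g (ball 0 (1 / 4)) → (∀ ξ ∈ ball (0 : B2) (1 / 4), ‖g ξ‖ ≤ M) →
    ∀ ξ ∈ ball (0 : B2) (rad n), ‖iteratedFDeriv ℂ n g ξ‖ ≤ c * M := by
  induction n with
  | zero =>
    refine ⟨1, zero_le_one, fun g M _ _ hb ξ hξ => ?_⟩
    rw [norm_iteratedFDeriv_zero, one_mul]
    exact hb ξ (ball_subset_ball (rad_le 0) hξ)
  | succ n ih =>
    obtain ⟨c, hc, ih⟩ := ih
    have hd : 0 < rad n - rad (n + 1) := sub_pos.2 (rad_succ_lt n)
    refine ⟨2 * c / (rad n - rad (n + 1)), by positivity, fun g M hM hg hb ξ hξ => ?_⟩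
    have hsub : ball ξ (rad n - rad (n + 1)) ⊆ ball 0 (rad n) := by
      refine ball_subset_ball' ?_
      rw [mem_ball] at hξ
      linarith
    have hdiff : DifferentiableOn ℂ (iteratedFDeriv ℂ n g) (ball ξ (rad n - rad (n + 1))) :=
      fun y hy => ((hg.contDiffAt (isOpen_ball.mem_nhds (ball_subset_ball (rad_le n) (hsub hy))))
        |>.differentiableAt_iteratedFDeriv (by exact_mod_cast ENat.natCast_lt_top n)).differentiableWithinAt
    have hmaps : MapsTo (iteratedFDeriv ℂ n g) (ball ξ (rad n - rad (n + 1)))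
        (closedBall (iteratedFDeriv ℂ n g ξ) (2 * (c * M))) := fun y hy => by
      rw [mem_closedBall, dist_eq_norm]
      refine (norm_sub_le _ _).trans ?_
      linarith [ih g M hM hg hb y (hsub hy), ih g M hM hg hb ξ (hsub (mem_ball_self hd))]
    have := Complex.norm_fderiv_le_div_of_mapsTo_ball hdiff hmaps hd
    rw [norm_fderiv_iteratedFDeriv] at this
    refine this.trans (le_of_eq ?_)
    ring

/-- A real-smooth map into the ball which is the identity near `0`. -/
def cut (ξ : B2) : B2 :=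
  (⟨1 / 32, 1 / 16, by norm_num, by norm_num⟩ : ContDiffBump (0 : B2)) ξ • ξ

theorem contDiff_cut {n : ℕ∞} : ContDiff ℝ n cut :=
  (ContDiffBump.contDiff _).smul contDiff_id

theorem cut_mem (ξ : B2) : cut ξ ∈ ball (0 : B2) (1 / 8) := by
  rw [mem_ball_zero_iff, cut]
  set φ : ContDiffBump (0 : B2) := ⟨1 / 32, 1 / 16, by norm_num, by norm_num⟩
  rcases le_or_gt (1 / 16) ‖ξ‖ with h | h
  · rw [φ.zero_of_le_dist (by simpa [φ] using h), zero_smul, norm_zero]; norm_num
  · rw [norm_smul, Real.norm_eq_abs, abs_of_nonneg φ.nonneg]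
    nlinarith [φ.le_one (x := ξ), φ.nonneg (x := ξ), norm_nonneg ξ]

theorem cut_eventuallyEq : cut =ᶠ[𝓝 (0 : B2)] id := by
  filter_upwards [closedBall_mem_nhds (0 : B2) (show (0:ℝ) < 1 / 32 by norm_num)] with ξ hξ
  rw [cut, ContDiffBump.one_of_mem_closedBall _ hξ, one_smul, id]

theorem cut_bound (n : ℕ) : ∃ C : ℝ, ∀ ξ, ‖iteratedFDeriv ℝ n cut ξ‖ ≤ C := by
  have hcs : HasCompactSupport cut := by
    unfold cut
    exact (ContDiffBump.hasCompactSupport _).smul_right
  exact (ContDiff.continuous_iteratedFDeriv' contDiff_cut).bounded_above_of_compact_support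
    (hcs.iteratedFDeriv n)

theorem cut_bound_all (n : ℕ) :
    ∃ D : ℝ, 1 ≤ D ∧ ∀ i, 1 ≤ i → i ≤ n → ∀ ξ, ‖iteratedFDeriv ℝ i cut ξ‖ ≤ D ^ i := by
  choose C hC using cut_bound
  set D := 1 + ∑ i ∈ Finset.range (n + 1), |C i|
  have hD1 : 1 ≤ D := le_add_of_nonneg_right (Finset.sum_nonneg fun i _ => abs_nonneg _)
  refine ⟨D, hD1, fun i h1 h2 ξ => ?_⟩
  calc ‖iteratedFDeriv ℝ i cut ξ‖ ≤ |C i| := (hC i ξ).trans (le_abs_self _)
    _ ≤ D := by
        have := Finset.single_le_sum (f := fun i => |C i|) (fun i _ => abs_nonneg (C i))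
          (Finset.mem_range_succ_iff.2 h2)
        simp only [D]; linarith
    _ ≤ D ^ i := le_self_pow₀ hD1 (by omega)

theorem contDiff_layerFun_cut (a : ℂ) (s σ : ℝ) {n : ℕ∞} :
    ContDiff ℝ n (fun ξ => layerFun a s σ (cut ξ)) :=
  (((contDiffOn_layerFun a s σ).restrict_scalars ℝ).mono (ball_subset_ball (by norm_num : (1:ℝ)/8 ≤ 1/4))
    ).comp_contDiff contDiff_cut cut_mem

theorem layerFun_jet_bound (n : ℕ) : ∃ c : ℝ, 0 ≤ c ∧ ∀ (a : ℂ) (s σ : ℝ), 0 < σ → ∀ ξ : B2,
    ‖iteratedFDeriv ℝ n (fun η => layerFun a s σ (cut η) - layerFun a s σ 0) ξ‖ ≤ c * size σ := by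
  obtain ⟨M, hM, hv⟩ := exists_variation
  choose c hc hb using cauchy_bound
  obtain ⟨D, hD1, hD⟩ := cut_bound_all n
  set B := ∑ i ∈ Finset.range (n + 1), c i
  have hB : 0 ≤ B := Finset.sum_nonneg fun i _ => hc i
  refine ⟨n.factorial * (B * M) * D ^ n, by positivity, fun a s σ hσ ξ => ?_⟩
  have hsz := (size_pos hσ).le
  set g := fun η => layerFun a s σ η - layerFun a s σ 0
  have hg : ContDiffOn ℂ ∞ g (ball 0 (1 / 4)) :=
    (contDiffOn_layerFun a s σ).sub contDiffOn_const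
  refine (norm_iteratedFDeriv_comp_le' (g := g) (f := cut) (t := ball 0 (1 / 8)) (N := (n : ℕ∞))
    (range_subset_iff.2 cut_mem) isOpen_ball.uniqueDiffOn
    ((((contDiffOn_layerFun a s σ).sub contDiffOn_const).restrict_scalars ℝ).mono
      (ball_subset_ball (by norm_num)))
    contDiff_cut le_rfl ξ (C := B * (M * size σ)) (fun i hi => ?_)
    (fun i h1 h2 => hD i h1 h2 ξ)).trans (le_of_eq (by ring))
  have hmem := cut_mem ξ
  rw [iteratedFDerivWithin_of_isOpen i isOpen_ball hmem]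
  have hcd : ContDiffAt ℂ (i : ℕ∞) g (cut ξ) :=
    (hg.contDiffAt (isOpen_ball.mem_nhds (ball_subset_ball (by norm_num) hmem))).of_le
      (WithTop.coe_le_coe.2 le_top)
  rw [← hcd.restrictScalars_iteratedFDeriv (𝕜 := ℝ), Function.comp_apply,
    ContinuousMultilinearMap.norm_restrictScalars]
  refine (hb i g (M * size σ) (by positivity) hg (fun η hη => hv a s σ hσ η hη) _
    (ball_subset_ball (eighth_lt_rad i).le hmem)).trans ?_
  gcongr
  exact Finset.single_le_sum (fun j _ => hc j) (Finset.mem_range_succ_iff.2 hi)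

/-! ### The layer after the dip -/

theorem contDiff_dip {h : ℝ} (hh : 0 < h) {n : WithTop ℕ∞} : ContDiff ℝ n (dip h) := by
  have e : dip h = fun ξ =>
      Real.log (((ξ.re - lvl) * (ξ.re - lvl) + ξ.im * ξ.im + h ^ 2) / (lvl ^ 2 + h ^ 2)) := by
    funext ξ; simp [dip, normSq_apply]
  rw [e]
  have h1 : ContDiff ℝ n (fun ξ : ℂ => ξ.re) := reCLM.contDiff
  have h2 : ContDiff ℝ n (fun ξ : ℂ => ξ.im) := imCLM.contDiff
  exact ((((h1.sub contDiff_const).mul (h1.sub contDiff_const)).add (h2.mul h2)).add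
    contDiff_const).div_const _ |>.log fun ξ => by
      have := lvl_sq_pos h
      have := mul_self_nonneg (ξ.re - lvl)
      have := mul_self_nonneg ξ.im
      positivity

theorem dip_jet_bound {h : ℝ} (hh : 0 < h) (n : ℕ) :
    ∃ C : ℝ, 0 ≤ C ∧ ∀ i ≤ n, ∀ z : ℂ, ‖z‖ ≤ 3 → ‖iteratedFDeriv ℝ i (dip h) z‖ ≤ C := by
  choose C hC using fun i : ℕ => (isCompact_closedBall (0 : ℂ) 3).exists_bound_of_continuousOn
    (ContDiff.continuous_iteratedFDeriv' (m := i) (contDiff_dip hh)).continuousOn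
  refine ⟨∑ i ∈ Finset.range (n + 1), |C i|, Finset.sum_nonneg fun i _ => abs_nonneg _,
    fun i hi z hz => ?_⟩
  exact ((hC i z (by simpa using hz)).trans (le_abs_self _)).trans
    (Finset.single_le_sum (f := fun i => |C i|) (fun j _ => abs_nonneg _)
      (Finset.mem_range_succ_iff.2 hi))

theorem layer_jet_bound {h : ℝ} (hh : 0 < h) (n : ℕ) (hn : 1 ≤ n) :
    ∃ c : ℝ, ∀ (a : ℂ) (s σ : ℝ), 0 < σ → ∀ ξ : B2,
      ‖iteratedFDeriv ℝ n (fun η => dip h (layerFun a s σ (cut η))) ξ‖ ≤ c * size σ := by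
  choose c hc hb using layerFun_jet_bound
  obtain ⟨C, hC, hdip⟩ := dip_jet_bound hh n
  set E := 1 + ∑ i ∈ Finset.range (n + 1), c i
  have hE : 1 ≤ E := le_add_of_nonneg_right (Finset.sum_nonneg fun i _ => hc i)
  refine ⟨n.factorial * C * E ^ n, fun a s σ hσ ξ => ?_⟩
  set u := size σ ^ ((n : ℝ)⁻¹)
  have hs := size_pos hσ
  have hu0 : 0 ≤ u := Real.rpow_nonneg hs.le _
  have hun : u ^ n = size σ := Real.rpow_inv_natCast_pow hs.le (by omega)
  have hu1 : u ≤ 1 := Real.rpow_le_one hs.le size_le_one (by positivity)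
  have hz : ‖layerFun a s σ (cut ξ)‖ ≤ 3 := by
    refine norm_layerFun_le_three ?_
    have := cut_mem ξ
    rw [mem_ball_zero_iff] at this
    linarith
  refine (norm_iteratedFDeriv_comp_le (g := dip h) (f := fun η => layerFun a s σ (cut η))
    (N := (n : ℕ∞)) (contDiff_dip hh) (contDiff_layerFun_cut a s σ) le_rfl ξ
    (C := C) (D := E * u) (fun i hi => hdip i hi _ hz) (fun i h1 h2 => ?_)).trans
    (le_of_eq (by rw [mul_pow, hun]; ring))
  have e : iteratedFDeriv ℝ i (fun η => layerFun a s σ (cut η)) ξ =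
      iteratedFDeriv ℝ i (fun η => layerFun a s σ (cut η) - layerFun a s σ 0) ξ := by
    obtain ⟨j, rfl⟩ := Nat.exists_eq_succ_of_ne_zero (by omega : i ≠ 0)
    rw [iteratedFDeriv_succ_eq_comp_right, iteratedFDeriv_succ_eq_comp_right]
    simp only [Function.comp_apply]
    rw [show fderiv ℝ (fun η => layerFun a s σ (cut η) - layerFun a s σ 0) =
      fderiv ℝ (fun η => layerFun a s σ (cut η)) from funext fun _ => fderiv_sub_const _]
  rw [e]
  refine (hb i a s σ hσ ξ).trans ?_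
  rw [mul_pow]
  refine mul_le_mul ?_ (hun ▸ pow_le_pow_of_le_one hu0 hu1 h2) hs.le (by positivity)
  refine le_trans ?_ (le_self_pow₀ hE (by omega))
  have := Finset.single_le_sum (fun j _ => hc j) (Finset.mem_range_succ_iff.2 h2)
  simp only [E]; linarith

/-! ### The geometric sum -/

theorem sum_size_le {q : ℝ} (hq : 1 < q) : ∀ (n : ℕ) (r : ℝ), 0 < r →
    ∑ k ∈ Finset.range n, size (q ^ k * r) ≤
      if r ≤ 1 then 2 * q / (q - 1) - r / (q - 1) else r⁻¹ * (q / (q - 1)) := by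
  have hd : 0 < q - 1 := by linarith
  intro n
  induction n with
  | zero =>
    intro r hr
    rw [Finset.range_zero, Finset.sum_empty]
    split_ifs with h
    · rw [← sub_div]; exact div_nonneg (by linarith) hd.le
    · positivity
  | succ n ih =>
    intro r hr
    have e : ∑ k ∈ Finset.range n, size (q ^ (k + 1) * r) =
        ∑ k ∈ Finset.range n, size (q ^ k * (q * r)) :=
      Finset.sum_congr rfl fun k _ => by rw [pow_succ, mul_assoc]
    rw [Finset.sum_range_succ', e, pow_zero, one_mul]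
    refine (add_le_add_left (ih (q * r) (by positivity)) _).trans ?_
    have h1 : size r ≤ r := min_le_left _ _
    have h2 : size r ≤ r⁻¹ := min_le_right _ _
    split_ifs with hA hB
    · have : r + (2 * q / (q - 1) - q * r / (q - 1)) = 2 * q / (q - 1) - r / (q - 1) := by
        field_simp; ring
      linarith
    · nlinarith
    · have hq0 : q / (q - 1) * (q * r)⁻¹ ≤ q / (q - 1) :=
        mul_le_of_le_one_right (by positivity) (inv_le_one_of_one_le₀ (not_le.1 hA).le)
      have : r * (q / (q - 1)) + q / (q - 1) ≤ 2 * q / (q - 1) := by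
        have : q / (q - 1) * r ≤ q / (q - 1) * 1 := by gcongr
        rw [mul_div_assoc]; linarith
      have : r + (q / (q - 1)) + r / (q - 1) = r * (q / (q - 1)) + q / (q - 1) := by
        field_simp; ring
      linarith
    · have : r⁻¹ + (q * r)⁻¹ * (q / (q - 1)) = r⁻¹ * (q / (q - 1)) := by
        field_simp; ring
      linarith

theorem sum_size_le' {q r : ℝ} (hq : 1 < q) (hr : 0 < r) (n : ℕ) :
    ∑ k ∈ Finset.range n, size (q ^ k * r) ≤ 2 * q / (q - 1) := by
  have hd : 0 < q - 1 := by linarith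
  refine (sum_size_le hq n r hr).trans ?_
  split_ifs with h
  · linarith [div_nonneg hr.le hd.le]
  · rw [mul_div_assoc]
    exact mul_le_mul_of_nonneg_right
      ((inv_le_one_of_one_le₀ (not_le.1 h).le).trans one_le_two) (by positivity)

/-! ### Plurisubharmonicity -/

theorem levi_dip {h : ℝ} (hh : 0 < h) (z w : ℂ) : 0 ≤ levi (dip h) z w := by
  let a := reCLM
  let b := imCLM
  have e : dip h = fun ξ => -Real.log (lvl ^ 2 + h ^ 2) +
      Real.log ((h ^ 2 + lvl ^ 2) + (a ξ * a ξ + b ξ * b ξ + (-2 * lvl) * a ξ)) := by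
    funext ξ
    rw [dip, Real.log_div (dip_arg_pos hh ξ).ne' (lvl_sq_pos h).ne']
    simp [normSq_apply, a, b]
    ring_nf
  set N := fun ξ : ℂ => (h ^ 2 + lvl ^ 2) + (a ξ * a ξ + b ξ * b ξ + (-2 * lvl) * a ξ) with hN
  have ha : ContDiffAt ℝ 2 (fun y => a y) z := a.contDiff.contDiffAt
  have hb : ContDiffAt ℝ 2 (fun y => b y) z := b.contDiff.contDiffAt
  have hc : ContDiffAt ℝ 2 (fun ξ => a ξ * a ξ + b ξ * b ξ + (-2 * lvl) * a ξ) z :=
    ((ha.mul ha).add (hb.mul hb)).add (contDiffAt_const.mul ha)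
  have hs2 : ∀ u, hs N z u u = 2 * normSq u := fun u => by
    rw [hN, hs_const_add, hs_add ((ha.mul ha).add (hb.mul hb)) (contDiffAt_const.mul ha),
      hs_add (ha.mul ha) (hb.mul hb), hs_mul ha ha, hs_mul hb hb, hs_const_mul ha, hs_clm, hs_clm,
      a.fderiv, b.fderiv, normSq_apply]
    simp [a, b]
    ring
  have hd : ∀ u, fderiv ℝ N z u = 2 * (a z - lvl) * a u + 2 * b z * b u := fun u => by
    have h := (((a.hasFDerivAt (x := z)).fun_mul a.hasFDerivAt).fun_add
      ((b.hasFDerivAt (x := z)).fun_mul b.hasFDerivAt)).fun_add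
      (a.hasFDerivAt.const_mul (-2 * lvl)) |>.const_add (h ^ 2 + lvl ^ 2)
    rw [hN, h.fderiv]
    simp [a, b]
    ring
  have hval : N z = normSq (z - lvl) + h ^ 2 := by simp [hN, normSq_apply, a, b]; ring
  have hpos : 0 < N z := hval ▸ dip_arg_pos hh z
  have hN2 : ContDiffAt ℝ 2 N z := contDiffAt_const.add hc
  rw [e, levi, hs_const_add, hs_const_add, ← levi, levi_log hN2 hpos.ne', levi, hs2, hs2, hd, hd,
    smul_eq_mul, normSq_mul, normSq_I]
  have e2 : (2 * (a z - lvl) * a w + 2 * b z * b w) ^ 2 +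
      (2 * (a z - lvl) * a (I * w) + 2 * b z * b (I * w)) ^ 2 =
      4 * (normSq (z - lvl) * normSq w) := by
    simp [a, b, normSq_apply]; ring
  rw [e2]
  have : (N z)⁻¹ * ((2 * normSq w + 2 * (1 * normSq w)) / 4) -
      4 * (normSq (z - lvl) * normSq w) / (4 * N z ^ 2) = normSq w * h ^ 2 / N z ^ 2 := by
    rw [show normSq (z - lvl) = N z - h ^ 2 by rw [hval]; ring]
    field_simp
    ring
  rw [this]
  have := normSq_nonneg w
  positivity

/-! ### The jets -/

theorem jets {h q : ℝ} (hh : 0 < h) (hq : 1 < q) : Jets h q := by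
  obtain ⟨M, hM, hv⟩ := exists_variation
  choose c hc using fun n : ℕ => layer_jet_bound hh (n + 1) (Nat.succ_le_succ (Nat.zero_le n))
  refine ⟨(∑ m ∈ Finset.range 4, |c m|) * (2 * q / (q - 1)), fun x hx => ?_⟩
  have hr : 0 < Real.sqrt (rho x) := Real.sqrt_pos.2 hx
  set σ : ℕ → ℝ := fun k => q ^ k * Real.sqrt (rho x)
  have hσ : ∀ k, 0 < σ k := fun k => mul_pos (pow_pos (by linarith) k) hr
  have hsum : Summable fun k => size (σ k) :=
    summable_of_sum_range_le (fun k => (size_pos (hσ k)).le) (sum_size_le' hq hr)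
  have htsum : ∑' k, size (σ k) ≤ 2 * q / (q - 1) :=
    Real.tsum_le_of_sum_range_le (fun k => (size_pos (hσ k)).le) (sum_size_le' hq hr)
  set F : ℕ → B2 → ℂ := fun k => layerFun ((q ^ k : ℝ) * x.1) ((q ^ k) ^ 2 * x.2.re) (σ k)
  set G : ℕ → B2 → ℝ := fun k ξ => dip h (F k (cut ξ))
  have hG : ∀ k (N : ℕ∞), ContDiff ℝ N (G k) := fun k N =>
    (contDiff_dip hh).comp (contDiff_layerFun_cut _ _ _)
  have heq : dipsAt h q x =ᶠ[𝓝 0] fun ξ => ∑' k, G k ξ := by
    filter_upwards [cut_eventuallyEq] with ξ hξ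
    simp only [dipsAt, dips, layer_nchart, G, F, σ, hξ, id]
  let v : ℕ → ℕ → ℝ := fun m k => match m with
    | 0 => |dip h (F k 0)| + 2 / h * M * size (σ k)
    | j + 1 => c j * size (σ k)
  have hvs : ∀ m : ℕ, (m : ℕ∞) ≤ ⊤ → Summable (v m) := fun m _ => by
    match m with
    | 0 =>
      refine Summable.add ?_ (hsum.mul_left _)
      have := (summable_layer hh hq hx).abs
      refine this.congr fun k => ?_
      have e : nchart x 0 = x := by
        refine Prod.ext (by simp [nchart, cayley, shift, dil]) ?_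
        apply Complex.ext <;>
          simp [nchart, cayley, shift, dil, ← ofReal_pow, Real.sq_sqrt (le_of_lt hx)]
        simp [rho]
      have := layer_nchart h q k x 0
      rw [e] at this
      rw [this]
    | j + 1 => exact hsum.mul_left _
  have hvb : ∀ (m k : ℕ) (ξ : B2), (m : ℕ∞) ≤ ⊤ → ‖iteratedFDeriv ℝ m (G k) ξ‖ ≤ v m k := by
    intro m k ξ _
    match m with
    | 0 =>
      rw [norm_iteratedFDeriv_zero, Real.norm_eq_abs]
      have h1 := abs_dip_sub_le hh (F k (cut ξ)) (F k 0)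
      have h2 : ‖F k (cut ξ) - F k 0‖ ≤ M * size (σ k) :=
        hv _ _ _ (hσ k) _ (ball_subset_ball (by norm_num) (cut_mem ξ))
      have h3 := mul_le_mul_of_nonneg_left h2 (by positivity : 0 ≤ 2 / h)
      have h4 := abs_add_le (dip h (F k (cut ξ)) - dip h (F k 0)) (dip h (F k 0))
      rw [sub_add_cancel] at h4
      simp only [v, G]
      linarith
    | j + 1 => exact hc j _ _ _ (hσ k) ξ
  have hsmooth : ContDiff ℝ ∞ (fun ξ => ∑' k, G k ξ) :=
    contDiff_tsum (fun k => hG k ⊤) hvs hvb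
  have hder : ∀ m : ℕ, iteratedFDeriv ℝ m (dipsAt h q x) 0 = ∑' k, iteratedFDeriv ℝ m (G k) 0 :=
    fun m => ((heq.iteratedFDeriv ℝ m).eq_of_nhds).trans
      (iteratedFDeriv_tsum_apply (fun k => hG k ⊤) hvs hvb le_top 0)
  refine ⟨hsmooth.contDiffAt.congr_of_eventuallyEq heq, fun m h1 h4 => ?_, fun w => ?_⟩
  · obtain ⟨j, rfl⟩ := Nat.exists_eq_succ_of_ne_zero (by omega : m ≠ 0)
    rw [hder]
    refine (tsum_of_norm_bounded (hsum.mul_left (c j)).hasSum
      (fun k => hc j _ _ _ (hσ k) 0)).trans ?_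
    rw [tsum_mul_left]
    refine mul_le_mul ((le_abs_self _).trans ?_) htsum
      (tsum_nonneg fun k => (size_pos (hσ k)).le) (Finset.sum_nonneg fun i _ => abs_nonneg _)
    exact Finset.single_le_sum (f := fun i => |c i|) (fun i _ => abs_nonneg _)
      (Finset.mem_range.2 (by omega))
  · have hs' : Summable fun k => iteratedFDeriv ℝ 2 (G k) 0 :=
      .of_norm_bounded (hvs 2 le_top) fun k => hvb 2 k 0 le_top
    have e2 : ∀ u : B2, fderiv ℝ (fderiv ℝ (dipsAt h q x)) 0 u u = ∑' k, hs (G k) 0 u u := by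
      intro u
      have := congrArg (fun A => A ![u, u]) (hder 2)
      simp only [ContinuousMultilinearMap.tsum_eval hs', iteratedFDeriv_two_apply] at this
      simpa [hs] using this
    have hsu : ∀ u : B2, Summable fun k => hs (G k) 0 u u := fun u => by
      have := (ContinuousMultilinearMap.hasSum_eval hs'.hasSum ![u, u]).summable
      simp only [iteratedFDeriv_two_apply] at this
      simpa [hs] using this
    rw [e2, e2, ← (hsu w).tsum_add (hsu (I • w))]
    refine tsum_nonneg fun k => ?_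
    have hloc : G k =ᶠ[𝓝 0] dip h ∘ F k := by
      filter_upwards [cut_eventuallyEq] with ξ hξ
      simp only [G, Function.comp, hξ, id]
    have hF : ContDiffAt ℂ 2 (F k) 0 :=
      (contDiffOn_layerFun _ _ _).contDiffAt (isOpen_ball.mem_nhds (mem_ball_self (by norm_num)))
    have h4 : 0 ≤ levi (G k) 0 w := by
      rw [levi_congr hloc, levi_comp (contDiff_dip hh).contDiffAt hF]
      exact levi_dip hh _ _
    unfold levi at h4
    linarith

end Vale.Agent.P250.Disproof

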