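import Vale.Agent.P250.Disproof.Defs
import Vale.Agent.P250.Disproof.Lower

/-!
# P250 disproof: the total space is homeomorphic to a convex set
-/

open Filter Complex Set
open scoped Topology

noncomputable section

namespace Vale.Agent.P250.Disproof

/-- The convex model of the total space. -/
def flat : Set E3 := {y | 0 < rho (base y) ∧ normSq (y 2) < 1}

theorem convex_flat : Convex ℝ flat := by
  intro x hx y hy a b ha hb hab
  obtain ⟨hx1, hx2⟩ := hx
  obtain ⟨hy1, hy2⟩ := hy
  simp only [rho, base, normSq_apply] at hx1 hy1 hx2 hy2
  refine ⟨?_, ?_⟩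
  · simp only [rho, base, normSq_apply, Pi.add_apply, Pi.smul_apply, add_re, add_im, smul_re,
      smul_im, smul_eq_mul]
    have key : ∀ p q : ℝ, (a * p + b * q) * (a * p + b * q) ≤ a * (p * p) + b * (q * q) := by
      intro p q
      have : b = 1 - a := by linarith
      subst this
      nlinarith [mul_nonneg (mul_nonneg ha hb) (sq_nonneg (p - q))]
    have k1 := key (x 0).re (y 0).re
    have k2 := key (x 0).im (y 0).im
    rcases ha.eq_or_lt with rfl | ha'
    · simp only [zero_add] at hab; subst hab; linarith
    · nlinarith [mul_pos ha' hx1, mul_nonneg hb hy1.le]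
  · simp only [normSq_apply, Pi.add_apply, Pi.smul_apply, add_re, add_im, smul_re,
      smul_im, smul_eq_mul]
    have key : ∀ p q : ℝ, (a * p + b * q) * (a * p + b * q) ≤ a * (p * p) + b * (q * q) := by
      intro p q
      have : b = 1 - a := by linarith
      subst this
      nlinarith [mul_nonneg (mul_nonneg ha hb) (sq_nonneg (p - q))]
    have k1 := key (x 2).re (y 2).re
    have k2 := key (x 2).im (y 2).im
    rcases ha.eq_or_lt with rfl | ha'
    · simp only [zero_add] at hab; subst hab; linarith
    · nlinarith [mul_lt_mul_of_pos_left hx2 ha', mul_le_mul_of_nonneg_left hy2.le hb]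

/-- Rescale the fibre by `e^{t W/2}`. -/
def scale (p : Params) (t : ℝ) (y : E3) : E3 :=
  ![y 0, y 1, (Real.exp (t * weight p (base y) / 2) : ℂ) * y 2]

theorem base_scale (p : Params) (t : ℝ) (y : E3) : base (scale p t y) = base y := rfl

theorem normSq_scale (p : Params) (t : ℝ) (y : E3) :
    normSq (scale p t y 2) = Real.exp (t * weight p (base y)) * normSq (y 2) := by
  show normSq ((Real.exp (t * weight p (base y) / 2) : ℂ) * y 2) = _
  rw [normSq_mul, normSq_ofReal, ← Real.exp_add, add_halves]

theorem scale_scale (p : Params) (t : ℝ) (y : E3) : scale p (-t) (scale p t y) = y := by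
  funext i
  fin_cases i
  · rfl
  · rfl
  · show (Real.exp (-t * weight p (base (scale p t y)) / 2) : ℂ) *
        ((Real.exp (t * weight p (base y) / 2) : ℂ) * y 2) = y 2
    rw [base_scale, ← mul_assoc, ← ofReal_mul, ← Real.exp_add]
    ring_nf
    simp

theorem continuousOn_scale {p : Params} (hJ : Jets p.h p.q) (t : ℝ) :
    ContinuousOn (scale p t) {y | base y ∈ siegel} := by
  intro y hy
  refine ContinuousAt.continuousWithinAt ?_
  have hW : ContinuousAt (fun y => weight p (base y)) y :=
    (contDiffAt_weight hJ hy).continuousAt.comp baseL.continuous.continuousAt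
  have h2 : ContinuousAt
      (fun y : E3 => (Real.exp (t * weight p (base y) / 2) : ℂ) * y 2) y :=
    (continuous_ofReal.continuousAt.comp
      (Real.continuous_exp.continuousAt.comp ((hW.const_mul t).div_const 2))).mul
        (continuous_apply 2).continuousAt
  refine continuousAt_pi.2 fun i => ?_
  fin_cases i
  · exact (continuous_apply 0).continuousAt
  · exact (continuous_apply 1).continuousAt
  · exact h2

theorem scale_mem_flat {p : Params} {y : E3} (hy : y ∈ dom p) : scale p 1 y ∈ flat := by
  refine ⟨hy.1, ?_⟩
  rw [normSq_scale, one_mul, mul_comm]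
  exact hy.2

theorem scale_mem_dom {p : Params} {y : E3} (hy : y ∈ flat) : scale p (-1) y ∈ dom p := by
  refine ⟨hy.1, ?_⟩
  rw [fib, normSq_scale, base_scale, mul_comm (Real.exp _), mul_assoc, ← Real.exp_add,
    show -1 * weight p (base y) + weight p (base y) = 0 by ring, Real.exp_zero, mul_one]
  exact hy.2

/-- The total space is homeomorphic to the convex model. -/
def domHomeo {p : Params} (hJ : Jets p.h p.q) : dom p ≃ₜ flat where
  toFun y := ⟨scale p 1 y, scale_mem_flat y.2⟩
  invFun y := ⟨scale p (-1) y, scale_mem_dom y.2⟩
  left_inv y := Subtype.ext (scale_scale p 1 y)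
  right_inv y := Subtype.ext (by simpa using scale_scale p (-1) (y : E3))
  continuous_toFun := by
    refine Continuous.subtype_mk ?_ _
    exact ((continuousOn_scale hJ 1).mono fun y hy => hy.1).domRestrict
  continuous_invFun := by
    refine Continuous.subtype_mk ?_ _
    exact ((continuousOn_scale hJ (-1)).mono fun y hy => hy.1).domRestrict

theorem flat_nonempty : flat.Nonempty := ⟨![0, I, 0], by simp [flat, rho, base]⟩

/-- The total space is contractible. -/
theorem contractible_dom {p : Params} (hJ : Jets p.h p.q) : ContractibleSpace (dom p) :=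
  haveI := convex_flat.contractibleSpace flat_nonempty
  (domHomeo hJ).contractibleSpace

end Vale.Agent.P250.Disproof
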