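import Vale.Agent.P250.Disproof.Assembly
import Vale.Agent.P250.Disproof.Bound
import Vale.Agent.P250.Disproof.Complete
import Vale.Agent.P250.Disproof.Geodesic
import Vale.Agent.P250.Disproof.Potential
import Vale.Agent.P250.Disproof.Topology

/-!
# P250 disproof: everything except the pinching
-/

noncomputable section

namespace Vale.Agent.P250.Disproof

theorem answer_of_pinch
    (hpinch : ∀ h q eps K : ℝ, 0 < h → 1 < q → 0 < eps → 0 < K → Jets h q →
      PinchedForLargeC h q eps K) :
    ∃ (D : Set E3) (g : Field) (a b : ℝ), IsOpen D ∧ D.Nonempty ∧ ContractibleSpace D ∧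
      IsKaehlerOn g D ∧ CompleteOn g D ∧ GeodesicallyComplete g D ∧ 0 < a ∧ a ≤ b ∧
      Pinched g D a b ∧ ¬ BiholoBounded D := by
  obtain ⟨D, g, a, b, h1, h2, h3, h4, h5, h6, h7, h8, h9⟩ :=
    answer_of_parts (fun _ _ hh hq => jets hh hq) (fun p hj hn => noBiholo p hj hn) hpinch
      (fun _ hj => isOpen_dom hj) (fun _ hj => contractible_dom hj) fun _ hj => completeOn_metric hj
  exact ⟨D, g, a, b, h1, h2, h3, h4, h5, geodesicallyComplete h1 h4 h5, h6, h7, h8, h9⟩

end Vale.Agent.P250.Disproof
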