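import Mathlib
import Vale.Agent.P250.Disproof.Model

/-!
# P250 disproof, part 4: a unitary frame in which the Hessian of the weight is diagonal

The forms of the model are read in the coordinates `co P a`, the components of `a` in the frame `fv P`.
-/

open scoped Matrix ComplexConjugate
open Complex Finset Matrix

noncomputable section

namespace Vale.Agent.P250.Disproof.Model

/-- The coordinates in the frame. -/
def co (P : Matrix (Fin 2) (Fin 2) ℂ) (a : Fin 2 → ℂ) (e : Fin 2) : ℂ := ∑ i, a i * P i e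

/-- A vector of the frame. -/
def fv (P : Matrix (Fin 2) (Fin 2) ℂ) (e : Fin 2) : Fin 2 → ℂ := fun i => conj (P i e)

variable (d : Data) {P : Matrix (Fin 2) (Fin 2) ℂ} {θv : Fin 2 → ℝ}

/-- `W_{j k̄ l}` in the frame. -/
def Data.T' (P : Matrix (Fin 2) (Fin 2) ℂ) (j k l : Fin 2) : ℂ := d.T3 (fv P j) (fv P l) (fv P k)

/-- `W_{j k̄ l m̄}` in the frame. -/
def Data.F' (P : Matrix (Fin 2) (Fin 2) ℂ) (j k l m : Fin 2) : ℂ :=
  d.F4 (fv P j) (fv P k) (fv P l) (fv P m)

/-- The frame diagonalises `θ`. -/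
structure Data.Frame (d : Data) (P : Matrix (Fin 2) (Fin 2) ℂ) (θv : Fin 2 → ℝ) : Prop where
  unit_l : Pᴴ * P = 1
  unit_r : P * Pᴴ = 1
  diag : d.θ = P * diagonal (fun e => (θv e : ℂ)) * Pᴴ

theorem exists_frame (h : ∀ i j, d.θ j i = conj (d.θ i j)) : ∃ P θv, d.Frame P θv := by
  have hH : d.θ.IsHermitian := Matrix.ext fun i j => by
    rw [conjTranspose_apply, h i j]; simp
  refine ⟨hH.eigenvectorUnitary, hH.eigenvalues, ?_, ?_, ?_⟩
  · exact Unitary.coe_star_mul_self hH.eigenvectorUnitary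
  · exact Unitary.coe_mul_star_self hH.eigenvectorUnitary
  · have := hH.spectral_theorem
    rw [Unitary.conjStarAlgAut_apply] at this
    exact this

namespace Data.Frame

variable {d} (f : d.Frame P θv)
include f

theorem sum_fv (a : Fin 2 → ℂ) (i : Fin 2) : a i = ∑ e, co P a e * fv P e i := by
  have h := congrFun (congrArg (a ᵥ* ·) f.unit_r) i
  simp only [vecMul_one] at h
  rw [← vecMul_vecMul] at h
  exact h.symm

theorem co_fv (e e' : Fin 2) : co P (fv P e) e' = if e = e' then 1 else 0 := by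
  have h := congrFun (congrFun f.unit_l e) e'
  rw [one_apply] at h
  exact h

theorem dot_eq (a b : Fin 2 → ℂ) : ∑ i, a i * conj (b i) = ∑ e, co P a e * conj (co P b e) := by
  calc ∑ i, a i * conj (b i) = ∑ i, (∑ e, co P a e * fv P e i) * conj (b i) := by
        simp only [← f.sum_fv]
    _ = _ := by simp only [co, fv, Fin.sum_univ_two, map_add, map_mul]; ring

theorem th_eq (a b : Fin 2 → ℂ) :
    d.th a b = ∑ e, (θv e : ℂ) * (co P a e * conj (co P b e)) := by
  simp only [Data.th, f.diag, co, mul_apply, Fin.sum_univ_two, map_add, map_mul,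
    conjTranspose_apply, RCLike.star_def]
  simp only [diagonal, of_apply, Fin.isValue, if_true, 
    one_ne_zero, zero_ne_one, if_false, mul_zero, add_zero, zero_add]
  ring

theorem T3_eq (a b c : Fin 2 → ℂ) : d.T3 a b c
    = ∑ j, ∑ k, ∑ l, co P a j * conj (co P c k) * co P b l * d.T' P j k l := by
  have ea := f.sum_fv a; have eb := f.sum_fv b; have ec := f.sum_fv c
  conv_lhs => simp only [Data.T3, Fin.sum_univ_two, ea, eb, ec]
  simp only [Data.T', Data.T3, Fin.sum_univ_two, map_add, map_mul]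
  ring

theorem F4_eq (a b c e : Fin 2 → ℂ) : d.F4 a b c e = ∑ j, ∑ k, ∑ l, ∑ m,
    co P a j * conj (co P b k) * co P c l * conj (co P e m) * d.F' P j k l m := by
  have ea := f.sum_fv a; have eb := f.sum_fv b; have ec := f.sum_fv c; have ee := f.sum_fv e
  conv_lhs => simp only [Data.F4, Fin.sum_univ_two, ea, eb, ec, ee]
  simp only [Data.F', Data.F4, Fin.sum_univ_two, map_add, map_mul]
  ring

theorem G_mul : d.G * (P * diagonal (fun e => ((d.C + d.p * θv e : ℝ) : ℂ)⁻¹) * Pᴴ)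
    = P * diagonal (fun e => ((d.C + d.p * θv e : ℝ) : ℂ)
        * ((d.C + d.p * θv e : ℝ) : ℂ)⁻¹) * Pᴴ := by
  have hG : d.G = P * diagonal (fun e => ((d.C + d.p * θv e : ℝ) : ℂ)) * Pᴴ := by
    have e1 : diagonal (fun e => ((d.C + d.p * θv e : ℝ) : ℂ))
        = (d.C : ℂ) • (1 : Matrix (Fin 2) (Fin 2) ℂ) + (d.p : ℂ) • diagonal (fun e => (θv e : ℂ)) := by
      ext i j
      by_cases h : i = j
      · subst h; simp
      · simp [h]
    rw [e1, Matrix.mul_add, Matrix.add_mul, Matrix.mul_smul, Matrix.smul_mul, Matrix.mul_smul,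
      Matrix.smul_mul, mul_one, f.unit_r, ← f.diag]
    rfl
  rw [hG, ← diagonal_mul_diagonal]
  simp only [Matrix.mul_assoc]
  rw [← Matrix.mul_assoc Pᴴ P, f.unit_l, Matrix.one_mul]

theorem G_inv (hg : ∀ e, d.C + d.p * θv e ≠ 0) :
    d.G⁻¹ = P * diagonal (fun e => ((d.C + d.p * θv e : ℝ) : ℂ)⁻¹) * Pᴴ := by
  refine inv_eq_right_inv (f.G_mul.trans ?_)
  have h1 : (fun e => ((d.C + d.p * θv e : ℝ) : ℂ) * ((d.C + d.p * θv e : ℝ) : ℂ)⁻¹)
      = fun _ => (1 : ℂ) := funext fun e => mul_inv_cancel₀ (ofReal_ne_zero.2 (hg e))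
  rw [h1, diagonal_one, mul_one, f.unit_r]

/-- The Hermitian product in the frame. -/
theorem herm_eq (U V : E3) : d.herm U V = ∑ e, ((d.C + d.p * θv e : ℝ) : ℂ)
    * (co P (hor U) e * conj (co P (hor V) e)) + (d.m : ℂ) * U 2 * conj (V 2) := by
  have h : ∑ i, ∑ j, hor U i * d.G i j * conj (hor V j)
      = (d.C : ℂ) * (∑ i, hor U i * conj (hor V i)) + (d.p : ℂ) * d.th (hor U) (hor V) := by
    simp only [Data.G, Data.th, Matrix.add_apply, Matrix.smul_apply, smul_eq_mul, one_apply, Fin.sum_univ_two,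
      Fin.isValue, if_true, one_ne_zero, zero_ne_one,
      if_false]
    ring
  rw [Data.herm, h, f.dot_eq, f.th_eq, mul_sum, mul_sum, ← sum_add_distrib]
  push_cast
  simp only [Fin.sum_univ_two]
  ring

/-- The lowered connection in the frame. -/
theorem low_eq (U V : E3) (e : Fin 2) : ∑ j, d.low U V j * P j e
    = (d.p : ℂ) * (∑ j, ∑ l, co P (hor U) j * co P (hor V) l * d.T' P j e l)
      + (d.m : ℂ) * conj d.t * (θv e : ℂ)
        * (V 2 * co P (hor U) e + U 2 * co P (hor V) e) := by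
  have h1 : ∑ j, d.low U V j * P j e = (d.p : ℂ) * d.T3 (hor U) (hor V) (fv P e)
      + (d.m : ℂ) * conj d.t * (V 2 * d.th (hor U) (fv P e) + U 2 * d.th (hor V) (fv P e)) := by
    simp only [Data.low, Data.T3, Data.th, fv, conj_conj, Fin.sum_univ_two]
    ring
  rw [h1, f.T3_eq, f.th_eq, f.th_eq]
  simp only [f.co_fv, Fin.sum_univ_two]
  fin_cases e <;> simp <;> ring

/-- The connection in the frame. -/
theorem conn_eq (hg : ∀ e, d.C + d.p * θv e ≠ 0) (U V : E3) (e : Fin 2) :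
    co P (hor (d.conn U V)) e
      = (∑ j, d.low U V j * P j e) / ((d.C + d.p * θv e : ℝ) : ℂ) := by
  have h : hor (d.conn U V) = d.low U V ᵥ* d.G⁻¹ := by
    funext i
    fin_cases i <;> simp [hor, Data.conn]
  have h2 : co P (d.low U V ᵥ* d.G⁻¹) = (d.low U V ᵥ* d.G⁻¹) ᵥ* P := rfl
  rw [h, congrFun h2, vecMul_vecMul, f.G_inv hg, Matrix.mul_assoc, f.unit_l, mul_one,
    ← vecMul_vecMul, vecMul_diagonal, div_eq_mul_inv]
  rfl

theorem conn_two (U V : E3) :
    d.conn U V 2 = 2 * conj d.t / ((1 - d.s : ℝ) : ℂ) * (U 2) * (V 2) := by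
  simp [Data.conn]

end Data.Frame

/-! ### Bounds and symmetries -/

theorem norm_fv_le (f : d.Frame P θv) (e i : Fin 2) : ‖fv P e i‖ ≤ 1 := by
  have h := congrFun (congrFun f.unit_l e) e
  rw [one_apply_eq, mul_apply, Fin.sum_univ_two] at h
  simp only [conjTranspose_apply, RCLike.star_def, conj_mul'] at h
  have h' : ‖P 0 e‖ ^ 2 + ‖P 1 e‖ ^ 2 = 1 := by exact_mod_cast h
  rw [fv, norm_conj]
  have := sq_nonneg ‖P 0 e‖; have := sq_nonneg ‖P 1 e‖
  refine le_of_pow_le_pow_left₀ two_ne_zero zero_le_one ?_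
  fin_cases i <;> simp <;> nlinarith

theorem T'_symm (h : ∀ i k j, d.T i k j = d.T k i j) (j k l : Fin 2) :
    d.T' P j k l = d.T' P l k j := by
  simp only [Data.T', Data.T3]
  rw [sum_comm]
  refine sum_congr rfl fun a _ => sum_congr rfl fun b _ => sum_congr rfl fun c _ => ?_
  rw [h b a c]
  ring

theorem F'_symm_holo (h : ∀ i j k l, d.F i j k l = d.F k j i l) (j k l m : Fin 2) :
    d.F' P j k l m = d.F' P l k j m := by
  have h1 : ∀ a b, d.F 1 a 0 b = d.F 0 a 1 b := fun a b => h 1 a 0 b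
  simp only [Data.F', Data.F4, Fin.sum_univ_two, h1]
  ring

theorem F'_symm_anti (h : ∀ i j k l, d.F i j k l = d.F i l k j) (j k l m : Fin 2) :
    d.F' P j k l m = d.F' P j m l k := by
  have h1 : ∀ a b, d.F a 1 b 0 = d.F a 0 b 1 := fun a b => h a 1 b 0
  simp only [Data.F', Data.F4, Fin.sum_univ_two, h1]
  ring

theorem F'_conj (h : ∀ i j k l, d.F j i l k = conj (d.F i j k l)) (j k l m : Fin 2) :
    d.F' P k j m l = conj (d.F' P j k l m) := by
  simp only [Data.F', Data.F4, map_sum, map_mul, conj_conj, ← h]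
  simp only [Fin.sum_univ_two]
  ring

theorem norm_T'_le (f : d.Frame P θv) {B : ℝ} (h : ∀ i k j, ‖d.T i k j‖ ≤ B) (j k l : Fin 2) :
    ‖d.T' P j k l‖ ≤ 8 * B := by
  have hb : ∀ a b c, ‖fv P j a * fv P l b * d.T a b c * conj (fv P k c)‖ ≤ B := fun a b c => by
    rw [norm_mul, norm_mul, norm_mul, norm_conj]
    calc ‖fv P j a‖ * ‖fv P l b‖ * ‖d.T a b c‖ * ‖fv P k c‖ ≤ 1 * 1 * B * 1 := by
          have := (norm_nonneg _).trans (h a b c)
          gcongr <;> first | exact norm_fv_le d f _ _ | exact h a b c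
      _ = B := by ring
  simp only [Data.T', Data.T3]
  refine (norm_sum_le _ _).trans ((sum_le_sum fun a _ => (norm_sum_le _ _).trans
    (sum_le_sum fun b _ => (norm_sum_le _ _).trans (sum_le_sum fun c _ => hb a b c))).trans ?_)
  simp only [Fin.sum_univ_two]
  linarith

theorem norm_F'_le (f : d.Frame P θv) {B : ℝ} (h : ∀ i j k l, ‖d.F i j k l‖ ≤ B) (j k l m : Fin 2) :
    ‖d.F' P j k l m‖ ≤ 16 * B := by
  have hb : ∀ a b c e,
      ‖fv P j a * conj (fv P k b) * fv P l c * conj (fv P m e) * d.F a b c e‖ ≤ B := fun a b c e => by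
    rw [norm_mul, norm_mul, norm_mul, norm_mul, norm_conj, norm_conj]
    calc ‖fv P j a‖ * ‖fv P k b‖ * ‖fv P l c‖ * ‖fv P m e‖ * ‖d.F a b c e‖ ≤ 1 * 1 * 1 * 1 * B := by
          gcongr <;> first | exact norm_fv_le d f _ _ | exact h a b c e
      _ = B := by ring
  simp only [Data.F', Data.F4]
  refine (norm_sum_le _ _).trans ((sum_le_sum fun a _ => (norm_sum_le _ _).trans
    (sum_le_sum fun b _ => (norm_sum_le _ _).trans (sum_le_sum fun c _ => (norm_sum_le _ _).trans
      (sum_le_sum fun e _ => hb a b c e)))).trans ?_)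
  simp only [Fin.sum_univ_two]
  linarith

theorem θv_bounds (f : d.Frame P θv) {κ B : ℝ}
    (hl : ∀ a : Fin 2 → ℂ, κ * (normSq (a 0) + normSq (a 1)) ≤ (d.th a a).re)
    (hu : ∀ i j, ‖d.θ i j‖ ≤ B) (e : Fin 2) : κ ≤ θv e ∧ θv e ≤ 4 * B := by
  have hth : d.th (fv P e) (fv P e) = (θv e : ℂ) := by
    rw [f.th_eq]
    simp only [f.co_fv, Fin.sum_univ_two]
    fin_cases e <;> simp
  have hn : normSq (fv P e 0) + normSq (fv P e 1) = 1 := by
    have h := f.dot_eq (fv P e) (fv P e)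
    simp only [f.co_fv, Fin.sum_univ_two, mul_conj] at h
    fin_cases e <;> simp at h ⊢ <;> exact_mod_cast h
  refine ⟨?_, ?_⟩
  · have h := hl (fv P e)
    rw [hn, mul_one, hth, ofReal_re] at h
    exact h
  · have hb : ∀ i j, ‖fv P e i * d.θ i j * conj (fv P e j)‖ ≤ B := fun i j => by
      rw [norm_mul, norm_mul, norm_conj]
      calc ‖fv P e i‖ * ‖d.θ i j‖ * ‖fv P e j‖ ≤ 1 * B * 1 := by
            have := (norm_nonneg _).trans (hu i j)
            gcongr <;> first | exact norm_fv_le d f _ _ | exact hu i j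
        _ = B := by ring
    have h4 : ‖d.th (fv P e) (fv P e)‖ ≤ 4 * B := by
      simp only [Data.th]
      refine (norm_sum_le _ _).trans ((sum_le_sum fun a _ => (norm_sum_le _ _).trans
        (sum_le_sum fun b _ => hb a b)).trans ?_)
      simp only [Fin.sum_univ_two]
      linarith
    have := (re_le_norm _).trans h4
    rwa [hth, ofReal_re] at this

end Vale.Agent.P250.Disproof.Model
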