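import Mathlib
import Vale.Agent.P250.Disproof.Frame
import Vale.Agent.P250.Disproof.Block

/-!
# P250 disproof, part 4: the curvature tensor of the model in the diagonal frame

`R(U, V̄, W, Z̄)` splits into the base block, the blocks of `A` and of the fibre, and the mixed block.
-/

open scoped Matrix ComplexConjugate
open Complex Finset

noncomputable section

namespace Vale.Agent.P250.Disproof.Model

open Alg (baseR mixR)

/-- The base block. -/
def baseQ (C p : ℝ) (θv : Fin 2 → ℝ) (T : Fin 2 → Fin 2 → Fin 2 → ℂ)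
    (F : Fin 2 → Fin 2 → Fin 2 → Fin 2 → ℂ) (a b c e : Fin 2 → ℂ) : ℂ :=
  ∑ j, ∑ k, ∑ l, ∑ m, baseR C p θv T F j k l m * (a j * conj (b k) * c l * conj (e m))

/-- `θ` as a form in the frame. -/
def dth (θv : Fin 2 → ℝ) (a b : Fin 2 → ℂ) : ℂ := ∑ e, (θv e : ℂ) * (a e * conj (b e))

/-- The coefficient of the block between the base and the fibre. -/
def fibK (C p : ℝ) (θv : Fin 2 → ℝ) (e : Fin 2) : ℝ :=
  θv e * (1 + 2 * p - (1 + p) * (p * (θv e / (C + p * θv e))))

/-- A mixed block: three base slots and one fibre slot. -/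
def mixQ (C p : ℝ) (θv : Fin 2 → ℝ) (T : Fin 2 → Fin 2 → Fin 2 → ℂ) (σ : ℂ)
    (a b c : Fin 2 → ℂ) (e : ℂ) : ℂ :=
  ∑ j, ∑ k, ∑ l, mixR C p θv T σ j k l * (a j * conj (b k) * c l * conj e)

/-- The curvature tensor in the frame; the fibre coordinates are normalised. -/
def curvForm (C p : ℝ) (θv : Fin 2 → ℝ) (T : Fin 2 → Fin 2 → Fin 2 → ℂ)
    (F : Fin 2 → Fin 2 → Fin 2 → Fin 2 → ℂ) (σ : ℂ) (a b c e : Fin 2 → ℂ) (u v w z : ℂ) : ℂ :=
  baseQ C p θv T F a b c e
    - ((p + p ^ 2 : ℝ) : ℂ) * (dth θv a b * dth θv c e + dth θv a e * dth θv c b)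
    - (∑ i, (fibK C p θv i : ℂ) * (a i * conj (b i) * (w * conj z) + c i * conj (e i) * (u * conj v)
        + a i * conj (e i) * (w * conj v) + c i * conj (b i) * (u * conj z)))
    - 2 * (u * conj v * w * conj z)
    + (mixQ C p θv T σ a b c z + mixQ C p θv T σ a e c v
        + conj (mixQ C p θv T σ b a e w) + conj (mixQ C p θv T σ b c e u))

/-- The fibre coordinate of unit length. -/
def fib (d : Data) (U : E3) : ℂ := ((1 + d.p : ℝ) : ℂ) * U 2

theorem conn_product {p m s g : ℝ} {t A B A' B' : ℂ} (ht : t * conj t = s) :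
    ((p : ℂ) * A + (m : ℂ) * conj t * B) * conj ((p : ℂ) * A' + (m : ℂ) * conj t * B') / (g : ℂ)
      = (p : ℂ) ^ 2 * (A * conj A') / (g : ℂ) + (p : ℂ) * (m : ℂ) * t * (A * conj B') / (g : ℂ)
        + (p : ℂ) * (m : ℂ) * conj t * (B * conj A') / (g : ℂ)
        + (m : ℂ) ^ 2 * (s : ℂ) * (B * conj B') / (g : ℂ) := by
  simp only [map_add, map_mul, conj_ofReal, conj_conj, ← ht]
  ring

namespace Data.Frame

variable {d : Data} {P : Matrix (Fin 2) (Fin 2) ℂ} {θv : Fin 2 → ℝ} (f : d.Frame P θv)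
include f

theorem X_eq (U V W Z : E3) : d.X U V W Z
    = (d.C : ℂ) * ((∑ e, co P (hor U) e * conj (co P (hor V) e))
          * (∑ e, co P (hor W) e * conj (co P (hor Z) e))
        + (∑ e, co P (hor U) e * conj (co P (hor Z) e))
          * (∑ e, co P (hor W) e * conj (co P (hor V) e)))
      + (d.p : ℂ) * (∑ j, ∑ k, ∑ l, ∑ m, co P (hor U) j * conj (co P (hor V) k) * co P (hor W) l
          * conj (co P (hor Z) m) * d.F' P j k l m)
      + ((d.p * (1 + d.p) : ℝ) : ℂ)
        * (dth θv (co P (hor U)) (co P (hor V)) * dth θv (co P (hor W)) (co P (hor Z))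
          + dth θv (co P (hor U)) (co P (hor Z)) * dth θv (co P (hor W)) (co P (hor V)))
      + (((1 + d.s) / (1 - d.s) ^ 3 : ℝ) : ℂ)
        * (dth θv (co P (hor U)) (co P (hor V)) * (W 2 * conj (Z 2))
          + dth θv (co P (hor W)) (co P (hor Z)) * (U 2 * conj (V 2))
          + dth θv (co P (hor U)) (co P (hor Z)) * (W 2 * conj (V 2))
          + dth θv (co P (hor W)) (co P (hor V)) * (U 2 * conj (Z 2)))
      + (((2 + 4 * d.s) / (1 - d.s) ^ 4 : ℝ) : ℂ) * (U 2 * conj (V 2) * W 2 * conj (Z 2))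
      + (d.m : ℂ) * conj d.t
        * (U 2 * conj (∑ j, ∑ k, ∑ l, co P (hor V) j * conj (co P (hor W) k) * co P (hor Z) l
              * d.T' P j k l)
          + W 2 * conj (∑ j, ∑ k, ∑ l, co P (hor V) j * conj (co P (hor U) k) * co P (hor Z) l
              * d.T' P j k l))
      + (d.m : ℂ) * d.t
        * (conj (V 2) * (∑ j, ∑ k, ∑ l, co P (hor U) j * conj (co P (hor Z) k) * co P (hor W) l
              * d.T' P j k l)
          + conj (Z 2) * (∑ j, ∑ k, ∑ l, co P (hor U) j * conj (co P (hor V) k) * co P (hor W) l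
              * d.T' P j k l)) := by
  simp only [Data.X, ball4, f.dot_eq (hor U) (hor V), f.dot_eq (hor W) (hor Z), f.dot_eq (hor U) (hor Z),
    f.dot_eq (hor W) (hor V), f.th_eq, f.T3_eq, f.F4_eq, dth]

theorem conn_herm_eq (hg : ∀ e, d.C + d.p * θv e ≠ 0) (U V W Z : E3) :
    d.herm (d.conn U W) (d.conn V Z)
      = (∑ e, (∑ j, d.low U W j * P j e) * conj (∑ j, d.low V Z j * P j e)
          / ((d.C + d.p * θv e : ℝ) : ℂ))
        + (((4 * d.s) / (1 - d.s) ^ 4 : ℝ) : ℂ) * (U 2 * conj (V 2) * W 2 * conj (Z 2)) := by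
  have ht : d.t * conj d.t = (d.s : ℂ) := mul_conj d.t
  rw [f.herm_eq]
  simp only [f.conn_eq hg, f.conn_two]
  congr 1
  · refine sum_congr rfl fun e _ => ?_
    have := (ofReal_ne_zero (z := d.C + d.p * θv e)).2 (hg e)
    rw [map_div₀, conj_ofReal]
    field_simp
  · simp only [map_mul, map_div₀, conj_conj, conj_ofReal, map_ofNat, Data.m, ofReal_div, ofReal_mul,
      ofReal_pow, ofReal_ofNat, ofReal_one]
    rw [← ht]
    ring

/-- The curvature tensor of the model in the frame. -/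
theorem Q_eq (hg : ∀ e, d.C + d.p * θv e ≠ 0) (hs : d.s < 1) (U V W Z : E3) :
    d.Q U V W Z = curvForm d.C d.p θv (d.T' P) (d.F' P) (((1 + d.p : ℝ) : ℂ) * d.t)
      (co P (hor U)) (co P (hor V)) (co P (hor W)) (co P (hor Z))
      (fib d U) (fib d V) (fib d W) (fib d Z) := by
  have h1 : 1 - d.s ≠ 0 := by linarith
  have hp : 1 + d.p = 1 / (1 - d.s) := by
    simp only [Data.p]; field_simp; ring
  have k1 : (1 + d.s) / (1 - d.s) ^ 3 = (1 + d.p) ^ 2 * (1 + 2 * d.p) := by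
    simp only [Data.p]; field_simp; ring
  have k2 : (2 + 4 * d.s) / (1 - d.s) ^ 4
      = 4 * d.s / (1 - d.s) ^ 4 + 2 * (1 + d.p) ^ 4 := by
    simp only [Data.p]; field_simp; ring
  have k3 : d.m = (1 + d.p) ^ 2 := by rw [hp, Data.m]; field_simp
  have k4 : d.m ^ 2 * d.s = (1 + d.p) ^ 3 * d.p := by
    simp only [Data.m, Data.p]; field_simp; ring
  have k4c : (d.m : ℂ) ^ 2 * (d.s : ℂ) = (((1 + d.p) ^ 3 * d.p : ℝ) : ℂ) := by
    rw [← k4]; push_cast; rfl
  have ht : d.t * conj d.t = (d.s : ℂ) := mul_conj d.t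
  have hfib : ∀ e, fibK d.C d.p θv e
      = θv e * (1 + 2 * d.p) - θv e * (1 + d.p) * d.p * θv e / (d.C + d.p * θv e) := fun e => by
    unfold fibK; ring
  have hmix : ∀ e, d.C / (d.C + d.p * θv e) = 1 - d.p * θv e / (d.C + d.p * θv e) := fun e => by
    rw [eq_sub_iff_add_eq, ← add_div, div_self (hg e)]
  rw [Data.Q, f.X_eq, f.conn_herm_eq hg]
  simp only [f.low_eq, mul_assoc ((d.m : ℂ) * conj d.t), conn_product ht, k4c]
  simp only [k1, k2, k3, curvForm, baseQ, baseR, mixQ, mixR, hfib, hmix, fib, dth, Alg.kd,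
    Fin.sum_univ_two, Fin.isValue, if_true, one_ne_zero,
    zero_ne_one, if_false]
  simp only [map_add, map_mul, map_neg, conj_ofReal, conj_conj]
  push_cast
  ring

end Data.Frame

end Vale.Agent.P250.Disproof.Model
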