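import Mathlib

/-!
# P250 disproof: Harnack's inequality for `log ‖f‖`, `f` zero-free holomorphic on a disc
-/

open Complex Metric Set

noncomputable section

namespace Vale.Agent.P250.Disproof

/-- For a holomorphic function with nonnegative real part on a disc. -/
theorem harnack_re {f : ℂ → ℂ} {c z : ℂ} {r : ℝ} (hr : 0 < r)
    (hd : DifferentiableOn ℂ f (ball c r)) (hp : ∀ w ∈ ball c r, 0 ≤ (f w).re)
    (hz : dist z c ≤ r / 2) : (f c).re / 3 ≤ (f z).re := by
  have hzb : z ∈ ball c r := by rw [mem_ball]; linarith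
  rcases (hp c (mem_ball_self hr)).eq_or_lt with h0 | h0
  · rw [← h0]; simpa using hp z hzb
  set a : ℂ := (starRingEnd ℂ) (f c)
  have hne : ∀ w ∈ ball c r, f w + a ≠ 0 := fun w hw he => by
    have := congrArg Complex.re he
    simp [a] at this
    linarith [hp w hw]
  set g : ℂ → ℂ := fun w => (f w - f c) / (f w + a) with hgdef
  have hg : DifferentiableOn ℂ g (ball c r) :=
    (hd.sub_const _).div (hd.add_const _) hne
  have hmaps : ∀ w ∈ ball c r, ‖g w‖ ≤ 1 := fun w hw => by
    rw [hgdef, norm_div, div_le_one (norm_pos_iff.2 (hne w hw))]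
    rw [← sq_le_sq₀ (norm_nonneg _) (norm_nonneg _), ← normSq_eq_norm_sq, ← normSq_eq_norm_sq]
    simp [normSq_apply, a]
    nlinarith [hp w hw, mul_nonneg (hp w hw) h0.le]
  have hgc : g c = 0 := by simp [g]
  have hs : dist (g z) (g c) ≤ 1 / r * dist z c :=
    Complex.dist_le_div_mul_dist_of_mapsTo_ball hg
      (fun w hw => by rw [hgc, mem_closedBall, dist_zero_right]; exact hmaps w hw) hzb
  have hgz : ‖g z‖ ≤ 1 / 2 := by
    rw [hgc, dist_zero_right] at hs
    refine hs.trans ?_
    rw [one_div_mul_eq_div, div_le_div_iff₀ hr (by norm_num)]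
    linarith
  have h4 : 4 * normSq (f z - f c) ≤ normSq (f z + a) := by
    have e : f z - f c = g z * (f z + a) := by rw [hgdef]; field_simp [hne z hzb]
    rw [e, normSq_mul, normSq_eq_norm_sq (g z)]
    have := mul_self_le_mul_self (norm_nonneg (g z)) hgz
    nlinarith [normSq_nonneg (f z + a)]
  simp [normSq_apply, a] at h4
  nlinarith [hp z hzb, sq_nonneg ((f z).im - (f c).im)]

/-- Harnack for `log M - log ‖f‖`. -/
theorem harnack_log {f : ℂ → ℂ} {c z : ℂ} {r A : ℝ} (hr : 0 < r)
    (hd : DifferentiableOn ℂ f (ball c r)) (hne : ∀ w ∈ ball c r, f w ≠ 0)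
    (hA : ∀ w ∈ ball c r, Real.log ‖f w‖ ≤ A) (hz : dist z c ≤ r / 2) :
    (A - Real.log ‖f c‖) / 3 ≤ A - Real.log ‖f z‖ := by
  have hzb : z ∈ ball c r := by rw [mem_ball]; linarith
  have hc : c ∈ ball c r := mem_ball_self hr
  have hD : DifferentiableOn ℂ (deriv f) (ball c r) := hd.deriv isOpen_ball
  obtain ⟨L, hL⟩ := (hD.div hd hne).isExactOn_ball
  have hconst : ∀ w ∈ ball c r, f w * cexp (-L w) = f c * cexp (-L c) := fun w hw => by
    have hder : ∀ x ∈ ball c r, HasDerivWithinAt (fun y => f y * cexp (-L y)) 0 (ball c r) x := by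
      intro x hx
      have h1 := (hd.differentiableAt (isOpen_ball.mem_nhds hx)).hasDerivAt
      have h2 := ((hL x hx).neg).cexp
      have h3 := h1.mul h2
      have e : deriv f x * cexp (-L x) + f x * (cexp (-L x) * -(deriv f x / f x)) = 0 := by
        field_simp [hne x hx]
        ring
      exact (e ▸ h3).hasDerivWithinAt
    have := (convex_ball c r).norm_image_sub_le_of_norm_hasDerivWithin_le hder
      (fun x _ => le_of_eq norm_zero) hc hw
    simpa [sub_eq_zero] using this
  set G : ℂ → ℂ := fun w => ((A - Real.log ‖f c‖ : ℝ) : ℂ) - (L w - L c)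
  have hG : ∀ w ∈ ball c r, (G w).re = A - Real.log ‖f w‖ := fun w hw => by
    have e : f w = f c * cexp (L w - L c) := by
      have h1 := congrArg (· * cexp (L w)) (hconst w hw)
      simp only [mul_assoc, ← Complex.exp_add] at h1
      rw [neg_add_cancel, Complex.exp_zero, mul_one, neg_add_eq_sub] at h1
      exact h1
    simp only [G, sub_re, ofReal_re]
    rw [e, norm_mul, Complex.norm_exp, Real.log_mul (norm_ne_zero_iff.2 (hne c hc))
      (Real.exp_pos _).ne', Real.log_exp, sub_re]
    ring
  have hGd : DifferentiableOn ℂ G (ball c r) := fun x hx =>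
    ((hL x hx).differentiableAt.sub_const _ |>.const_sub _).differentiableWithinAt
  have := harnack_re hr hGd (fun w hw => by rw [hG w hw]; linarith [hA w hw]) hz
  rwa [hG c hc, hG z hzb] at this

end Vale.Agent.P250.Disproof
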