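import Vale.Agent.P250.Disproof.Theta

/-!
# P250 disproof: bounds for one layer of dips

The dip profile is `2/h`-Lipschitz, bounded above near the origin, and the series converges.
-/

open Complex Filter Set
open scoped Topology

noncomputable section

namespace Vale.Agent.P250.Disproof

variable {h q : ℝ}

theorem lvl_sq_pos (h : ℝ) : 0 < lvl ^ 2 + h ^ 2 := by
  unfold lvl; positivity

theorem dip_arg_pos (hh : 0 < h) (ξ : ℂ) : 0 < normSq (ξ - lvl) + h ^ 2 := by
  have := normSq_nonneg (ξ - lvl); positivity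

theorem dip_zero (h : ℝ) : dip h 0 = 0 := by
  have : normSq (0 - (lvl : ℂ)) = lvl ^ 2 := by simp [normSq_apply]; ring
  rw [dip, this, div_self (lvl_sq_pos h).ne', Real.log_one]

/-- The depth of a dip. -/
def gain (h : ℝ) : ℝ := Real.log ((lvl ^ 2 + h ^ 2) / h ^ 2)

theorem dip_lvl (h : ℝ) : dip h (lvl : ℂ) = -gain h := by
  simp [dip, gain, ← Real.log_inv, inv_div]

theorem two_log_le_gain (hh : 0 < h) : 2 * Real.log (1 / h) ≤ gain h := by
  rw [gain, show 2 * Real.log (1 / h) = Real.log ((1 / h) ^ 2) by rw [Real.log_pow]; norm_num]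
  refine Real.log_le_log (by positivity) ?_
  rw [div_pow, one_pow]
  gcongr
  unfold lvl; nlinarith

theorem dip_sub_le (hh : 0 < h) (ξ η : ℂ) : dip h ξ - dip h η ≤ 2 / h * ‖ξ - η‖ := by
  set a := normSq (ξ - lvl) + h ^ 2
  set b := normSq (η - lvl) + h ^ 2
  have ha : 0 < a := dip_arg_pos hh ξ
  have hb : 0 < b := dip_arg_pos hh η
  have e : dip h ξ - dip h η = 2 * Real.log (Real.sqrt a / Real.sqrt b) := by
    rw [Real.log_div (Real.sqrt_pos.2 ha).ne' (Real.sqrt_pos.2 hb).ne', Real.log_sqrt ha.le,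
      Real.log_sqrt hb.le, dip, dip, Real.log_div ha.ne' (lvl_sq_pos h).ne',
      Real.log_div hb.ne' (lvl_sq_pos h).ne']
    ring
  have hsb : h ≤ Real.sqrt b := by
    rw [Real.le_sqrt hh.le hb.le]
    simp only [b]; linarith [normSq_nonneg (η - lvl)]
  have key : Real.sqrt a ≤ Real.sqrt b + ‖ξ - η‖ := by
    rw [Real.sqrt_le_left (by positivity)]
    have ht : ‖ξ - lvl‖ ≤ ‖η - lvl‖ + ‖ξ - η‖ := by
      calc ‖ξ - lvl‖ = ‖(η - lvl) + (ξ - η)‖ := by ring_nf
        _ ≤ _ := norm_add_le _ _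
    have hs : ‖η - lvl‖ ≤ Real.sqrt b := by
      refine Real.le_sqrt_of_sq_le ?_
      rw [← Complex.normSq_eq_norm_sq]; simp only [b]; nlinarith
    have hb2 := Real.sq_sqrt hb.le
    simp only [a, b, Complex.normSq_eq_norm_sq] at *
    nlinarith [norm_nonneg (ξ - lvl), norm_nonneg (η - lvl), norm_nonneg (ξ - η)]
  rw [e]
  have h1 : Real.log (Real.sqrt a / Real.sqrt b) ≤ Real.sqrt a / Real.sqrt b - 1 :=
    Real.log_le_sub_one_of_pos (by positivity)
  have h2 : Real.sqrt a / Real.sqrt b - 1 ≤ ‖ξ - η‖ / h := by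
    rw [div_sub_one (by positivity)]
    calc (Real.sqrt a - Real.sqrt b) / Real.sqrt b ≤ ‖ξ - η‖ / Real.sqrt b := by gcongr; linarith
      _ ≤ ‖ξ - η‖ / h := by gcongr
  calc 2 * Real.log (Real.sqrt a / Real.sqrt b) ≤ 2 * (‖ξ - η‖ / h) := by linarith
    _ = 2 / h * ‖ξ - η‖ := by ring

theorem abs_dip_sub_le (hh : 0 < h) (ξ η : ℂ) : |dip h ξ - dip h η| ≤ 2 / h * ‖ξ - η‖ := by
  rw [abs_sub_le_iff]
  exact ⟨dip_sub_le hh ξ η, by rw [norm_sub_rev]; exact dip_sub_le hh η ξ⟩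

theorem dip_le_five (hh : 0 < h) {ξ : ℂ} (hξ : ‖ξ‖ ≤ 3) : dip h ξ ≤ 5 * ‖ξ‖ := by
  have hn : normSq (ξ - lvl) ≤ lvl ^ 2 + 5.1 * ‖ξ‖ := by
    rw [Complex.normSq_eq_norm_sq]
    have := norm_sub_le ξ (lvl : ℂ)
    rw [Complex.norm_real, Real.norm_eq_abs, abs_of_pos (by unfold lvl; norm_num)] at this
    have hl : lvl = 21 / 20 := rfl
    nlinarith [norm_nonneg (ξ - lvl), norm_nonneg ξ]
  refine (Real.log_le_sub_one_of_pos (div_pos (dip_arg_pos hh ξ) (lvl_sq_pos h))).trans ?_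
  rw [sub_le_iff_le_add, div_le_iff₀ (lvl_sq_pos h)]
  have hl : lvl = 21 / 20 := rfl
  rw [hl] at hn ⊢
  nlinarith [norm_nonneg ξ, mul_nonneg (norm_nonneg ξ) (sq_nonneg h)]

theorem norm_P_le_three {x : B2} (hx : 0 ≤ rho x) : ‖P x‖ ≤ 3 := by
  refine (norm_P_le x).trans ?_
  have : Real.exp (-Real.pi * rho x / 2) ≤ 1 :=
    Real.exp_le_one_iff.2 (by nlinarith [Real.pi_pos])
  linarith

theorem norm_P_le_inv {x : B2} (hx : 0 < rho x) : ‖P x‖ ≤ 2 / rho x := by
  refine (norm_P_le x).trans ?_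
  have h1 := Real.add_one_le_exp (Real.pi * rho x / 2)
  rw [show -Real.pi * rho x / 2 = -(Real.pi * rho x / 2) by ring, Real.exp_neg, ← div_eq_mul_inv,
    div_le_div_iff₀ (Real.exp_pos _) hx]
  nlinarith [Real.pi_gt_three]

theorem rho_dil_pow (q : ℝ) (k : ℕ) (x : B2) : rho (dil (q ^ k) x) = (q ^ 2) ^ k * rho x := by
  rw [rho_dil, ← pow_mul, ← pow_mul]; ring

theorem summable_layer (hh : 0 < h) (hq : 1 < q) {x : B2} (hx : x ∈ siegel) :
    Summable fun k => layer h q k x := by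
  have hx : 0 < rho x := hx
  have hr : (q ^ 2)⁻¹ < 1 := inv_lt_one_of_one_lt₀ (by nlinarith)
  refine Summable.of_norm_bounded
    (g := fun k => 2 / h * (2 / rho x) * ((q ^ 2)⁻¹) ^ k)
    ((summable_geometric_of_lt_one (by positivity) hr).mul_left _) fun k => ?_
  have hk : 0 < rho (dil (q ^ k) x) := by rw [rho_dil_pow]; positivity
  have h1 := abs_dip_sub_le hh (P (dil (q ^ k) x)) 0
  rw [dip_zero, sub_zero, sub_zero] at h1
  rw [Real.norm_eq_abs]
  refine h1.trans ?_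
  rw [mul_assoc]
  gcongr
  refine (norm_P_le_inv hk).trans (le_of_eq ?_)
  rw [rho_dil_pow, inv_pow]
  field_simp

/-- The whole series is at most `20` one scale above the first dip. -/
theorem dips_le_twenty (hh : 0 < h) (hq : 2 ≤ q) {x : B2} (hx : rho x = 1) :
    dips h q x ≤ 20 := by
  have hxS : x ∈ siegel := by show 0 < rho x; rw [hx]; norm_num
  have hr : (q ^ 2)⁻¹ ≤ 1 / 4 := by
    rw [one_div]; exact inv_anti₀ (by norm_num) (by nlinarith)
  have hr0 : 0 ≤ (q ^ 2)⁻¹ := by positivity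
  have hg := (hasSum_geometric_of_lt_one hr0 (hr.trans_lt (by norm_num))).mul_left 10
  refine (Summable.tsum_le_tsum (fun k => ?_) (summable_layer hh (by linarith) hxS) hg.summable).trans
    (le_of_eq_of_le hg.tsum_eq ?_)
  · have hk : 0 < rho (dil (q ^ k) x) := by rw [rho_dil_pow, hx]; positivity
    refine (dip_le_five hh (norm_P_le_three hk.le)).trans ?_
    have := norm_P_le_inv hk
    rw [rho_dil_pow, hx, mul_one] at this
    rw [inv_pow]
    rw [div_eq_mul_inv] at this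
    linarith
  · have : (1 - (q ^ 2)⁻¹)⁻¹ ≤ (3 / 4)⁻¹ := inv_anti₀ (by norm_num) (by linarith)
    norm_num at this ⊢
    linarith

end Vale.Agent.P250.Disproof
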