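import Mathlib
import Vale.Agent.P250.Disproof.Form

/-!
# P250 disproof, part 4: the sectional curvature of the model is minus half the form of the algebra
-/

open scoped Matrix ComplexConjugate
open Complex Finset

noncomputable section

namespace Vale.Agent.P250.Disproof.Model

open Alg (baseR mixR wedge wd bi negCurv mix jetB jetCr)

/-- The vector in the unitary frame. -/
def uvec (a : Fin 2 → ℂ) (u : ℂ) (r : Fin 2 → ℝ) : Fin 3 → ℂ :=
  ![(r 0 : ℂ) * a 0, (r 1 : ℂ) * a 1, u]

/-- The sectional numerator of a four-form. -/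
def secOf (C p : ℝ) (θv : Fin 2 → ℝ) (T : Fin 2 → Fin 2 → Fin 2 → ℂ)
    (F : Fin 2 → Fin 2 → Fin 2 → Fin 2 → ℂ) (σ : ℂ) (a b : Fin 2 → ℂ) (u v : ℂ) : ℝ :=
  (curvForm C p θv T F σ a a b b u u v v).re - (curvForm C p θv T F σ a b a b u v u v).re

section Blocks

variable {R : Fin 2 → Fin 2 → Fin 2 → Fin 2 → ℂ} {a b : Fin 2 → ℂ}

/-- A four-form with coefficients `R`. -/
def four (R : Fin 2 → Fin 2 → Fin 2 → Fin 2 → ℂ) (a b c e : Fin 2 → ℂ) : ℂ :=
  ∑ j, ∑ k, ∑ l, ∑ m, R j k l m * (a j * conj (b k) * c l * conj (e m))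

theorem four_holo (h : ∀ j k l m, R j k l m = R l k j m) (a b c e : Fin 2 → ℂ) :
    four R a b c e = four R c b a e := by
  have h1 : ∀ k m, R 1 k 0 m = R 0 k 1 m := fun k m => h 1 k 0 m
  simp only [four, Fin.sum_univ_two, h1]
  ring

theorem four_anti (h : ∀ j k l m, R j k l m = R j m l k) (a b c e : Fin 2 → ℂ) :
    four R a b c e = four R a e c b := by
  have h1 : ∀ j l, R j 1 l 0 = R j 0 l 1 := fun j l => h j 1 l 0
  simp only [four, Fin.sum_univ_two, h1]
  ring

theorem four_conj (h : ∀ j k l m, R k j m l = conj (R j k l m)) (a b c e : Fin 2 → ℂ) :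
    conj (four R a b c e) = four R b a e c := by
  simp only [four, map_sum, map_mul, conj_conj, ← h]
  simp only [Fin.sum_univ_two]
  ring

/-- The wedge of two vectors with two components. -/
def w2 (a b : Fin 2 → ℂ) (j k : Fin 2) : ℂ := I * (a j * conj (b k) - b j * conj (a k))

theorem four_sec (h1 : ∀ j k l m, R j k l m = R l k j m) (h2 : ∀ j k l m, R j k l m = R j m l k)
    (h3 : ∀ j k l m, R k j m l = conj (R j k l m)) :
    ∑ j, ∑ k, ∑ l, ∑ m, (R j k l m * (w2 a b j k * w2 a b l m)).re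
      = 2 * ((four R a a b b).re - (four R a b a b).re) := by
  have e : ∑ j, ∑ k, ∑ l, ∑ m, R j k l m * (w2 a b j k * w2 a b l m)
      = four R a b b a + four R b a a b - four R a b a b - four R b a b a := by
    simp only [four, w2, Fin.sum_univ_two]
    ring_nf
    simp only [I_sq]
    ring
  rw [four_anti h2 a b b a, four_holo h1 b a a b, ← four_conj h3 a b a b] at e
  have := congrArg Complex.re e
  simp only [re_sum] at this
  rw [this]
  simp only [add_re, sub_re, conj_re]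
  ring

/-- A three-form with coefficients `M`, with one slot in the fibre. -/
def three (M : Fin 2 → Fin 2 → Fin 2 → ℂ) (a b c : Fin 2 → ℂ) (e : ℂ) : ℂ :=
  ∑ j, ∑ k, ∑ l, M j k l * (a j * conj (b k) * c l * conj e)

theorem three_sec {M : Fin 2 → Fin 2 → Fin 2 → ℂ} (h : ∀ j k l, M j k l = M l k j) (u v : ℂ) :
    ∑ j, ∑ k, ∑ l, (M j k l * (w2 a b j k * (I * (a l * conj v - b l * conj u)))).re
      = (three M a a b v).re + (three M a b b u).re - (three M a b a v).re
        - (three M b a b u).re := by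
  have h1 : ∀ k, M 1 k 0 = M 0 k 1 := fun k => h 1 k 0
  have e : ∑ j, ∑ k, ∑ l, M j k l * (w2 a b j k * (I * (a l * conj v - b l * conj u)))
      = three M a a b v + three M a b b u - three M a b a v - three M b a b u := by
    simp only [three, w2, Fin.sum_univ_two, h1]
    ring_nf
    simp only [I_sq]
    ring
  have := congrArg Complex.re e
  simp only [re_sum] at this
  rw [this]
  simp only [add_re, sub_re]

end Blocks

theorem baseR_symm {C p : ℝ} {θv : Fin 2 → ℝ} {T : Fin 2 → Fin 2 → Fin 2 → ℂ}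
    {F : Fin 2 → Fin 2 → Fin 2 → Fin 2 → ℂ} (hT : ∀ j k l, T j k l = T l k j)
    (hF1 : ∀ j k l m, F j k l m = F l k j m) (hF2 : ∀ j k l m, F j k l m = F j m l k)
    (hF3 : ∀ j k l m, F k j m l = conj (F j k l m)) :
    (∀ j k l m, baseR C p θv T F j k l m = baseR C p θv T F l k j m) ∧
      (∀ j k l m, baseR C p θv T F j k l m = baseR C p θv T F j m l k) ∧
        ∀ j k l m, baseR C p θv T F k j m l = conj (baseR C p θv T F j k l m) := by
  refine ⟨fun j k l m => ?_, fun j k l m => ?_, fun j k l m => ?_⟩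
  · simp only [baseR, hF1 j k l m]
    congr 1
    · ring
    · exact sum_congr rfl fun e _ => by rw [hT j e l]
  · simp only [baseR, hF2 j k l m]
    congr 1
    · ring
    · exact sum_congr rfl fun e _ => by rw [hT k e m]
  · simp only [baseR, hF3 j k l m, map_add, map_neg, map_mul, map_sum, map_div₀, map_pow,
      conj_ofReal, conj_conj]
    congr 1
    · simp only [Alg.kd]
      fin_cases j <;> fin_cases k <;> fin_cases l <;> fin_cases m <;> simp
    · exact sum_congr rfl fun e _ => by ring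

theorem wedge_base (a b : Fin 2 → ℂ) (u v : ℂ) (r : Fin 2 → ℝ) (j k : Fin 2) :
    wedge (uvec a u r) (uvec b v r) (bi j) (bi k) = ((r j * r k : ℝ) : ℂ) * w2 a b j k := by
  fin_cases j <;> fin_cases k <;>
    simp [wedge, uvec, bi, w2, map_mul, conj_ofReal] <;> ring

theorem wedge_mixed (a b : Fin 2 → ℂ) (u v : ℂ) (r : Fin 2 → ℝ) (l : Fin 2) :
    wedge (uvec a u r) (uvec b v r) (bi l) 2
      = ((r l : ℝ) : ℂ) * (I * (a l * conj v - b l * conj u)) := by
  fin_cases l <;> simp [wedge, uvec, bi] <;> ring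

variable {C p : ℝ} {θv r : Fin 2 → ℝ} {T : Fin 2 → Fin 2 → Fin 2 → ℂ}
  {F : Fin 2 → Fin 2 → Fin 2 → Fin 2 → ℂ} {σ : ℂ} {a b : Fin 2 → ℂ} {u v : ℂ}

theorem jetB_eq (hr : ∀ i, r i ≠ 0) : jetB C p θv r T F (uvec a u r) (uvec b v r)
    = -∑ j, ∑ k, ∑ l, ∑ m, (baseR C p θv T F j k l m * (w2 a b j k * w2 a b l m)).re := by
  rw [jetB]
  congr 1
  refine sum_congr rfl fun j _ => sum_congr rfl fun k _ => sum_congr rfl fun l _ =>
    sum_congr rfl fun m _ => ?_
  rw [wedge_base, wedge_base]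
  have := (ofReal_ne_zero (z := r j)).2 (hr j); have := (ofReal_ne_zero (z := r k)).2 (hr k)
  have := (ofReal_ne_zero (z := r l)).2 (hr l); have := (ofReal_ne_zero (z := r m)).2 (hr m)
  congr 1
  push_cast
  field_simp

theorem jetCr_eq (hr : ∀ i, r i ≠ 0) : jetCr C p θv r T σ (uvec a u r) (uvec b v r)
    = -4 * ∑ j, ∑ k, ∑ l, (mixR C p θv T σ j k l
        * (w2 a b j k * (I * (a l * conj v - b l * conj u)))).re := by
  rw [jetCr]
  congr 1
  refine sum_congr rfl fun j _ => sum_congr rfl fun k _ => sum_congr rfl fun l _ => ?_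
  rw [wedge_base, wedge_mixed]
  have := (ofReal_ne_zero (z := r j)).2 (hr j); have := (ofReal_ne_zero (z := r k)).2 (hr k)
  have := (ofReal_ne_zero (z := r l)).2 (hr l)
  congr 1
  push_cast
  field_simp

/-- The blocks without jets. -/
def diagSec (p k₀ k₁ : ℝ) (θv : Fin 2 → ℝ) (a b : Fin 2 → ℂ) (u v : ℂ) : ℝ :=
  (p + p ^ 2) * (((θv 0 * (w2 a b 0 0).re + θv 1 * (w2 a b 1 1).re) ^ 2
      + (θv 0 * (w2 a b 0 0).re) ^ 2 + (θv 1 * (w2 a b 1 1).re) ^ 2)
      + 2 * (θv 0 * θv 1) * normSq (w2 a b 0 1))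
    + 2 * (I * (u * conj v - v * conj u)).re * (k₀ * (w2 a b 0 0).re + k₁ * (w2 a b 1 1).re)
    + 2 * (k₀ * normSq (I * (a 0 * conj v - b 0 * conj u))
        + k₁ * normSq (I * (a 1 * conj v - b 1 * conj u)))
    + 2 * (I * (u * conj v - v * conj u)).re ^ 2

theorem negCurv_eq_diag {B Cr : ℝ} (hr2 : ∀ i, r i ^ 2 = C + p * θv i)
    (hg : ∀ i, C + p * θv i ≠ 0) :
    negCurv p (fun i => θv i / (C + p * θv i)) B Cr (uvec a u r) (uvec b v r)
      = diagSec p (fibK C p θv 0) (fibK C p θv 1) θv a b u v + B + Cr := by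
  have e0 : wd (uvec a u r) (uvec b v r) 0 = (C + p * θv 0) * (w2 a b 0 0).re := by
    rw [wd, show (0 : Fin 3) = bi 0 from rfl, wedge_base, re_ofReal_mul, ← sq, hr2]
  have e1 : wd (uvec a u r) (uvec b v r) 1 = (C + p * θv 1) * (w2 a b 1 1).re := by
    rw [wd, show (1 : Fin 3) = bi 1 from rfl, wedge_base, re_ofReal_mul, ← sq, hr2]
  have e2 : wd (uvec a u r) (uvec b v r) 2 = (I * (u * conj v - v * conj u)).re := by
    simp [wd, wedge, uvec]
  have e3 : normSq (wedge (uvec a u r) (uvec b v r) 0 1)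
      = (C + p * θv 0) * (C + p * θv 1) * normSq (w2 a b 0 1) := by
    rw [show (0 : Fin 3) = bi 0 from rfl, show (1 : Fin 3) = bi 1 from rfl, wedge_base, map_mul,
      normSq_ofReal, ← hr2, ← hr2]
    ring
  have e4 : ∀ l, normSq (wedge (uvec a u r) (uvec b v r) (bi l) 2)
      = (C + p * θv l) * normSq (I * (a l * conj v - b l * conj u)) := fun l => by
    rw [wedge_mixed, map_mul, normSq_ofReal, ← hr2]
    ring
  have e40 := e4 0
  have e41 := e4 1
  rw [show bi 0 = (0 : Fin 3) from rfl] at e40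
  rw [show bi 1 = (1 : Fin 3) from rfl] at e41
  have h0 := hg 0
  have h1 := hg 1
  simp only [negCurv, e0, e1, e2, e3, e40, e41, diagSec, fibK, mix]
  field_simp

/-- **The sectional numerator is minus half the form.** -/
theorem secOf_eq (hr : ∀ i, 0 < r i) (hr2 : ∀ i, r i ^ 2 = C + p * θv i)
    (hT : ∀ j k l, T j k l = T l k j)
    (hF1 : ∀ j k l m, F j k l m = F l k j m) (hF2 : ∀ j k l m, F j k l m = F j m l k)
    (hF3 : ∀ j k l m, F k j m l = conj (F j k l m)) :
    secOf C p θv T F σ a b u v = -(negCurv p (fun i => θv i / (C + p * θv i))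
      (jetB C p θv r T F (uvec a u r) (uvec b v r)) (jetCr C p θv r T σ (uvec a u r) (uvec b v r))
      (uvec a u r) (uvec b v r)) / 2 := by
  have hg : ∀ i, C + p * θv i ≠ 0 := fun i => (hr2 i) ▸ (pow_pos (hr i) 2).ne'
  obtain ⟨b1, b2, b3⟩ := baseR_symm (C := C) (p := p) (θv := θv) hT hF1 hF2 hF3
  rw [negCurv_eq_diag hr2 hg, jetB_eq fun i => (hr i).ne', jetCr_eq fun i => (hr i).ne',
    four_sec b1 b2 b3, three_sec (fun j k l => by simp only [mixR, hT j k l])]
  simp only [secOf, curvForm, add_re, sub_re, conj_re, mixQ, baseQ, four, three]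
  simp only [diagSec, dth, Fin.sum_univ_two, w2, normSq_apply, mul_re, mul_im, sub_re, sub_im,
    add_re, add_im, conj_re, conj_im, ofReal_re, ofReal_im, I_re, I_im, re_ofNat, im_ofNat]
  ring

end Vale.Agent.P250.Disproof.Model
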