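import Mathlib
import Vale.Agent.P250.Disproof.Sec

/-!
# P250 disproof, part 4: the curvature of the model is pinched for large `C`
-/

open scoped Matrix ComplexConjugate
open Complex Finset

noncomputable section

namespace Vale.Agent.P250.Disproof.Model

/-- The real part of the metric is the standard product in the unitary frame. -/
theorem herm_re_eq {d : Data} {P : Matrix (Fin 2) (Fin 2) ℂ} {θv r : Fin 2 → ℝ}
    (f : d.Frame P θv) (hr2 : ∀ e, r e ^ 2 = d.C + d.p * θv e) (hm : d.m = (1 + d.p) ^ 2)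
    (U V : E3) : (d.herm U V).re = ∑ i, (conj (uvec (co P (hor U)) (fib d U) r i)
      * uvec (co P (hor V)) (fib d V) r i).re := by
  rw [f.herm_eq]
  simp only [hm, ← hr2, uvec, fib, Fin.sum_univ_two, Fin.sum_univ_three, Matrix.cons_val_zero,
    Matrix.cons_val_one, Matrix.cons_val_two, Matrix.head_cons, Matrix.tail_cons,
    add_re, mul_re, mul_im, conj_re, conj_im, ofReal_re, ofReal_im]
  ring

/-- The squared area is the area of the algebra. -/
theorem area_eq {d : Data} {P : Matrix (Fin 2) (Fin 2) ℂ} {θv r : Fin 2 → ℝ}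
    (f : d.Frame P θv) (hr2 : ∀ e, r e ^ 2 = d.C + d.p * θv e) (hm : d.m = (1 + d.p) ^ 2)
    (U V : E3) : d.area U V
      = Alg.area (uvec (co P (hor U)) (fib d U) r) (uvec (co P (hor V)) (fib d V) r) := by
  have hn : ∀ z : ℂ, (conj z * z).re = normSq z := fun z => by
    rw [← normSq_eq_conj_mul_self, ofReal_re]
  simp only [Data.area, herm_re_eq f hr2 hm, Alg.area, hn]

/-- **Part 4, for the model.** The curvature is pinched uniformly in the data for large `C`. -/
theorem pinch : Pinch := by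
  intro κ B hκ
  set θ₁ := max (4 * B) κ
  obtain ⟨C₁, h⟩ := Alg.exists_pinching 1 (κ / max 1 θ₁) (Alg.jetL κ θ₁ (16 * B)) one_pos
    (div_pos hκ (lt_max_of_lt_left one_pos)) (Alg.jetL_pos hκ (le_max_right _ _))
  refine ⟨max 1 C₁, fun C hC => ?_⟩
  obtain ⟨hC1, hC2⟩ := max_le_iff.1 hC
  obtain ⟨-, m, M, hm0, hpinch⟩ := h C hC2
  refine ⟨m / 2, M / 2, half_pos hm0, fun d hd g U V => ?_⟩
  subst hd
  obtain ⟨P, θv, f⟩ := exists_frame d g.herm_θ
  have hB : 0 ≤ B := (norm_nonneg _).trans (g.θ_ub 0 0)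
  have hθl := fun e => (θv_bounds d f g.θ_lb g.θ_ub e).1
  have hθu := fun e => ((θv_bounds d f g.θ_lb g.θ_ub e).2).trans (le_max_left (4 * B) κ)
  have hs : d.s < 1 := g.t_lt
  have hs1 : 0 < 1 - d.s := by linarith
  have hp : 0 ≤ d.p := div_nonneg (normSq_nonneg _) hs1.le
  have hg : ∀ e, 0 < d.C + d.p * θv e := fun e => by
    have := mul_nonneg hp (hκ.le.trans (hθl e)); linarith
  set r : Fin 2 → ℝ := fun e => √(d.C + d.p * θv e)
  have hr : ∀ e, 0 < r e := fun e => Real.sqrt_pos.2 (hg e)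
  have hr2 : ∀ e, r e ^ 2 = d.C + d.p * θv e := fun e => Real.sq_sqrt (hg e).le
  have hm : d.m = (1 + d.p) ^ 2 := by
    simp only [Data.m, Data.p]; field_simp; ring
  have hσ : normSq (((1 + d.p : ℝ) : ℂ) * d.t) = d.p * (1 + d.p) := by
    rw [map_mul, normSq_ofReal]
    have : normSq d.t = d.s := rfl
    rw [this]
    simp only [Data.p]; field_simp; ring
  have hsec : d.sec U V = secOf d.C d.p θv (d.T' P) (d.F' P) (((1 + d.p : ℝ) : ℂ) * d.t)
      (co P (hor U)) (co P (hor V)) (fib d U) (fib d V) := by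
    simp only [Data.sec, secOf, f.Q_eq (fun e => (hg e).ne') hs]
  obtain ⟨h1, h2⟩ := hpinch d.p _ _ _ _ _
    (Alg.jet_data (x := uvec (co P (hor U)) (fib d U) r) (y := uvec (co P (hor V)) (fib d V) r)
      hC1 hp hκ hθl hθu hr hr2 (fun j k l => (norm_T'_le d f g.T_ub j k l).trans (by linarith))
      (fun j k l m => norm_F'_le d f g.F_ub j k l m) hσ)
  rw [hsec, secOf_eq hr hr2 (T'_symm d g.T_symm)
    (F'_symm_holo d fun i j k l => (g.F_symm i j k l).1)
    (F'_symm_anti d fun i j k l => (g.F_symm i j k l).2.1)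
    (F'_conj d fun i j k l => (g.F_symm i j k l).2.2), area_eq f hr2 hm]
  constructor <;> linarith

end Vale.Agent.P250.Disproof.Model
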