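import Mathlib
import Vale.Agent.P250.Disproof.Chart

/-!
P250 disproof: the data of the weight at the centre of a chart of the disc bundle.
-/

open scoped Topology ContDiff ComplexConjugate
open Complex Filter Set

noncomputable section

namespace Vale.Agent.P250.Disproof

open Model

section general

variable {V : Type*} [NormedAddCommGroup V] [NormedSpace ℂ V]
variable {S : Set V} {φ ψ : V → ℂ} {f g : V → ℝ} {y : V}

theorem dz_comb (h : Sm S φ) (k : Sm S ψ) (α β : ℂ) (hy : y ∈ S) (a : V) :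
    dz a (fun x => α * φ x + β * ψ x) y = α * dz a φ y + β * dz a ψ y := by
  rw [dz_add ((h.diffAt hy).const_mul _) ((k.diffAt hy).const_mul _),
    dz_const_mul _ (h.diffAt hy), dz_const_mul _ (k.diffAt hy)]

theorem dzb_comb (h : Sm S φ) (k : Sm S ψ) (α β : ℂ) (hy : y ∈ S) (a : V) :
    dzb a (fun x => α * φ x + β * ψ x) y = α * dzb a φ y + β * dzb a ψ y := by
  rw [dzb_add ((h.diffAt hy).const_mul _) ((k.diffAt hy).const_mul _),
    dzb_const_mul _ (h.diffAt hy), dzb_const_mul _ (k.diffAt hy)]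

theorem dz_dir (α β : ℂ) (u v : V) :
    dz (α • u + β • v) φ = fun x => α * dz u φ x + β * dz v φ x :=
  funext fun x => by rw [dz_add_dir, dz_smul_dir, dz_smul_dir]

theorem dzb_dir (α β : ℂ) (u v : V) :
    dzb (α • u + β • v) φ = fun x => conj α * dzb u φ x + conj β * dzb v φ x :=
  funext fun x => by rw [dzb_add_dir, dzb_smul_dir, dzb_smul_dir]

theorem h2_dir_left (α β : ℂ) (u v d : V) :
    h2 f (α • u + β • v) d = fun x => α * h2 f u d x + β * h2 f v d x := dz_dir α β u v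

theorem h2_dir_right (h : Sm S (cf f)) (α β : ℂ) (c u v : V) :
    EqOn (h2 f c (α • u + β • v))
      (fun x => conj α * h2 f c u x + conj β * h2 f c v x) S := fun z hz => by
  show dz c (dzb (α • u + β • v) (cf f)) z = _
  rw [dzb_dir, dz_comb (h.dzb' u) (h.dzb' v) _ _ hz]
  rfl

theorem dz_real (hf : DifferentiableAt ℝ (cf f) y) (a : V) :
    dz a (cf f) y = conj (dzb a (cf f) y) := by
  have hc : (fun z => conj (cf f z)) = cf f := funext fun z => conj_ofReal _
  rw [← dz_conj hf, hc]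

theorem dz_cf_lin (hf : Sm S (cf f)) (hg : Sm S (cf g)) (r s : ℝ) (c : V) :
    EqOn (dz c (cf fun x => r * f x + s * g x))
      (fun x => (r : ℂ) * dz c (cf f) x + (s : ℂ) * dz c (cf g) x) S := fun z hz => by
  rw [cf_add, cf_smul, cf_smul, dz_comb hf hg _ _ hz]

theorem dz_dz_cf_lin (hf : Sm S (cf f)) (hg : Sm S (cf g)) (r s : ℝ) (hy : y ∈ S) (a c : V) :
    dz a (dz c (cf fun x => r * f x + s * g x)) y =
      r * dz a (dz c (cf f)) y + s * dz a (dz c (cf g)) y := by
  rw [dz_congr_on hf.isOpen (dz_cf_lin hf hg r s c) hy, dz_comb (hf.dz' c) (hg.dz' c) _ _ hy]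

end general

/-! ### Composition with the projection -/

section proj

variable {S : Set B2} {φ : B2 → ℂ} {f : B2 → ℝ} {z : E3}

theorem isOpen_over (hS : IsOpen S) : IsOpen {w : E3 | base w ∈ S} :=
  hS.preimage baseL.continuous

theorem dd_base (hφ : DifferentiableAt ℝ φ (base z)) (a : E3) :
    dd a (fun w => φ (base w)) z = dd (base a) φ (base z) := by
  have h := hφ.hasFDerivAt.comp z (baseL.restrictScalars ℝ).hasFDerivAt
  have h' : HasFDerivAt (fun w => φ (base w))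
    ((fderiv ℝ φ (base z)).comp (baseL.restrictScalars ℝ)) z := h
  simp only [dd, h'.fderiv]
  rfl

theorem dz_base (hφ : DifferentiableAt ℝ φ (base z)) (a : E3) :
    dz a (fun w => φ (base w)) z = dz (base a) φ (base z) := by
  have hI : base (I • a) = I • base a := baseL.map_smul I a
  simp only [dz, dd_base hφ, hI]

theorem dzb_base (hφ : DifferentiableAt ℝ φ (base z)) (a : E3) :
    dzb a (fun w => φ (base w)) z = dzb (base a) φ (base z) := by
  have hI : base (I • a) = I • base a := baseL.map_smul I a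
  simp only [dzb, dd_base hφ, hI]

theorem hh_base (h : Sm S (cf f)) (c d : E3) :
    EqOn (hh (fun w => f (base w)) c d) (fun w => h2 f (base c) (base d) (base w))
      {w | base w ∈ S} := fun z hz => by
  have e : EqOn (dzb d (cf fun w => f (base w))) (fun w => dzb (base d) (cf f) (base w))
      {w | base w ∈ S} := fun w hw => dzb_base (φ := cf f) (h.diffAt hw) d
  rw [hh, dz_congr_on (isOpen_over h.isOpen) e hz, dz_base ((h.dzb' _).diffAt hz)]
  rfl

theorem TT_base (h : Sm S (cf f)) (hz : base z ∈ S) (a c d : E3) :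
    TT (fun w => f (base w)) a c d z = T2 f (base a) (base c) (base d) (base z) := by
  rw [TT, dz_congr_on (isOpen_over h.isOpen) (hh_base h c d) hz, dz_base ((h.h2' _ _).diffAt hz)]
  rfl

theorem XX_base (h : Sm S (cf f)) (hz : base z ∈ S) (a b c d : E3) :
    XX (fun w => f (base w)) a b c d z = X2 f (base a) (base b) (base c) (base d) (base z) := by
  have e : EqOn (dzb b (hh (fun w => f (base w)) c d))
      (fun w => dzb (base b) (h2 f (base c) (base d)) (base w)) {w | base w ∈ S} := fun w hw => by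
    rw [dzb_congr_on (isOpen_over h.isOpen) (hh_base h c d) hw, dzb_base ((h.h2' _ _).diffAt hw)]
  rw [XX, dz_congr_on (isOpen_over h.isOpen) e hz,
    dz_base (((h.h2' _ _).dzb' _).diffAt hz)]
  rfl

variable {y : B2} (h : Sm S (cf f)) (hy : y ∈ S)

theorem base_eq (a : E3) : base a = hor a 0 • bs 0 + hor a 1 • bs 1 := eq_bs (base a)

theorem h2_left (a : E3) (d : B2) :
    h2 f (base a) d y = ∑ i, hor a i * h2 f (bs i) d y := by
  rw [base_eq a, h2_dir_left, Fin.sum_univ_two]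

include h hy

theorem h2_right (c : B2) (e : E3) :
    h2 f c (base e) y = ∑ j, h2 f c (bs j) y * conj (hor e j) := by
  rw [base_eq e, h2_dir_right h _ _ c _ _ hy, Fin.sum_univ_two]
  ring

omit h hy in
theorem T2_left (a : E3) (c d : B2) :
    T2 f (base a) c d y = ∑ i, hor a i * T2 f (bs i) c d y := by
  rw [base_eq a, T2, dz_dir, Fin.sum_univ_two]
  rfl

theorem T2_mid (a : B2) (c : E3) (d : B2) :
    T2 f a (base c) d y = ∑ k, hor c k * T2 f a (bs k) d y := by
  rw [base_eq c, T2, h2_dir_left, dz_comb (h.h2' _ _) (h.h2' _ _) _ _ hy, Fin.sum_univ_two]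
  rfl

theorem T2_right (a c : B2) (e : E3) :
    T2 f a c (base e) y = ∑ j, T2 f a c (bs j) y * conj (hor e j) := by
  rw [base_eq e, T2, dz_congr_on h.isOpen (h2_dir_right h _ _ c _ _) hy,
    dz_comb (h.h2' _ _) (h.h2' _ _) _ _ hy, Fin.sum_univ_two]
  simp only [T2]
  ring

omit h hy in
theorem X2_left (a : E3) (b c d : B2) :
    X2 f (base a) b c d y = ∑ i, hor a i * X2 f (bs i) b c d y := by
  rw [base_eq a, X2, dz_dir, Fin.sum_univ_two]
  rfl

theorem X2_snd (a : B2) (b : E3) (c d : B2) :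
    X2 f a (base b) c d y = ∑ j, conj (hor b j) * X2 f a (bs j) c d y := by
  rw [base_eq b, X2, dzb_dir, dz_comb ((h.h2' _ _).dzb' _) ((h.h2' _ _).dzb' _) _ _ hy,
    Fin.sum_univ_two]
  rfl

theorem X2_thd (a b : B2) (c : E3) (d : B2) :
    X2 f a b (base c) d y = ∑ k, hor c k * X2 f a b (bs k) d y := by
  rw [base_eq c, X2, h2_dir_left,
    dz_congr_on h.isOpen (fun z hz => dzb_comb (h.h2' _ _) (h.h2' _ _) _ _ hz b) hy,
    dz_comb ((h.h2' _ _).dzb' _) ((h.h2' _ _).dzb' _) _ _ hy, Fin.sum_univ_two]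
  rfl

theorem X2_last (a b c : B2) (e : E3) :
    X2 f a b c (base e) y = ∑ l, X2 f a b c (bs l) y * conj (hor e l) := by
  have e1 : EqOn (dzb b (h2 f c (hor e 0 • bs 0 + hor e 1 • bs 1)))
      (fun z => conj (hor e 0) * dzb b (h2 f c (bs 0)) z +
        conj (hor e 1) * dzb b (h2 f c (bs 1)) z) S := fun z hz => by
    rw [dzb_congr_on h.isOpen (h2_dir_right h _ _ c _ _) hz,
      dzb_comb (h.h2' _ _) (h.h2' _ _) _ _ hz]
  rw [base_eq e, X2, dz_congr_on h.isOpen e1 hy,
    dz_comb ((h.h2' _ _).dzb' _) ((h.h2' _ _).dzb' _) _ _ hy, Fin.sum_univ_two]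
  simp only [X2]
  ring

end proj

/-! ### The data -/

variable {p : Params} {x : B2}

/-- The data of the weight in the chart at `x`, over the point `t` of the fibre. -/
def dataAt (p : Params) (x : B2) (t : ℂ) : Data where
  C := p.C
  t := t
  θ := Matrix.of fun i j => h2 (wB p x) (bs i) (bs j) 0
  T := fun i k j => T2 (wB p x) (bs i) (bs k) (bs j) 0
  F := fun i j k l => X2 (wB p x) (bs i) (bs j) (bs k) (bs l) 0

theorem base_pt (t : ℂ) : base (pt t) = 0 := rfl

theorem base_pt_mem (t : ℂ) : base (pt t) ∈ ball2 := by rw [base_pt]; exact zero_mem_ball2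

variable (hJ : Jets p.h p.q) (hx : x ∈ siegel)

theorem sm_ballPot : Sm ball2 (cf ballPot) := sm_cf isOpen_ball2 contDiffOn_ballPot

theorem sm_polPot (D : B2 → ℝ) : Sm ball2 (cf (polPot D)) :=
  sm_cf isOpen_ball2 (contDiff_polPot D).contDiffOn

include hJ hx

theorem sm_dipsAt : Sm ball2 (cf (dipsAt p.h p.q x)) :=
  sm_cf isOpen_ball2 (contDiffOn_dipsAt hJ hx)

theorem sm_redDips : Sm ball2 (cf (redDips p x)) :=
  sm_cf isOpen_ball2 ((contDiffOn_const.mul (contDiffOn_dipsAt hJ hx)).add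
    (contDiffOn_const.mul (contDiff_polPot _).contDiffOn))

theorem sm_wB : Sm ball2 (cf (wB p x)) := sm_cf isOpen_ball2 (contDiffOn_wB hJ hx)

theorem h2_wB (c d : B2) :
    h2 (wB p x) c d 0 = ((p.K * p.eps : ℝ) : ℂ) * h2 ballPot c d 0 +
      (p.K : ℂ) * h2 (dipsAt p.h p.q x) c d 0 := by
  refine (h2_lin sm_ballPot (sm_redDips hJ hx) _ _ c d zero_mem_ball2).trans ?_
  have e : h2 (redDips p x) c d 0 = _ :=
    h2_lin (sm_dipsAt hJ hx) (sm_polPot _) 1 (-1) c d zero_mem_ball2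
  simp [e, h2_polPot]

theorem T2_wB (a c d : B2) :
    T2 (wB p x) a c d 0 = ((p.K * p.eps : ℝ) : ℂ) * T2 ballPot a c d 0 +
      (p.K : ℂ) * T2 (dipsAt p.h p.q x) a c d 0 := by
  refine (T2_lin sm_ballPot (sm_redDips hJ hx) _ _ zero_mem_ball2 a c d).trans ?_
  have e : T2 (redDips p x) a c d 0 = _ :=
    T2_lin (sm_dipsAt hJ hx) (sm_polPot _) 1 (-1) zero_mem_ball2 a c d
  have e0 : T2 (polPot (dipsAt p.h p.q x)) a c d 0 = 0 := by
    rw [T2, funext (h2_polPot _ c d), dz_const]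
  simp [e, e0]

theorem X2_wB (a b c d : B2) :
    X2 (wB p x) a b c d 0 = ((p.K * p.eps : ℝ) : ℂ) * X2 ballPot a b c d 0 +
      (p.K : ℂ) * X2 (dipsAt p.h p.q x) a b c d 0 := by
  refine (X2_lin sm_ballPot (sm_redDips hJ hx) _ _ zero_mem_ball2 a b c d).trans ?_
  have e : X2 (redDips p x) a b c d 0 = _ :=
    X2_lin (sm_dipsAt hJ hx) (sm_polPot _) 1 (-1) zero_mem_ball2 a b c d
  have e0 : X2 (polPot (dipsAt p.h p.q x)) a b c d 0 = 0 := by
    have e1 : dzb b (h2 (polPot (dipsAt p.h p.q x)) c d) = fun _ => 0 := by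
      rw [funext (h2_polPot _ c d)]
      exact funext fun z => dzb_const 0 b
    rw [X2, e1, dz_const]
  simp [e, e0]

theorem dz_wB (a : B2) : dz a (cf (wB p x)) 0 = 0 := by
  have e : dz a (cf (redDips p x)) 0 = _ :=
    dz_cf_lin (sm_dipsAt hJ hx) (sm_polPot _) 1 (-1) a zero_mem_ball2
  have e2 : dz a (cf ballPot) 0 = 0 := by
    rw [dz_real (sm_ballPot.diffAt zero_mem_ball2), dzb_ballPot zero_mem_ball2]
    simp
  refine (dz_cf_lin sm_ballPot (sm_redDips hJ hx) _ _ a zero_mem_ball2).trans ?_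
  simp [e, e2, dz_polPot]

theorem dz_dz_wB (a c : B2) : dz a (dz c (cf (wB p x))) 0 = 0 := by
  have e : dz a (dz c (cf (redDips p x))) 0 = _ :=
    dz_dz_cf_lin (sm_dipsAt hJ hx) (sm_polPot _) 1 (-1) zero_mem_ball2 a c
  have e2 : dz a (dz c (cf ballPot)) 0 = 0 := by
    rw [dz_congr_on isOpen_ball2 (fun z hz => dz_real (sm_ballPot.diffAt hz) c) zero_mem_ball2,
      dz_conj ((sm_ballPot.dzb' c).diffAt zero_mem_ball2), (hd_dzb_ballPot a c).zb, map_zero]
  refine (dz_dz_cf_lin sm_ballPot (sm_redDips hJ hx) _ _ zero_mem_ball2 a c).trans ?_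
  simp [e, e2, dz_dz_polPot (sm_dipsAt hJ hx) zero_mem_ball2]

theorem th_dataAt (t : ℂ) (a c : E3) :
    (dataAt p x t).th (hor a) (hor c) = h2 (wB p x) (base a) (base c) 0 := by
  simp only [Data.th, dataAt, h2_left, h2_right (sm_wB hJ hx) zero_mem_ball2, Matrix.of_apply,
    Fin.sum_univ_two]
  ring

theorem T3_dataAt (t : ℂ) (a c e : E3) :
    (dataAt p x t).T3 (hor a) (hor c) (hor e) = T2 (wB p x) (base a) (base c) (base e) 0 := by
  simp only [Data.T3, dataAt, T2_left, T2_mid (sm_wB hJ hx) zero_mem_ball2,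
    T2_right (sm_wB hJ hx) zero_mem_ball2, Fin.sum_univ_two]
  ring

theorem F4_dataAt (t : ℂ) (a b c e : E3) :
    (dataAt p x t).F4 (hor a) (hor b) (hor c) (hor e) =
      X2 (wB p x) (base a) (base b) (base c) (base e) 0 := by
  simp only [Data.F4, dataAt, X2_left, X2_snd (sm_wB hJ hx) zero_mem_ball2,
    X2_thd (sm_wB hJ hx) zero_mem_ball2, X2_last (sm_wB hJ hx) zero_mem_ball2, Fin.sum_univ_two]
  ring

theorem wjet (t : ℂ) : WJet (wE p x) (dataAt p x t) := by
  have hm : ∀ t, base (pt t) ∈ ball2 := base_pt_mem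
  have h := sm_wB hJ hx
  have e : wE p x = fun w => wB p x (base w) := rfl
  refine ⟨?_, fun a => ?_, fun a c => ?_, fun a c => ?_, fun a c d => ?_, fun a b c d => ?_⟩
  · simp [wE, base_pt, wB, ballPot, redDips, polPot_zero]
  · exact (dz_base (φ := cf (wB p x)) (h.diffAt (hm _)) a).trans (dz_wB hJ hx _)
  · have e1 : EqOn (dz c (cf (wE p x))) (fun w => dz (base c) (cf (wB p x)) (base w))
        {w | base w ∈ ball2} := fun w hw => dz_base (φ := cf (wB p x)) (h.diffAt hw) c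
    rw [dz_congr_on (isOpen_over isOpen_ball2) e1 (hm _),
      dz_base ((h.dz' _).diffAt (hm _)), base_pt]
    exact dz_dz_wB hJ hx _ _
  · rw [th_dataAt hJ hx, e, hh_base h a c (hm _)]
    rfl
  · rw [T3_dataAt hJ hx, e, TT_base h (hm _)]
    rfl
  · rw [F4_dataAt hJ hx, e, XX_base h (hm _)]
    rfl

omit hJ hx in
theorem exists_bound (h q eps K : ℝ) (hJ : Jets h q) :
    ∃ B : ℝ, ∀ p : Params, p.h = h → p.q = q → p.eps = eps → p.K = K → ∀ x ∈ siegel, ∀ t : ℂ,
      normSq t < 1 → (dataAt p x t).Good (K * eps) B := by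
  have hJ' := hJ
  obtain ⟨b, hb⟩ := hJ'
  set M := ∑ m ∈ Finset.range 5, ‖iteratedFDeriv ℝ m ballPot 0‖
  refine ⟨K * eps * M + K * b, fun p e1 e2 e3 e4 x hx t ht => ?_⟩
  subst e1 e2 e3 e4
  have hball : ∀ m : ℕ, 1 ≤ m → m ≤ 4 → ‖iteratedFDeriv ℝ m ballPot 0‖ ≤ M := fun m _ hm =>
    Finset.single_le_sum (f := fun m => ‖iteratedFDeriv ℝ m ballPot 0‖)
      (fun _ _ => norm_nonneg _) (Finset.mem_range.2 (by omega))
  have hdips := (hb x hx).2.1
  have hKe : 0 ≤ p.K * p.eps := (mul_pos p.K_pos p.eps_pos).le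
  have bd : ∀ A D : ℂ, ‖A‖ ≤ M → ‖D‖ ≤ b →
      ‖((p.K * p.eps : ℝ) : ℂ) * A + (p.K : ℂ) * D‖ ≤ p.K * p.eps * M + p.K * b := by
    intro A D hA hD
    refine (norm_add_le _ _).trans ?_
    rw [norm_mul, norm_mul, norm_real, norm_real, Real.norm_eq_abs, Real.norm_eq_abs,
      abs_of_nonneg hKe, abs_of_pos p.K_pos]
    exact add_le_add (mul_le_mul_of_nonneg_left hA hKe)
      (mul_le_mul_of_nonneg_left hD p.K_pos.le)
  have jb := fun a c e g => jets_bound isOpen_ball2 contDiffOn_ballPot zero_mem_ball2 hball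
    (bs a) (bs c) (bs e) (bs g) (norm_bs a) (norm_bs c) (norm_bs e) (norm_bs g)
  have jd := fun a c e g => jets_bound isOpen_ball2 (contDiffOn_dipsAt hJ hx) zero_mem_ball2 hdips
    (bs a) (bs c) (bs e) (bs g) (norm_bs a) (norm_bs c) (norm_bs e) (norm_bs g)
  have hs := sm_wB hJ hx
  refine ⟨ht, fun i j => (conj_h2 hs zero_mem_ball2 _ _).symm, fun a => ?_, fun i j => ?_,
    fun i k j => dz_comm (hs.dzb' _) zero_mem_ball2 _ _, fun i k j => ?_,
    fun i j k l => ⟨X2_swap' hs zero_mem_ball2 _ _ _ _, X2_swap hs zero_mem_ball2 _ _ _ _,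
      (conj_X2 hs zero_mem_ball2 _ _ _ _).symm⟩, fun i j k l => ?_⟩
  · have ea : hor ![a 0, a 1, 0] = a := by funext i; fin_cases i <;> rfl
    rw [← ea, th_dataAt hJ hx, h2_wB hJ hx, h2_ballPot, add_re, re_ofReal_mul, re_ofReal_mul,
      h2_re_self isOpen_ball2 (contDiffOn_dipsAt hJ hx) zero_mem_ball2, ea]
    have h0 := (hb x hx).2.2 (base ![a 0, a 1, 0])
    have h1 : 0 ≤ levi (dipsAt p.h p.q x) 0 (base ![a 0, a 1, 0]) :=
      div_nonneg h0 (by norm_num)
    have e : ((base ![a 0, a 1, 0]).1 * conj (base ![a 0, a 1, 0]).1 +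
        (base ![a 0, a 1, 0]).2 * conj (base ![a 0, a 1, 0]).2).re =
        normSq (a 0) + normSq (a 1) := by simp [base, mul_conj]
    rw [e]
    linarith [mul_nonneg p.K_pos.le h1]
  · show ‖h2 (wB p x) (bs i) (bs j) 0‖ ≤ _
    rw [h2_wB hJ hx]
    exact bd _ _ (jb i i i j).1 (jd i i i j).1
  · show ‖T2 (wB p x) (bs i) (bs k) (bs j) 0‖ ≤ _
    rw [T2_wB hJ hx]
    exact bd _ _ (jb i i k j).2.1 (jd i i k j).2.1
  · show ‖X2 (wB p x) (bs i) (bs j) (bs k) (bs l) 0‖ ≤ _
    rw [X2_wB hJ hx]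
    exact bd _ _ (jb i j k l).2.2 (jd i j k l).2.2

end Vale.Agent.P250.Disproof
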