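import Mathlib
import Vale.Agent.P250.Disproof.WJets
import Vale.Agent.P250.Disproof.PinchModel

/-!
P250 disproof, part 5: the metric of the disc bundle is Kähler and pinched for large `C`.
-/

open scoped Topology ContDiff ComplexConjugate
open Complex Filter Set

noncomputable section

namespace Vale.Agent.P250.Disproof

open Model

variable {p : Params}

/-- Every point is the centre of a chart. -/
theorem exists_chart {y₀ : E3} (hy : y₀ ∈ dom p) :
    ∃ (x : B2) (t : ℂ), x ∈ siegel ∧ pt t ∈ chartDom p x ∧ phi p x (pt t) = y₀ ∧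
      normSq t < 1 ∧ wE p x (pt t) = 0 := by
  have hx : base y₀ ∈ siegel := hy.1
  set x := base y₀ with hxd
  set t := y₀ 2 * cexp (gauge p x 0 / 2) with htd
  have h0 : wE p x (pt t) = 0 := by
    simp [wE, base_pt, wB, ballPot, redDips, polPot_zero]
  have hphi : phi p x (pt t) = y₀ := by
    funext i
    fin_cases i
    · show (nchart x 0).1 = _
      rw [nchart_zero hx]; rfl
    · show (nchart x 0).2 = _
      rw [nchart_zero hx]; rfl
    · show t * cexp (-gauge p x 0 / 2) = y₀ 2
      rw [htd, mul_assoc, ← Complex.exp_add, neg_div, add_neg_cancel, Complex.exp_zero, mul_one]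
  have ht : normSq t < 1 := by
    have h := fib_phi (p := p) hx (base_pt_mem t)
    rw [hphi, h0, Real.exp_zero, mul_one] at h
    exact h ▸ hy.2
  refine ⟨x, t, hx, ⟨base_pt_mem t, ?_⟩, hphi, ht, h0⟩
  rw [h0, Real.exp_zero, mul_one]
  exact ht

/-- The metric is Kähler and its curvature is pinched, uniformly in the point, for large `C`. -/
theorem pinched (h q eps K : ℝ) (_hh : 0 < h) (_hq : 1 < q) (heps : 0 < eps) (hK : 0 < K)
    (hJ : Jets h q) : PinchedForLargeC h q eps K := by
  obtain ⟨B, hB⟩ := exists_bound h q eps K hJ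
  obtain ⟨C₁, hC⟩ := Model.pinch (K * eps) B (mul_pos hK heps)
  refine ⟨C₁, fun p e1 e2 e3 e4 hC1 => ?_⟩
  obtain ⟨a, b, ha, hab⟩ := hC p.C hC1
  have hJp : Jets p.h p.q := by rw [e1, e2]; exact hJ
  have hS := isOpen_dom hJp
  have hpot : ContDiffOn ℝ ∞ (pot p) (dom p) := fun z hz =>
    (contDiffAt_pot hJp hz).contDiffWithinAt
  have hpos : ∀ z ∈ dom p, ∀ u, u ≠ 0 → 0 < ddc (pot p) z u u := by
    intro z hz u hu
    obtain ⟨x, t, hx, hmem, rfl, ht, -⟩ := exists_chart hz
    obtain ⟨u', rfl⟩ := ((changeOn hJp hx).bij _ hmem).2 u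
    have hu' : u' ≠ 0 := fun h0 => hu (by rw [h0, map_zero])
    have e : pull (phi p x) (metric p) (pt t) u' u' = ((dataAt p x t).herm u' u').re := by
      rw [pull_metric hJp hx hmem]
      exact ddc_pt (d := dataAt p x t) rfl (wjet hJp hx t) (mdom hJp hx) hmem u' u'
    rw [← metric_eq_ddc, ← pull_apply, e]
    exact herm_pos (mul_pos hK heps).le (hB p e1 e2 e3 e4 x hx t ht) p.C_pos u' hu'
  refine ⟨isKaehlerOn_ddc hS hpot hpos, a, b, ha, fun z hz u v => ?_⟩
  have hg : MetricOn (metric p) (dom p) := ddc_metricOn hS hpot hpos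
  obtain ⟨x, t, hx, hmem, rfl, ht, -⟩ := exists_chart hz
  have hφ := changeOn hJp hx
  obtain ⟨u', rfl⟩ := (hφ.bij _ hmem).2 u
  obtain ⟨v', rfl⟩ := (hφ.bij _ hmem).2 v
  set d := dataAt p x t with hd
  have hU := isOpen_chartDom hJp hx
  have hM : MetricOn (ddc (mpot p.C (wE p x))) (chartDom p x) :=
    ddc_metricOn hU (contDiffOn_mpot (mdom hJp hx) p.C) fun y hy w hw => by
      rw [← pull_metric hJp hx hy]
      exact (hg.pull hφ).pos y hy w hw
  have hev : pull (phi p x) (metric p) =ᶠ[𝓝 (pt t)] ddc (mpot p.C (wE p x)) :=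
    eventuallyEq_of_mem (hU.mem_nhds hmem) fun y hy => pull_metric hJp hx hy
  have hw := wjet hJp hx t
  have hsec : metric p (phi p x (pt t)) (riem (metric p) (phi p x (pt t))
      (fderiv ℝ (phi p x) (pt t) u') (fderiv ℝ (phi p x) (pt t) v')
      (fderiv ℝ (phi p x) (pt t) v')) (fderiv ℝ (phi p x) (pt t) u') = d.sec u' v' := by
    rw [← sec_pull hg hφ hmem, riem_congr hev, pull_metric hJp hx hmem]
    exact sec_pt (d := d) rfl hw (mdom hJp hx) hmem hM u' v'
  have harea : area2 (metric p) (phi p x (pt t)) (fderiv ℝ (phi p x) (pt t) u')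
      (fderiv ℝ (phi p x) (pt t) v') = d.area u' v' := by
    rw [← area_pt (C := p.C) (d := d) rfl hw (mdom hJp hx) hmem]
    show area2 (pull (phi p x) (metric p)) (pt t) u' v' = area2 _ (pt t) u' v'
    simp only [area2, pull_metric hJp hx hmem]
  rw [hsec, harea]
  exact hab d rfl (hB p e1 e2 e3 e4 x hx t ht) u' v'

end Vale.Agent.P250.Disproof
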