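import Vale.Agent.P250.Disproof.Curve
import Vale.Agent.P250.Disproof.Harnack

/-!
# P250 disproof: the recursion over the scales, and the absence of a minorant
-/

open Complex Filter Set Metric
open scoped Topology

noncomputable section

namespace Vale.Agent.P250.Disproof

/-- The sum of the layers coarser than `j`. -/
def coarse (h q : ℝ) (j : ℕ) (x : B2) : ℝ := ∑ k ∈ Finset.range j, layer h q k x

/-- The number of discs in the Harnack chain. -/
def chainN : ℕ := ⌈400 / rho (curve 0)⌉₊ + 1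

/-- The Harnack constant. -/
def kappa : ℝ := (1 / 3) ^ chainN

theorem kappa_pos : 0 < kappa := by unfold kappa; positivity

/-- The point of the segment from `x` to the level curve. -/
def seg (x : B2) (u : ℂ) : B2 := x + u • (curve 0 - x)

theorem seg_facts {x : B2} (hx1 : ‖x.1‖ ≤ 1) (hx2 : |x.2.re| ≤ 2) (hx3 : rho x = 1) {u : ℝ}
    (h0 : 0 ≤ u) (h1 : u ≤ 1) :
    ‖(seg x u).1‖ ≤ 1 ∧ ‖(seg x u).2‖ ≤ 7 ∧ min 1 (rho (curve 0)) ≤ rho (seg x u) ∧
      rho (seg x u) ≤ 3 / 2 ∧ ‖curve 0 - x‖ ≤ 13 := by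
  obtain ⟨c1, c2, c3⟩ := curve_box (z := 0) ⟨by norm_num, by norm_num⟩
  have hc := rho_curve_zero
  have hn : normSq x.1 ≤ 1 := by rw [normSq_eq_norm_sq]; nlinarith [norm_nonneg x.1]
  have xim : x.2.im = 1 + normSq x.1 := by rw [← hx3]; simp [rho]
  have cim : (curve 0).2.im = rho (curve 0) := by simp [rho, curve]
  have hxw : ‖x.2‖ ≤ 4 := (Complex.norm_le_abs_re_add_abs_im _).trans (by
    rw [xim, abs_of_nonneg (show (0:ℝ) ≤ 1 + normSq x.1 by linarith [normSq_nonneg x.1])]; linarith)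
  have hcw : ‖(curve 0).2‖ ≤ 5 := (Complex.norm_le_abs_re_add_abs_im _).trans (by
    rw [cim, abs_of_pos hc]; linarith)
  have e : seg x u = ((1 - u : ℂ) * x.1, (1 - u : ℂ) * x.2 + (u : ℂ) * (curve 0).2) := by
    refine Prod.ext ?_ ?_ <;> simp [seg, curve] <;> ring
  have er : rho (seg x u) = (1 - u) + u * rho (curve 0) + u * (1 - u) * normSq x.1 := by
    rw [e]; simp [rho, normSq_apply] at *; nlinarith [xim, cim]
  refine ⟨?_, ?_, ?_, ?_, ?_⟩
  · rw [e, norm_mul, ← ofReal_one, ← ofReal_sub, Complex.norm_real, Real.norm_eq_abs,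
      abs_of_nonneg (by linarith)]
    nlinarith [norm_nonneg x.1]
  · rw [e]
    refine (norm_add_le _ _).trans ?_
    rw [norm_mul, norm_mul, ← ofReal_one, ← ofReal_sub, Complex.norm_real, Complex.norm_real,
      Real.norm_eq_abs, Real.norm_eq_abs, abs_of_nonneg (by linarith), abs_of_nonneg h0]
    nlinarith [norm_nonneg x.2, norm_nonneg (curve 0).2]
  · rw [er]
    have := normSq_nonneg x.1
    have h3 : 0 ≤ u * (1 - u) * normSq x.1 := mul_nonneg (mul_nonneg h0 (by linarith)) this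
    rcases le_total 1 (rho (curve 0)) with h | h
    · rw [min_eq_left h]; nlinarith
    · rw [min_eq_right h]; nlinarith
  · rw [er]
    nlinarith [normSq_nonneg x.1, mul_nonneg h0 (sub_nonneg.2 h1), sq_nonneg (u - 1 / 2)]
  · refine max_le ?_ ?_
    · exact (norm_sub_le _ _).trans (by linarith)
    · exact (norm_sub_le _ _).trans (by linarith)

theorem rho_near {p v : B2} (hp : ‖p.1‖ ≤ 1) (hv : ‖v‖ ≤ 1) :
    |rho (p + v) - rho p| ≤ 4 * ‖v‖ := by
  have h1 := norm_fst_le v
  have h2 := norm_snd_le v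
  have e : rho (p + v) - rho p = v.2.im - 2 * ((starRingEnd ℂ) p.1 * v.1).re - ‖v.1‖ ^ 2 := by
    rw [← normSq_eq_norm_sq]; simp [rho, normSq_apply]; ring
  have h3 : |((starRingEnd ℂ) p.1 * v.1).re| ≤ ‖v‖ := by
    refine (abs_re_le_norm _).trans ?_
    rw [norm_mul, RCLike.norm_conj]
    nlinarith [norm_nonneg v.1]
  have h4 : |v.2.im| ≤ ‖v‖ := (abs_im_le_norm _).trans h2
  rw [e, abs_le]
  constructor <;> nlinarith [abs_le.1 h3, abs_le.1 h4, norm_nonneg v.1]

variable {h q : ℝ} {f : B2 → ℂ}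

theorem log_normSq (z : ℂ) : Real.log (normSq z) = 2 * Real.log ‖z‖ := by
  rw [normSq_eq_norm_sq, Real.log_pow]; norm_num

theorem sum_ratio_le (hq : 1 < q) : ∀ j : ℕ,
    ∑ k ∈ Finset.range j, q ^ k * (q ^ j)⁻¹ ≤ 1 / (q - 1) := by
  intro j
  induction j with
  | zero => simp; linarith
  | succ m ih =>
    have e : ∑ k ∈ Finset.range m, q ^ k * (q ^ (m + 1))⁻¹ =
        q⁻¹ * ∑ k ∈ Finset.range m, q ^ k * (q ^ m)⁻¹ := by
      rw [Finset.mul_sum]
      refine Finset.sum_congr rfl fun k _ => ?_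
      rw [pow_succ]; field_simp
    rw [Finset.sum_range_succ, e]
    have hq0 : 0 < q := by linarith
    have e2 : q ^ m * (q ^ (m + 1))⁻¹ = q⁻¹ := by rw [pow_succ]; field_simp
    rw [e2]
    calc q⁻¹ * ∑ k ∈ Finset.range m, q ^ k * (q ^ m)⁻¹ + q⁻¹ ≤ q⁻¹ * (1 / (q - 1)) + q⁻¹ := by
          gcongr
      _ = 1 / (q - 1) := by
          have : q - 1 ≠ 0 := by linarith
          field_simp; ring

/-- One step of the recursion. -/
theorem step {L : ℝ}
    (hL : ∀ (b : ℂ) (σ : ℝ) (v v' : B2), ‖b‖ ≤ 1 → |σ| ≤ 2 → ‖v‖ ≤ 20 → ‖v'‖ ≤ 20 →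
      ‖P (shift b σ v) - P (shift b σ v')‖ ≤ L * ‖v - v'‖) (hL0 : 0 ≤ L)
    (hh : 0 < h) (hq : 2 ≤ q) (hqL : 80 * L / h ≤ q - 1)
    (hqδ : (q ^ 2)⁻¹ ≤ min 1 (rho (curve 0)) / 4)
    (hf : DifferentiableOn ℂ f siegel) (hne : ∀ x ∈ siegel, f x ≠ 0) {K : ℝ} (hK : 0 ≤ K)
    {j : ℕ} {R : ℝ}
    (hdeep : ∀ x, rho x = ((q ^ 2) ^ (j + 1))⁻¹ →
      Real.log (normSq (f x)) ≤ K * coarse h q (j + 1) x + R) :
    ∀ x, rho x = ((q ^ 2) ^ j)⁻¹ →
      Real.log (normSq (f x)) ≤
        K * coarse h q j x + (R + K * (16 - kappa * (15 + gain h))) := by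
  intro x hx
  have hq0 : 0 < q := by linarith
  have hcp := rho_curve_zero
  set m := min 1 (rho (curve 0)) with hm
  have hm0 : 0 < m := lt_min one_pos hcp
  have hm1 : m ≤ 1 := min_le_left _ _
  set δ := (q ^ 2)⁻¹ with hδ
  have hδ0 : 0 < δ := by positivity
  -- normalisation
  obtain ⟨a, s, x0, hx0, hP, hb1, hb2, hb3⟩ := exists_normalise (dil (q ^ j) x)
  rw [rho_dil_pow, hx, mul_inv_cancel₀ (by positivity)] at hb3
  set G : B2 → B2 := fun y => dil ((q ^ j)⁻¹) (shift a s y) with hG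
  have hGx : G x0 = x := by
    simp only [hG]
    rw [hx0, dil_dil, inv_mul_cancel₀ (by positivity)]; simp [dil]
  have hGr : ∀ y, rho (G y) = ((q ^ 2) ^ j)⁻¹ * rho y := fun y => by
    simp only [hG]
    rw [rho_dil, rho_shift, inv_pow, ← pow_mul, ← pow_mul, mul_comm j 2]
  have hGd : Differentiable ℂ G := by unfold G dil shift; fun_prop
  have hlay : ∀ (k : ℕ) (y : B2),
      layer h q k (G y) = dip h (P (dil (q ^ k * (q ^ j)⁻¹) (shift a s y))) := fun k y => by
    simp only [hG, layer, dil_dil]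
  have hlayj : ∀ y, layer h q j (G y) = dip h (P y) := fun y => by
    rw [hlay, mul_inv_cancel₀ (by positivity)]
    simp [dil, hP]
  have hvar : ∀ y ∈ bigBox, ∀ y' ∈ bigBox,
      coarse h q j (G y) ≤ coarse h q j (G y') + 1 := fun y hy y' hy' => by
    have : coarse h q j (G y) - coarse h q j (G y') ≤
        ∑ k ∈ Finset.range j, 80 * L / h * (q ^ k * (q ^ j)⁻¹) := by
      rw [coarse, coarse, ← Finset.sum_sub_distrib]
      refine Finset.sum_le_sum fun k hk => ?_
      rw [hlay, hlay]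
      refine (le_abs_self _).trans (layer_variation hL hL0 hh (by positivity) ?_ a s hy hy')
      rw [← div_eq_mul_inv, div_le_one (by positivity)]
      exact pow_le_pow_right₀ (by linarith) (Finset.mem_range.1 hk).le
    rw [← Finset.mul_sum] at this
    have h2 : 80 * L / h * ∑ k ∈ Finset.range j, q ^ k * (q ^ j)⁻¹ ≤ (q - 1) * (1 / (q - 1)) :=
      mul_le_mul hqL (sum_ratio_le (by linarith) j)
        (Finset.sum_nonneg fun k _ => by positivity) (by linarith)
    rw [mul_one_div_cancel (by linarith)] at h2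
    linarith
  have hx0box : x0 ∈ bigBox := by
    refine ⟨hb1.trans (by norm_num), (Complex.norm_le_abs_re_add_abs_im _).trans ?_⟩
    have e : x0.2.im = 1 + normSq x0.1 := by rw [← hb3]; simp [rho]
    have : normSq x0.1 ≤ 1 := by rw [normSq_eq_norm_sq]; nlinarith [norm_nonneg x0.1]
    rw [e, abs_of_nonneg (show (0:ℝ) ≤ 1 + normSq x0.1 by linarith [normSq_nonneg x0.1])]; linarith
  set A : ℝ := K * (coarse h q j x + 1 + 15) + R with hA
  -- the deep bound in the box
  have hbd : ∀ u ∈ bigBox, rho u = δ → Real.log (normSq (f (G u))) ≤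
      K * (coarse h q j x + 1 + dip h (P u)) + R := fun u hu hur => by
    refine (hdeep _ (by rw [hGr, hur, hδ, ← mul_inv, ← pow_succ])).trans ?_
    rw [show coarse h q (j + 1) (G u) = coarse h q j (G u) + layer h q j (G u) by
      simp [coarse, Finset.sum_range_succ], hlayj]
    have hv := hvar u hu x0 hx0box
    rw [hGx] at hv
    gcongr
  set g : B2 → ℂ := fun y => f (G y) with hg
  have hmaps : MapsTo G siegel siegel := fun y hy => by
    show 0 < rho (G y)
    rw [hGr]; exact mul_pos (by positivity) hy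
  have hgd : DifferentiableOn ℂ g siegel := hf.comp hGd.differentiableOn hmaps
  have hgne : ∀ y ∈ siegel, g y ≠ 0 := fun y hy => hne _ (hmaps hy)
  have toNorm : ∀ (y : B2) (B : ℝ), y ∈ siegel → Real.log (normSq (g y)) ≤ B →
      ‖g y‖ ≤ Real.exp (B / 2) := fun y B hy hB => by
    rw [log_normSq] at hB
    rw [← Real.log_le_iff_le_exp (norm_pos_iff.2 (hgne y hy))]
    linarith
  have hall : ∀ y : B2, ‖y.1‖ ≤ 3 / 2 → ‖y.2‖ ≤ 14 → δ ≤ rho y → rho y ≤ 2 →
      Real.log ‖g y‖ ≤ A / 2 := fun y h1 h2 h3 h4 => by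
    have hy : y ∈ siegel := lt_of_lt_of_le hδ0 h3
    rw [Real.log_le_iff_le_exp (norm_pos_iff.2 (hgne y hy))]
    refine le_of_horiz hgd hδ0 h3 h1 h2 h4 fun u hu hur => toNorm u A ?_ ?_
    · show 0 < rho u; rw [hur]; exact hδ0
    · refine (hbd u hu hur).trans ?_
      rw [hA]
      have hu0 : 0 ≤ rho u := by rw [hur]; exact hδ0.le
      have := dip_le_five hh (norm_P_le_three hu0)
      have := norm_P_le_three hu0
      gcongr
      linarith
  have hq' : Real.log ‖g (curve 0)‖ ≤ (A - K * (15 + gain h)) / 2 := by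
    rw [Real.log_le_iff_le_exp (norm_pos_iff.2 (hgne _ hcp))]
    refine le_at_curve_zero hgd hδ0 (by linarith [min_le_right (1:ℝ) (rho (curve 0))]) fun u hu hur hPu =>
      toNorm u _ ?_ ((hbd u hu hur).trans (le_of_eq ?_))
    · show 0 < rho u; rw [hur]; exact hδ0
    · rw [hA, hPu, dip_lvl]; ring
  -- the chain
  set N : ℕ := chainN with hN
  have hN0 : (0 : ℝ) < N := by simp [hN, chainN]; positivity
  have hN1 : 400 / rho (curve 0) ≤ (N : ℝ) := by
    simp [hN, chainN]
    linarith [Nat.le_ceil (400 / rho (curve 0))]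
  set V : ℕ → ℝ := fun i => A / 2 - Real.log ‖g (seg x0 ((i : ℝ) / N : ℝ))‖ with hV
  have hstep : ∀ i, i + 1 ≤ N → V (i + 1) / 3 ≤ V i := fun i hi => by
    set u : ℝ := ((i + 1 : ℕ) : ℝ) / N with hu
    have hu0 : 0 ≤ u := by positivity
    have hu1 : u ≤ 1 := by rw [hu, div_le_one hN0]; exact_mod_cast hi
    obtain ⟨s1, s2, s3, s4, s5⟩ := seg_facts hb1 hb2 hb3 hu0 hu1
    set line : ℂ → B2 := fun τ => seg x0 u + (τ / (N : ℂ)) • (curve 0 - x0) with hline
    have hbox : ∀ τ ∈ ball (0 : ℂ) 2, ‖(line τ).1‖ ≤ 3 / 2 ∧ ‖(line τ).2‖ ≤ 14 ∧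
        δ ≤ rho (line τ) ∧ rho (line τ) ≤ 2 := fun τ hτ => by
      rw [mem_ball_zero_iff] at hτ
      set v : B2 := (τ / (N : ℂ)) • (curve 0 - x0) with hv
      have hvn : ‖v‖ ≤ m / 12 := by
        rw [hv, norm_smul, norm_div, Complex.norm_natCast]
        refine (mul_le_mul (div_le_div_of_nonneg_right hτ.le hN0.le) s5 (norm_nonneg _)
          (by positivity)).trans ?_
        rw [div_mul_eq_mul_div, div_le_iff₀ hN0]
        rcases le_total 1 (rho (curve 0)) with h1 | h1
        · have : rho (curve 0) ≤ 5 / 4 := (curve_box (z := 0) ⟨by norm_num, by norm_num⟩).2.2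
          rw [hm, min_eq_left h1]
          rw [div_le_iff₀ hcp] at hN1
          nlinarith
        · rw [hm, min_eq_right h1]
          rw [div_le_iff₀ hcp] at hN1
          nlinarith
      have hr := abs_le.1 (rho_near s1 (hvn.trans (by linarith) : ‖v‖ ≤ 1))
      refine ⟨?_, ?_, ?_, ?_⟩
      · calc ‖(line τ).1‖ ≤ ‖(seg x0 u).1‖ + ‖v.1‖ := norm_add_le _ _
          _ ≤ 3 / 2 := by linarith [norm_fst_le v]
      · calc ‖(line τ).2‖ ≤ ‖(seg x0 u).2‖ + ‖v.2‖ := norm_add_le _ _
          _ ≤ 14 := by linarith [norm_snd_le v]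
      · show δ ≤ rho (seg x0 u + v); linarith [hr.1]
      · show rho (seg x0 u + v) ≤ 2; linarith [hr.2]
    have hin : MapsTo line (ball (0 : ℂ) 2) siegel := fun τ hτ =>
      lt_of_lt_of_le hδ0 (hbox τ hτ).2.2.1
    have hH := harnack_log (f := fun τ => g (line τ)) (c := 0) (z := -1) (A := A / 2)
      (by norm_num : (0:ℝ) < 2)
      (hgd.comp (by unfold line; fun_prop) hin) (fun τ hτ => hgne _ (hin hτ))
      (fun τ hτ => hall _ (hbox τ hτ).1 (hbox τ hτ).2.1 (hbox τ hτ).2.2.1 (hbox τ hτ).2.2.2)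
      (by simp)
    have e0 : line 0 = seg x0 u := by simp [hline]
    have e1 : line (-1) = seg x0 ((i : ℝ) / N : ℝ) := by
      simp only [hline, seg, add_assoc, ← add_smul, hu]
      congr 2
      push_cast
      ring
    rw [e0, e1] at hH
    exact hH
  have hchain : ∀ k, k ≤ N → V N * (1 / 3) ^ k ≤ V (N - k) := by
    intro k
    induction k with
    | zero => simp
    | succ k ih =>
      intro hk
      have h1 := ih (by omega)
      have h2 := hstep (N - (k + 1)) (by omega)
      rw [show N - (k + 1) + 1 = N - k by omega] at h2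
      rw [pow_succ]
      linarith
  have hend := hchain N le_rfl
  rw [Nat.sub_self] at hend
  have e0 : seg x0 (((0 : ℕ) : ℝ) / N : ℝ) = x0 := by simp [seg]
  have eN : seg x0 (((N : ℝ) / N : ℝ) : ℝ) = curve 0 := by
    rw [div_self hN0.ne']; simp [seg]
  simp only [hV, e0, eN] at hend
  have hgx : Real.log ‖g x0‖ = Real.log (normSq (f x)) / 2 := by
    simp only [hg, hGx, log_normSq]; ring
  rw [hgx] at hend
  have hk : kappa * (K * (15 + gain h) / 2) ≤ (A / 2 - Real.log ‖g (curve 0)‖) * (1 / 3) ^ N := by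
    rw [mul_comm, kappa, ← hN]
    gcongr
    linarith
  rw [hA] at hend hk
  nlinarith

/-- The weight one level down is the coarse part plus a bounded tail. -/
theorem weight_top (p : Params) (hq : 2 ≤ p.q) (M : ℕ) {x : B2}
    (hx : rho x = ((p.q ^ 2) ^ M)⁻¹) :
    weight p x - 3 * Real.log (rho x) ≤
      p.K * coarse p.h p.q M x +
        (20 * p.K + (M : ℝ) * (2 * Real.log p.q * (p.K * p.eps + 3))) := by
  have hq0 : 0 < p.q := by linarith
  have hxS : x ∈ siegel := by show 0 < rho x; rw [hx]; positivity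
  have hsum := summable_layer p.h_pos p.q_big hxS
  have hlog : Real.log (rho x) = -((M : ℝ) * (2 * Real.log p.q)) := by
    rw [hx, Real.log_inv, Real.log_pow, Real.log_pow]; norm_num
  have hY : rho (dil (p.q ^ M) x) = 1 := by
    rw [rho_dil_pow, hx, mul_inv_cancel₀ (by positivity)]
  have htail : ∑' k, layer p.h p.q (k + M) x = dips p.h p.q (dil (p.q ^ M) x) := by
    refine tsum_congr fun k => ?_
    simp only [layer, dil_dil, pow_add]
  have h20 := dips_le_twenty p.h_pos hq hY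
  have e : dips p.h p.q x = coarse p.h p.q M x + dips p.h p.q (dil (p.q ^ M) x) := by
    rw [← htail, coarse, dips]; exact (hsum.sum_add_tsum_nat_add M).symm
  rw [weight, e, hlog]
  nlinarith [p.K_pos]

theorem exists_noMinorant :
    ∃ h q eps K : ℝ, 0 < h ∧ 1 < q ∧ 0 < eps ∧ 0 < K ∧
      ∀ p : Params, p.h = h → p.q = q → p.eps = eps → p.K = K → NoMinorant p := by
  obtain ⟨L, hL0, hL⟩ := exists_lip
  have hcp := rho_curve_zero
  set m := min 1 (rho (curve 0)) with hm
  have hm0 : 0 < m := lt_min one_pos hcp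
  set Q₀ : ℝ := 80 * L + 2 + 4 / m with hQ
  have hQ2 : 2 ≤ Q₀ := by have : 0 < 4 / m := by positivity
                          linarith
  have hκ := kappa_pos
  set lh : ℝ := max 0 ((17 + kappa * Real.log Q₀) / (kappa * (3 / 2))) with hlh
  set h : ℝ := Real.exp (-lh) with hh'
  have hh : 0 < h := Real.exp_pos _
  have hh1 : h ≤ 1 := Real.exp_le_one_iff.2 (by simp [hlh])
  set q : ℝ := Q₀ / h with hq'
  have hQq : Q₀ ≤ q := by rw [hq', le_div_iff₀ hh]; nlinarith
  have hq : 2 ≤ q := hQ2.trans hQq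
  have hlogh : Real.log (1 / h) = lh := by rw [one_div, Real.log_inv, hh', Real.log_exp, neg_neg]
  have hlogq : Real.log q = Real.log Q₀ + lh := by
    rw [hq', Real.log_div (by linarith) hh.ne', hh', Real.log_exp]; ring
  have hlq0 : 0 < Real.log q := Real.log_pos (by linarith)
  set K : ℝ := 6 * Real.log q + 1 with hKdef
  have hK : 0 < K := by positivity
  refine ⟨h, q, kappa / 4, K, hh, by linarith, by positivity, hK, ?_⟩
  intro p ph pq pe pK f C₀ hf hne hbound
  have hqL : 80 * L / h ≤ q - 1 := by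
    rw [hq', le_sub_iff_add_le, div_add_one hh.ne']
    gcongr
    have : 0 < 4 / m := by positivity
    linarith
  have hqδ : (q ^ 2)⁻¹ ≤ m / 4 := by
    have h4 : 4 / m ≤ q := by
      have : 0 ≤ 80 * L + 2 := by positivity
      linarith
    have h5 : 4 / m ≤ q ^ 2 := h4.trans (by nlinarith)
    calc (q ^ 2)⁻¹ ≤ (4 / m)⁻¹ := inv_anti₀ (by positivity) h5
      _ = m / 4 := inv_div _ _
  set D : ℝ := K * (16 - kappa * (15 + gain h)) with hD
  set T : ℝ := 2 * Real.log q * (K * (kappa / 4) + 3) with hT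
  -- the coefficient of the number of levels is negative
  have hneg : D + T ≤ -1 := by
    have hg := two_log_le_gain hh
    rw [hlogh] at hg
    have hl : (17 + kappa * Real.log Q₀) / (kappa * (3 / 2)) ≤ lh := le_max_right _ _
    rw [div_le_iff₀ (by positivity)] at hl
    have hl0 : 0 ≤ Real.log Q₀ := Real.log_nonneg (by linarith)
    have : kappa * (2 * lh) ≤ kappa * gain h := mul_le_mul_of_nonneg_left hg hκ.le
    have h16 : 16 - kappa * (15 + gain h) + 2 * Real.log q * (kappa / 4) ≤ -1 := by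
      rw [hlogq]; nlinarith [mul_nonneg hκ.le hl0]
    have := mul_le_mul_of_nonneg_left h16 hK.le
    rw [hD, hT]
    nlinarith
  have hlev : ∀ (M d : ℕ), d ≤ M → ∀ x, rho x = ((q ^ 2) ^ (M - d))⁻¹ →
      Real.log (normSq (f x)) ≤
        K * coarse h q (M - d) x + (C₀ + 20 * K + (M : ℝ) * T + (d : ℝ) * D) := by
    intro M d
    induction d with
    | zero =>
      intro _ x hx
      simp only [Nat.sub_zero] at hx ⊢
      have hxS : x ∈ siegel := by show 0 < rho x; rw [hx]; positivity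
      have h1 := hbound x hxS
      have h2 := weight_top p (by rw [pq]; exact hq) M (x := x) (by rw [pq]; exact hx)
      rw [ph, pq, pe, pK] at h2
      push_cast
      rw [hT]
      linarith
    | succ d ih =>
      intro hd x hx
      have hidx : M - (d + 1) + 1 = M - d := by omega
      have hs := step hL hL0 hh hq hqL hqδ hf hne hK.le (j := M - (d + 1))
        (R := C₀ + 20 * K + (M : ℝ) * T + (d : ℝ) * D)
        (by rw [hidx]; exact ih (by omega)) x hx
      push_cast
      rw [hD] at hs ⊢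
      linarith
  set x₀ : B2 := (0, I)
  have hx₀ : rho x₀ = 1 := by simp [x₀, rho]
  obtain ⟨M, hM⟩ := exists_nat_gt (C₀ + 20 * K - Real.log (normSq (f x₀)))
  have hf0 := hlev M M le_rfl x₀ (by simp [hx₀])
  simp only [Nat.sub_self, coarse, Finset.range_zero, Finset.sum_empty, mul_zero, zero_add] at hf0
  have : (M : ℝ) * (D + T) ≤ (M : ℝ) * (-1) := mul_le_mul_of_nonneg_left hneg (Nat.cast_nonneg M)
  linarith

end Vale.Agent.P250.Disproof
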